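import Claimed.Agent.R252.Remez.Misc
import Claimed.Agent.R252.Remez.Mv

/-!
# ROW 252 (S0492), unit S4E (post BP-252-S4E, sub-architect helper222, under helper269): CONTRACT of the ABSTRACT one-scale cores of
`04-critical-paths.tex` l.1420-1730 (proof of `prop:candidate-upgrade`: comparison of the time candidates, improved time charts, coefficient bounds).

PAPER-FREE.  Imports: Mathlib + the polynomial kit `R252/Remez`.  Prefix `k4e_` / `k4e` / `K4e`.  The `sorry`s are the leaves `L-252-S4E-*`: prove IN PLACE, statement verbatim, helper lemmas directly above (same prefix).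
* **A** one quadratic `A w² + b w + c` in the hidden variable: discriminant, the root `k4eRoot` selected by the sign of the derivative (03 (a02:nearest-quadratic-root)), invariance of the branch along a line piece,
  the two types of representative tests (l.1606-1620), coefficient recovery (a03:coefficient-recovery).
* **M** the base marginal of one candidate index (a03:candidate-marginal): at each exact base only `4 (1 + V/(lo h))` hidden bins satisfy the tests.
* **B** posterior probabilities of a FINITE label given the observation, the pair law (a03:covered-pair-law) WITHOUT disintegration (`rnDeriv` w.r.t. the total law), posterior-neighbour lists (a03:posterior-neighbors).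
* **C** light entries.      * **D** bins of code vectors ("jet bins") and their bounded neighbour lists.
* **H** the class `k4eSh` of comparison graphs and the THREE HUBS consumed from Sec. 3 (`K4eMatch` = Cor 3.4, `K4eRemez`, `K4eCode` = L3.1), as `def … : Prop`.
* **L** the bad pairs of one group are negligible (l.1499-1570): `k4e_bad_small`.
The assembly on `R252/Base` (`k4e_core`) is in `S4E/CoreContract.lean`.
-/

set_option autoImplicit false

namespace Claimed.Agent.R252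

open MeasureTheory
open scoped ENNReal BigOperators Classical

noncomputable section

/-! ## A. one quadratic in the hidden variable -/

/-- the root of `A w² + b w + c` at which the derivative is `s √D`, `s = ±1` (for `A = 0` the root of the linear equation) -/
def k4eRoot (A b c s : ℝ) : ℝ := if A = 0 then -c / b else (-b + s * Real.sqrt (b ^ 2 - 4 * A * c)) / (2 * A)

/-- the discriminant `P_w² - 2 P_ww P` does not depend on `w` -/
theorem k4e_disc (A b c w : ℝ) : (2 * A * w + b) ^ 2 - 2 * (2 * A) * (A * w ^ 2 + b * w + c) = b ^ 2 - 4 * A * c := by ring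

/-- **LEAF L-252-S4E-A1** (03 (a02:nearest-quadratic-root)).  `s` = sign of `P_w(w)`.
PROOF.  `A = 0`: `s b > 0`, `√(b²) = s b`, `f = -c/b`.  `A ≠ 0`: `2 A f + b = s √D`, `A f² + b f + c = ((2Af+b)² - D)/(4A) = 0`; `|P_w| = s P_w`; `(P_w - s√D)(s P_w + √D) = s (P_w² - D) = 4 A s P` (`k4e_disc`), divide by `2A`. -/
theorem k4e_near_root (A b c w s : ℝ) (hs : s = 1 ∨ s = -1) (hw : 0 < s * (2 * A * w + b)) (hD : 0 ≤ b ^ 2 - 4 * A * c) :
    A * k4eRoot A b c s ^ 2 + b * k4eRoot A b c s + c = 0 ∧ 2 * A * k4eRoot A b c s + b = s * Real.sqrt (b ^ 2 - 4 * A * c) ∧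
      |w - k4eRoot A b c s| * (|2 * A * w + b| + Real.sqrt (b ^ 2 - 4 * A * c)) = 2 * |A * w ^ 2 + b * w + c| := by
  have hs2 : s * s = 1 := by rcases hs with rfl | rfl <;> norm_num
  have habs : |2 * A * w + b| = s * (2 * A * w + b) := by
    rcases hs with rfl | rfl
    · rw [abs_of_pos (by linarith)]; ring
    · rw [abs_of_neg (by linarith)]; ring
  by_cases hA : A = 0
  · have hf : k4eRoot A b c s = -c / b := by simp [k4eRoot, hA]
    subst hA
    have hsb : 0 < s * b := by simpa using hw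
    have hb : b ≠ 0 := by
      rintro rfl
      simp at hsb
    have habs' : |b| = s * b := by simpa using habs
    have hsq : Real.sqrt (b ^ 2 - 4 * 0 * c) = s * b := by
      rw [show b ^ 2 - 4 * 0 * c = b ^ 2 by ring, Real.sqrt_sq_eq_abs, habs']
    rw [hf, hsq]
    refine ⟨by field_simp; ring, by linear_combination (-b) * hs2, ?_⟩
    have e1 : w - -c / b = (0 * w ^ 2 + b * w + c) / b := by field_simp; ring
    have e2 : |2 * 0 * w + b| = |b| := by congr 1; ring
    have hb' : |b| ≠ 0 := abs_ne_zero.2 hb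
    rw [e1, e2, ← habs', abs_div]
    field_simp
    ring
  · set r := Real.sqrt (b ^ 2 - 4 * A * c) with hr
    have hr0 : 0 ≤ r := Real.sqrt_nonneg _
    have hrr : r * r = b ^ 2 - 4 * A * c := Real.mul_self_sqrt hD
    have hf : k4eRoot A b c s = (-b + s * r) / (2 * A) := by
      unfold k4eRoot
      rw [if_neg hA]
    have h2 : 2 * A * k4eRoot A b c s + b = s * r := by
      rw [hf]; field_simp; ring
    have h1 : A * k4eRoot A b c s ^ 2 + b * k4eRoot A b c s + c = 0 := by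
      have e : 4 * A * (A * k4eRoot A b c s ^ 2 + b * k4eRoot A b c s + c)
          = (2 * A * k4eRoot A b c s + b) ^ 2 - (b ^ 2 - 4 * A * c) := by ring
      rw [h2, ← hrr] at e
      have e' : 4 * A * (A * k4eRoot A b c s ^ 2 + b * k4eRoot A b c s + c) = 0 := by
        rw [e]; linear_combination (r * r) * hs2
      rcases mul_eq_zero.1 e' with h | h
      · exact absurd (by linarith : A = 0) hA
      · exact h
    refine ⟨h1, h2, ?_⟩
    set p := 2 * A * w + b with hp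
    have hpos : 0 < s * p + r := by linarith
    have e1 : w - k4eRoot A b c s = (p - s * r) / (2 * A) := by
      rw [hf, hp]; field_simp; ring
    have e2 : (p - s * r) * (s * p + r) = s * (2 * (2 * A) * (A * w ^ 2 + b * w + c)) := by
      have := k4e_disc A b c w
      rw [← hp, ← hrr] at this
      linear_combination s * this + (- p * r) * hs2
    have hsabs : |s| = 1 := by rcases hs with rfl | rfl <;> simp
    have h2A : |2 * A| ≠ 0 := abs_ne_zero.2 (by positivity)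
    rw [e1, habs, abs_div, div_mul_eq_mul_div, ← abs_of_pos hpos, ← abs_mul, e2, abs_mul, hsabs, one_mul,
      abs_mul, abs_mul, div_eq_iff h2A]
    simp only [abs_two]
    ring

/-- **LEAF L-252-S4E-A2** (l.1478-1482).  Along a line piece on which the discriminant is `≥ D₀` and the value is small the sign of `P_w` is constant and `w` stays near ONE branch.
PROOF.  `P_w² = D + 4 A P ≥ D₀ - 4|A|V ≥ D₀/2 > 0` (`k4e_disc`); `t ↦ 2 A w t + b t` is continuous and has no zero on the interval `I` (any order-connected set, e.g. `Ico`): constant sign (`Set.OrdConnected.isPreconnected`, intermediate value theorem; empty `I`: `s = 1`).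
Then `k4e_near_root` and `√D ≥ √D₀`. -/
theorem k4e_branch_line (A : ℝ) (b c w : ℝ → ℝ) (I : Set ℝ) (hI : I.OrdConnected) (V D₀ : ℝ) (hb : ContinuousOn b I) (hw : ContinuousOn w I)
    (hD₀ : 0 < D₀) (hD : ∀ t ∈ I, D₀ ≤ b t ^ 2 - 4 * A * c t)
    (hV : ∀ t ∈ I, |A * w t ^ 2 + b t * w t + c t| ≤ V) (hAV : 8 * |A| * V ≤ D₀) :
    ∃ s : ℝ, (s = 1 ∨ s = -1) ∧ ∀ t ∈ I, 0 < s * (2 * A * w t + b t) ∧ |w t - k4eRoot A (b t) (c t) s| * Real.sqrt D₀ ≤ 2 * V := by
  have hg : ContinuousOn (fun t => 2 * A * w t + b t) I := (continuousOn_const.mul hw).add hb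
  -- no zero
  have hne : ∀ t ∈ I, 2 * A * w t + b t ≠ 0 := by
    intro t ht h0
    have h1 := k4e_disc A (b t) (c t) (w t)
    rw [h0] at h1
    have h2 := hD t ht
    have h3 := hV t ht
    have h4 : |A * (A * w t ^ 2 + b t * w t + c t)| ≤ |A| * V := by
      rw [abs_mul]
      exact mul_le_mul_of_nonneg_left h3 (abs_nonneg _)
    have h5 := (abs_le.mp h4).1
    nlinarith
  -- the final estimate once the sign is known
  have hfin : ∀ s : ℝ, (s = 1 ∨ s = -1) → ∀ t ∈ I, 0 < s * (2 * A * w t + b t) →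
      |w t - k4eRoot A (b t) (c t) s| * Real.sqrt D₀ ≤ 2 * V := by
    intro s hs t ht hpos
    have hDt := hD t ht
    have h3 := (k4e_near_root A (b t) (c t) (w t) s hs hpos (hD₀.le.trans hDt)).2.2
    have h4 : Real.sqrt D₀ ≤ |2 * A * w t + b t| + Real.sqrt (b t ^ 2 - 4 * A * c t) :=
      (Real.sqrt_le_sqrt hDt).trans (le_add_of_nonneg_left (abs_nonneg _))
    calc |w t - k4eRoot A (b t) (c t) s| * Real.sqrt D₀
        ≤ |w t - k4eRoot A (b t) (c t) s| * (|2 * A * w t + b t| + Real.sqrt (b t ^ 2 - 4 * A * c t)) :=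
          mul_le_mul_of_nonneg_left h4 (abs_nonneg _)
      _ = 2 * |A * w t ^ 2 + b t * w t + c t| := h3
      _ ≤ 2 * V := by linarith [hV t ht]
  by_cases hex : ∃ t₀ ∈ I, 0 < 2 * A * w t₀ + b t₀
  · obtain ⟨t₀, ht₀, hp₀⟩ := hex
    have hpos : ∀ t ∈ I, 0 < 2 * A * w t + b t := by
      intro t ht
      by_contra hcon
      have hle : 2 * A * w t + b t ≤ 0 := not_lt.mp hcon
      obtain ⟨u, hu, hu0⟩ := hI.isPreconnected.intermediate_value ht ht₀ hg ⟨hle, hp₀.le⟩
      exact hne u hu hu0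
    refine ⟨1, Or.inl rfl, fun t ht => ?_⟩
    have h1 : 0 < (1 : ℝ) * (2 * A * w t + b t) := by simpa using hpos t ht
    exact ⟨h1, hfin 1 (Or.inl rfl) t ht h1⟩
  · refine ⟨-1, Or.inr rfl, fun t ht => ?_⟩
    have h0 : ¬ 0 < 2 * A * w t + b t := fun h => hex ⟨t, ht, h⟩
    have h1 : 0 < (-1 : ℝ) * (2 * A * w t + b t) := by
      have := lt_of_le_of_ne (not_lt.mp h0) (hne t ht)
      linarith
    exact ⟨h1, hfin (-1) (Or.inr rfl) t ht h1⟩

/-- **LEAF L-252-S4E-A3** (03 (a02:critical-center), l.1443-1447, l.1617).  The affine critical centre. -/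
theorem k4e_center (A b w U κ : ℝ) (hκ : 0 < κ) (hA : κ ≤ |2 * A|) (hU : |2 * A * w + b| ≤ U) : |w - -b / (2 * A)| ≤ U / κ := by
  have h2A : 0 < |2 * A| := lt_of_lt_of_le hκ hA
  have hA0 : 2 * A ≠ 0 := abs_pos.1 h2A
  have hA1 : A ≠ 0 := fun h => hA0 (by rw [h, mul_zero])
  have e : w - -b / (2 * A) = (2 * A * w + b) / (2 * A) := by
    field_simp
    ring
  have hU0 : 0 ≤ U := le_trans (abs_nonneg _) hU
  rw [e, abs_div]
  exact div_le_div₀ hU0 hU hκ hA

/-- **LEAF L-252-S4E-A3** (l.1606-1614).  Representative of low curvature, normalised by `δ` = size of the derivative on the branch.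
PROOF.  `P(w) = P_w(f)(w-f) + A (w-f)²`, `P_w(w) = P_w(f) + 2A(w-f)`. -/
theorem k4e_rep_low (A b c f w δ η κ : ℝ) (hδ : 0 < δ) (hf : A * f ^ 2 + b * f + c = 0) (h1 : δ / 2 ≤ |2 * A * f + b|) (h2 : |2 * A * f + b| ≤ 2 * δ)
    (hw : |w - f| ≤ η) (hκ : |2 * A| ≤ κ) (hs : κ * η ≤ δ / 4) :
    |A * w ^ 2 + b * w + c| / δ ≤ 3 * η ∧ 1 / 4 ≤ |2 * A * w + b| / δ ∧ |2 * A * w + b| / δ ≤ 9 / 4 := by
  have hη : 0 ≤ η := le_trans (abs_nonneg _) hw
  have hκ0 : 0 ≤ κ := le_trans (abs_nonneg _) hκ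
  have hx : |2 * A * (w - f)| ≤ δ / 4 := by
    rw [abs_mul]
    exact (mul_le_mul hκ hw (abs_nonneg _) hκ0).trans hs
  have eP : A * w ^ 2 + b * w + c = (2 * A * f + b) * (w - f) + (2 * A * (w - f)) * (w - f) / 2 := by
    linear_combination hf
  have eD : 2 * A * w + b = (2 * A * f + b) + 2 * A * (w - f) := by ring
  refine ⟨?_, ?_, ?_⟩
  · rw [div_le_iff₀ hδ, eP]
    have t1 : |(2 * A * f + b) * (w - f)| ≤ 2 * δ * η := by
      rw [abs_mul]; exact mul_le_mul h2 hw (abs_nonneg _) (by positivity)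
    have t2 : |(2 * A * (w - f)) * (w - f) / 2| ≤ δ / 4 * η / 2 := by
      rw [abs_div, abs_mul, abs_two]
      exact div_le_div_of_nonneg_right (mul_le_mul hx hw (abs_nonneg _) (by positivity)) (by norm_num)
    have := abs_add_le ((2 * A * f + b) * (w - f)) ((2 * A * (w - f)) * (w - f) / 2)
    nlinarith
  · rw [le_div_iff₀ hδ, eD]
    have := abs_sub_abs_le_abs_sub (2 * A * f + b) (-(2 * A * (w - f)))
    rw [abs_neg, sub_neg_eq_add] at this
    linarith
  · rw [div_le_iff₀ hδ, eD]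
    have := abs_add_le (2 * A * f + b) (2 * A * (w - f))
    linarith

/-- **LEAF L-252-S4E-A3** (l.1615-1618).  Representative of high curvature: use `w` minus the affine centre (`k4e_center` at `f`, triangle inequality). -/
theorem k4e_rep_high (A b f w U η κ : ℝ) (hκ : 0 < κ) (hA : κ ≤ |2 * A|) (hU : |2 * A * f + b| ≤ U) (hw : |w - f| ≤ η) :
    |w - -b / (2 * A)| ≤ η + U / κ := by
  have h := k4e_center A b f U κ hκ hA hU
  have e : w - -b / (2 * A) = (w - f) + (f - -b / (2 * A)) := by ring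
  rw [e]
  exact (abs_add_le _ _).trans (add_le_add hw h)

/-- **LEAF L-252-S4E-A3** (a03:coefficient-recovery). -/
theorem k4e_coef (A b c w U V W : ℝ) (hw : |w| ≤ W) (hU : |2 * A * w + b| ≤ U) (hV : |A * w ^ 2 + b * w + c| ≤ V) :
    |b| ≤ U + 2 * |A| * W ∧ |c| ≤ V + |A| * W ^ 2 + |b| * W := by
  have hW : 0 ≤ W := le_trans (abs_nonneg _) hw
  constructor
  · have e : b = (2 * A * w + b) - 2 * A * w := by ring
    have h1 : |2 * A * w| ≤ 2 * |A| * W := by
      rw [abs_mul, abs_mul, abs_two]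
      exact mul_le_mul_of_nonneg_left hw (by positivity)
    have h2 := abs_sub (2 * A * w + b) (2 * A * w)
    rw [← e] at h2
    linarith
  · have e : c = (A * w ^ 2 + b * w + c) - A * w ^ 2 - b * w := by ring
    have h1 : |A * w ^ 2| ≤ |A| * W ^ 2 := by
      rw [abs_mul, abs_pow]
      exact mul_le_mul_of_nonneg_left (pow_le_pow_left₀ (abs_nonneg _) hw 2) (abs_nonneg _)
    have h2 : |b * w| ≤ |b| * W := by
      rw [abs_mul]
      exact mul_le_mul_of_nonneg_left hw (abs_nonneg _)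
    have h3 := abs_sub ((A * w ^ 2 + b * w + c) - A * w ^ 2) (b * w)
    have h4 := abs_sub (A * w ^ 2 + b * w + c) (A * w ^ 2)
    rw [← e] at h3
    linarith

/-- **LEAF L-252-S4E-A3** (l.1449-1452).  At a counted point of a test of low curvature the discriminant is comparable to `P_w²` (`k4e_disc`). -/
theorem k4e_disc_comp (A b c w V lo : ℝ) (hV : |A * w ^ 2 + b * w + c| ≤ V) (hlo : lo ≤ |2 * A * w + b|) (h0 : 0 ≤ lo) (hAV : 8 * |A| * V ≤ lo ^ 2) :
    (2 * A * w + b) ^ 2 / 2 ≤ b ^ 2 - 4 * A * c ∧ b ^ 2 - 4 * A * c ≤ 3 / 2 * (2 * A * w + b) ^ 2 := by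
  have hd := k4e_disc A b c w
  have h1 : lo ^ 2 ≤ (2 * A * w + b) ^ 2 := by
    rw [← sq_abs (2 * A * w + b)]
    exact pow_le_pow_left₀ h0 hlo 2
  have h2 : |A * (A * w ^ 2 + b * w + c)| ≤ |A| * V := by
    rw [abs_mul]
    exact mul_le_mul_of_nonneg_left hV (abs_nonneg _)
  obtain ⟨h3, h4⟩ := abs_le.1 h2
  constructor <;> nlinarith

/-! ## M. the base marginal of one candidate -/

theorem k4e_proj_closed {X : Type} [TopologicalSpace X] (Z : Set (X × ℝ)) (hZ : IsClosed Z) (α β : ℝ) :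
    IsClosed {x : X | ∃ w ∈ Set.Icc α β, (x, w) ∈ Z} := by
  have : CompactSpace (Set.Icc α β) := isCompact_iff_compactSpace.mp isCompact_Icc
  have hc : Continuous fun p : X × Set.Icc α β => (p.1, (p.2 : ℝ)) := by fun_prop
  have h1 : IsClosed ((fun p : X × Set.Icc α β => (p.1, (p.2 : ℝ))) ⁻¹' Z) := hZ.preimage hc
  have h2 := isClosedMap_fst_of_compactSpace _ h1
  convert h2 using 1
  ext x
  constructor
  · rintro ⟨w, hw, hx⟩
    exact ⟨(x, ⟨w, hw⟩), hx, rfl⟩
  · rintro ⟨⟨x', w⟩, hx, rfl⟩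
    exact ⟨w, w.2, hx⟩

/-- **LEAF L-252-S4E-M1**.  The projection of a closed set along a half-open interval is measurable.
PROOF.  `Ico α β = ⋃_k Icc α (β - 1/(k+1))`; `{x | ∃ w ∈ Icc α β', (x,w) ∈ Z}` is the image under `Prod.fst` of the closed set `Z ∩ (univ ×ˢ Icc α β')`, closed because `Icc` is compact
(`IsCompact.isClosed...`: e.g. `isClosedMap_fst_of_compactSpace` on `X × Icc`, or sequences/filters directly). -/
theorem k4e_proj_meas {X : Type} [TopologicalSpace X] [MeasurableSpace X] [OpensMeasurableSpace X] (Z : Set (X × ℝ)) (hZ : IsClosed Z) (α β : ℝ) :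
    MeasurableSet {x : X | ∃ w ∈ Set.Ico α β, (x, w) ∈ Z} := by
  have e : {x : X | ∃ w ∈ Set.Ico α β, (x, w) ∈ Z} = ⋃ k : ℕ, {x : X | ∃ w ∈ Set.Icc α (β - 1 / ((k : ℝ) + 1)), (x, w) ∈ Z} := by
    ext x
    simp only [Set.mem_ofPred_eq, Set.mem_iUnion]
    constructor
    · rintro ⟨w, hw, hx⟩
      obtain ⟨k, hk⟩ := exists_nat_one_div_lt (sub_pos.mpr hw.2)
      exact ⟨k, w, ⟨hw.1, by linarith⟩, hx⟩
    · rintro ⟨k, w, hw, hx⟩
      have : (0 : ℝ) < 1 / ((k : ℝ) + 1) := by positivity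
      exact ⟨w, ⟨hw.1, by linarith [hw.2]⟩, hx⟩
  rw [e]
  exact MeasurableSet.iUnion fun k => (k4e_proj_closed Z hZ α _).measurableSet

/-- **LEAF L-252-S4E-M2** (a03:candidate-marginal).  `μ` = incidence measure, `bs` = exact base, `hw` = hidden coordinate, bins of width `h`; every bin has base density `≤ cap`.
On `S` a quadratic test has value `≤ V` and derivative `≥ lo`.  Then the base marginal of `S` has density `≤ cap · 4 (1 + V/(lo h))`.
PROOF.  `G d := {o | ∃ w ∈ Ico (d h) ((d+1) h), |A w² + b o w + c o| ≤ V ∧ lo ≤ |2 A w + b o|}` is measurable (`k4e_proj_meas`).  For measurable `F`: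
`μ (S ∩ bs⁻¹ F) = ∑' d, μ (S ∩ bs⁻¹ F ∩ {bin = d}) ≤ ∑' d, (μ.restrict {bin = d}).map bs (F ∩ G d) ≤ cap ∑' d, vol (F ∩ G d) = cap ∫_F #{d | o ∈ G d} ≤ cap · M · vol F`, where `#{d | o ∈ G d} ≤ M` by `rmz_quad_bins` (`w₀ = 0`, `δ = h`). -/
theorem k4e_marginal {Ω X : Type} [MeasurableSpace Ω] [TopologicalSpace X] [MeasurableSpace X] [BorelSpace X] (μ : Measure Ω) (vol : Measure X)
    (bs : Ω → X) (hw : Ω → ℝ) (hbs : Measurable bs) (hhw : Measurable hw) (h : ℝ) (hh : 0 < h) (cap : ℝ≥0∞)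
    (hcap : ∀ d : ℤ, (μ.restrict {x | ⌊hw x / h⌋ = d}).map bs ≤ cap • vol)
    (A : ℝ) (b c : X → ℝ) (hb : Continuous b) (hc : Continuous c) (V lo : ℝ) (hV : 0 ≤ V) (hlo : 0 < lo)
    (S : Set Ω) (hS : MeasurableSet S) (hval : ∀ x ∈ S, |A * hw x ^ 2 + b (bs x) * hw x + c (bs x)| ≤ V)
    (hder : ∀ x ∈ S, lo ≤ |2 * A * hw x + b (bs x)|) :
    (μ.restrict S).map bs ≤ (cap * ENNReal.ofReal (4 * (1 + V / (lo * h)))) • vol := by
  obtain ⟨Z, hZdef⟩ : ∃ Z : Set (X × ℝ), Z = {q | |A * q.2 ^ 2 + b q.1 * q.2 + c q.1| ≤ V ∧ lo ≤ |2 * A * q.2 + b q.1|} :=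
    ⟨_, rfl⟩
  have hZ : IsClosed Z := by
    rw [hZdef]
    have c1 : Continuous fun q : X × ℝ => |A * q.2 ^ 2 + b q.1 * q.2 + c q.1| := by fun_prop
    have c2 : Continuous fun q : X × ℝ => |2 * A * q.2 + b q.1| := by fun_prop
    exact (isClosed_le c1 continuous_const).inter (isClosed_le continuous_const c2)
  obtain ⟨G, hGdef⟩ : ∃ G : ℤ → Set X, G = fun d : ℤ => {o : X | ∃ w ∈ Set.Ico ((d : ℝ) * h) (((d : ℝ) + 1) * h), (o, w) ∈ Z} :=
    ⟨_, rfl⟩
  have hG : ∀ d, MeasurableSet (G d) := by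
    intro d
    rw [hGdef]
    exact k4e_proj_meas Z hZ _ _
  have hbin : ∀ d : ℤ, MeasurableSet {x | ⌊hw x / h⌋ = d} := fun d =>
    (hhw.div_const h).floor (measurableSet_singleton d)
  -- the number of bins over one base point
  have hcount : ∀ o : X, ∑' d : ℤ, (G d).indicator (fun _ => (1 : ℝ≥0∞)) o ≤ ENNReal.ofReal (4 * (1 + V / (lo * h))) := by
    intro o
    obtain ⟨T, hT, hT'⟩ := rmz_quad_bins A (b o) (c o) V lo h 0 hV hlo hh
    have hsupp : ∀ d ∉ T, (G d).indicator (fun _ => (1 : ℝ≥0∞)) o = 0 := by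
      intro d hd
      refine Set.indicator_of_notMem (fun ho => hd ?_) _
      rw [hGdef] at ho
      obtain ⟨w, hw1, hw2⟩ := ho
      rw [hZdef] at hw2
      have h3 := hT' w hw2.1 hw2.2
      have h4 : ⌊(w - 0) / h⌋ = d := by
        rw [sub_zero, Int.floor_eq_iff, le_div_iff₀ hh, div_lt_iff₀ hh]
        exact hw1
      rwa [h4] at h3
    rw [tsum_eq_sum hsupp]
    calc ∑ d ∈ T, (G d).indicator (fun _ => (1 : ℝ≥0∞)) o ≤ ∑ d ∈ T, (1 : ℝ≥0∞) :=
          Finset.sum_le_sum fun d _ => Set.indicator_le_self' (fun _ _ => zero_le) o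
      _ = (T.card : ℝ≥0∞) := by simp
      _ = ENNReal.ofReal (T.card : ℝ) := (ENNReal.ofReal_natCast _).symm
      _ ≤ _ := ENNReal.ofReal_le_ofReal hT
  rw [Measure.le_iff]
  intro F hF
  rw [Measure.map_apply hbs hF, Measure.restrict_apply (hbs hF)]
  have hsub : bs ⁻¹' F ∩ S ⊆ ⋃ d : ℤ, (bs ⁻¹' (F ∩ G d) ∩ {x | ⌊hw x / h⌋ = d}) := by
    intro x hx
    refine Set.mem_iUnion.2 ⟨⌊hw x / h⌋, ⟨hx.1, ?_⟩, rfl⟩
    show bs x ∈ G ⌊hw x / h⌋
    rw [hGdef]
    refine ⟨hw x, ⟨?_, ?_⟩, ?_⟩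
    · have := Int.floor_le (hw x / h)
      rwa [le_div_iff₀ hh] at this
    · have := Int.lt_floor_add_one (hw x / h)
      rwa [div_lt_iff₀ hh] at this
    · rw [hZdef]
      exact ⟨hval x hx.2, hder x hx.2⟩
  calc μ (bs ⁻¹' F ∩ S) ≤ μ (⋃ d : ℤ, (bs ⁻¹' (F ∩ G d) ∩ {x | ⌊hw x / h⌋ = d})) := measure_mono hsub
    _ ≤ ∑' d : ℤ, μ (bs ⁻¹' (F ∩ G d) ∩ {x | ⌊hw x / h⌋ = d}) := measure_iUnion_le _
    _ = ∑' d : ℤ, ((μ.restrict {x | ⌊hw x / h⌋ = d}).map bs) (F ∩ G d) := by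
        refine tsum_congr fun d => ?_
        rw [Measure.map_apply hbs (hF.inter (hG d)), Measure.restrict_apply (hbs (hF.inter (hG d)))]
    _ ≤ ∑' d : ℤ, cap * vol (F ∩ G d) := by
        refine ENNReal.tsum_le_tsum fun d => ?_
        have := hcap d (F ∩ G d)
        simpa using this
    _ = cap * ∑' d : ℤ, vol (F ∩ G d) := ENNReal.tsum_mul_left
    _ = cap * ∑' d : ℤ, ∫⁻ o in F, (G d).indicator (fun _ => (1 : ℝ≥0∞)) o ∂vol := by
        congr 1
        refine tsum_congr fun d => ?_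
        rw [lintegral_indicator (hG d), setLIntegral_const, one_mul, Measure.restrict_apply (hG d), Set.inter_comm]
    _ = cap * ∫⁻ o in F, ∑' d : ℤ, (G d).indicator (fun _ => (1 : ℝ≥0∞)) o ∂vol := by
        rw [lintegral_tsum fun d => (measurable_const.indicator (hG d)).aemeasurable]
    _ ≤ cap * ∫⁻ _ in F, ENNReal.ofReal (4 * (1 + V / (lo * h))) ∂vol :=
        mul_le_mul_right (lintegral_mono hcount) _
    _ = (cap * ENNReal.ofReal (4 * (1 + V / (lo * h)))) * vol F := by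
        rw [setLIntegral_const, mul_assoc]
    _ = ((cap * ENNReal.ofReal (4 * (1 + V / (lo * h)))) • vol) F := by simp

/-- A set carrying mass `≥ thr` of a measure with density `≤ cap` has volume `≥ thr / cap` (written without division). -/
theorem k4e_vol_of_mass {X : Type} [MeasurableSpace X] (ν vol : Measure X) (cap : ℝ≥0∞) (hν : ν ≤ cap • vol) (F : Set X) : ν F ≤ cap * vol F := by
  have h := hν F
  simpa using h

/-! ## B. posteriors of a finite label, pair law, neighbour lists -/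

section Post

variable {X E : Type} [MeasurableSpace X] [Fintype E]

/-- the law of the observation -/
def k4eTot (lam : E → Measure X) : Measure X := ∑ e, lam e

/-- the posterior probability of the label `e` given the observation -/
def k4ePost (lam : E → Measure X) (e : E) : X → ℝ≥0∞ := (lam e).rnDeriv (k4eTot lam)

/-- the pair law (observation, two independent posterior labels), (a03:covered-pair-law) -/
def k4ePair (lam : E → Measure X) (e₁ e₂ : E) : Measure X := (k4eTot lam).withDensity fun x => k4ePost lam e₁ x * k4ePost lam e₂ x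

theorem k4e_le_tot (lam : E → Measure X) (e : E) : lam e ≤ k4eTot lam := by
  unfold k4eTot
  rw [Measure.le_iff]
  intro s _
  rw [Measure.finsetSum_apply]
  exact Finset.single_le_sum (f := fun e => lam e s) (fun _ _ => zero_le) (Finset.mem_univ e)

theorem k4e_tot_finite (lam : E → Measure X) [∀ e, IsFiniteMeasure (lam e)] : IsFiniteMeasure (k4eTot lam) := by
  unfold k4eTot
  infer_instance

theorem k4e_post_measurable (lam : E → Measure X) (e : E) : Measurable (k4ePost lam e) :=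
  Measure.measurable_rnDeriv _ _

/-- **LEAF L-252-S4E-B1**.  (`lam e ≤ k4eTot lam`, so `lam e ≪ k4eTot lam`; `Measure.withDensity_rnDeriv_eq`.) -/
theorem k4e_post_density (lam : E → Measure X) [∀ e, IsFiniteMeasure (lam e)] (e : E) : (k4eTot lam).withDensity (k4ePost lam e) = lam e := by
  have := k4e_tot_finite lam
  exact Measure.withDensity_rnDeriv_eq _ _ (Measure.absolutelyContinuous_of_le (k4e_le_tot lam e))

/-- **LEAF L-252-S4E-B1**.  The posteriors sum to one.  (`withDensity (∑ post) = ∑ lam = tot = withDensity 1`; uniqueness of densities of a finite measure: `withDensity_eq_iff`.) -/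
theorem k4e_post_sum (lam : E → Measure X) [∀ e, IsFiniteMeasure (lam e)] : ∀ᵐ x ∂(k4eTot lam), ∑ e, k4ePost lam e x = 1 := by
  have := k4e_tot_finite lam
  have hm : Measurable fun x => ∑ e, k4ePost lam e x := Finset.measurable_sum _ fun e _ => k4e_post_measurable lam e
  have h1 : (k4eTot lam).withDensity (fun x => ∑ e, k4ePost lam e x) = (k4eTot lam).withDensity (fun _ => 1) := by
    rw [withDensity_const, one_smul]
    ext s hs
    rw [withDensity_apply _ hs, lintegral_finsetSum _ fun e _ => k4e_post_measurable lam e]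
    conv_rhs => unfold k4eTot
    rw [Measure.finsetSum_apply]
    refine Finset.sum_congr rfl fun e _ => ?_
    rw [← withDensity_apply _ hs, k4e_post_density lam e]
  exact (withDensity_eq_iff_of_sigmaFinite hm.aemeasurable aemeasurable_const).1 h1

/-- **LEAF L-252-S4E-B1**.  Each marginal of the pair law is the original law. -/
theorem k4e_pair_marg (lam : E → Measure X) [∀ e, IsFiniteMeasure (lam e)] (e₁ : E) : ∑ e₂, k4ePair lam e₁ e₂ = lam e₁ := by
  ext s hs
  rw [Measure.finsetSum_apply]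
  unfold k4ePair
  simp only [withDensity_apply _ hs]
  rw [← lintegral_finsetSum (f := fun e x => k4ePost lam e₁ x * k4ePost lam e x) _
    fun e _ => (k4e_post_measurable lam e₁).mul (k4e_post_measurable lam e)]
  conv_rhs => rw [← k4e_post_density lam e₁, withDensity_apply _ hs]
  refine lintegral_congr_ae (ae_restrict_of_ae ?_)
  filter_upwards [k4e_post_sum lam] with x hx
  rw [← Finset.mul_sum, hx, mul_one]

theorem k4e_pair_comm (lam : E → Measure X) (e₁ e₂ : E) : k4ePair lam e₁ e₂ = k4ePair lam e₂ e₁ := by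
  unfold k4ePair
  congr 1
  funext x
  exact mul_comm _ _

/-- **LEAF L-252-S4E-B1**.  (`k4e_pair_marg`.) -/
theorem k4e_pair_le (lam : E → Measure X) [∀ e, IsFiniteMeasure (lam e)] (e₁ e₂ : E) : k4ePair lam e₁ e₂ ≤ lam e₁ := by
  rw [← k4e_pair_marg lam e₁, Measure.le_iff]
  intro s _
  rw [Measure.finsetSum_apply]
  exact Finset.single_le_sum (f := fun e => k4ePair lam e₁ e s) (fun _ _ => zero_le) (Finset.mem_univ e₂)

/-- **LEAF L-252-S4E-B2** (a03:posterior-neighbors, l.1572-1590).  `Nb e` = neighbour list of the label `e`.  Choosing for each observation the label whose neighbour list has the largest posterior probability gives a measurable list rule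
whose success is at least the pair mass of the neighbouring pairs.
PROOF.  `sc e x := ∑ e' ∈ Nb e, post e' x` (measurable).  Enumerate `E` (`Fintype.equivFin`), `e*(x)` := the first maximiser of `sc · x`; `{x | e* x = e}` is a finite Boolean combination of the sets `{sc e x ≤ sc e' x}`.   `L x := Nb (e* x)` (`∅` if `E` is empty).
`∑_e lam e {e ∈ L} = ∫ sc (e* x) x d tot` (`k4e_post_density`, `withDensity_apply`, `lintegral_finset_sum`) `≥ ∫ ∑_e post e x · sc e x d tot` (`k4e_post_sum`) `= ∑_{e₁} ∑_{e₂ ∈ Nb e₁} pair e₁ e₂ univ`. -/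
theorem k4e_list [DecidableEq E] (lam : E → Measure X) [∀ e, IsFiniteMeasure (lam e)] (Nb : E → Finset E) :
    ∃ L : X → Finset E, (∀ x, L x = ∅ ∨ ∃ e, L x = Nb e) ∧ (∀ e, MeasurableSet {x | e ∈ L x}) ∧
      ∑ e₁, ∑ e₂ ∈ Nb e₁, k4ePair lam e₁ e₂ Set.univ ≤ ∑ e, lam e {x | e ∈ L x} := by
  classical
  rcases isEmpty_or_nonempty E with hE | hE
  · exact ⟨fun _ => ∅, fun x => Or.inl rfl, fun e => by simp, by simp⟩
  have hpm : ∀ e, Measurable (k4ePost lam e) := fun e => Measure.measurable_rnDeriv _ _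
  let sc : E → X → ℝ≥0∞ := fun e x => ∑ e' ∈ Nb e, k4ePost lam e' x
  have hsc : ∀ e, Measurable (sc e) := fun e => Finset.measurable_sum _ fun e' _ => hpm e'
  obtain ⟨g, hg⟩ := exists_surjective_nat E
  have hp : ∀ x, ∃ k, ∀ e', sc e' x ≤ sc (g k) x := by
    intro x
    obtain ⟨e, -, he⟩ := Finset.exists_max_image Finset.univ (fun e => sc e x) Finset.univ_nonempty
    obtain ⟨k, rfl⟩ := hg e
    exact ⟨k, fun e' => he e' (Finset.mem_univ _)⟩
  have hm : ∀ k, MeasurableSet {x | ∀ e', sc e' x ≤ sc (g k) x} := by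
    intro k
    have h1 : {x | ∀ e', sc e' x ≤ sc (g k) x} = ⋂ e', {x | sc e' x ≤ sc (g k) x} := by
      ext x
      simp
    rw [h1]
    exact MeasurableSet.iInter fun e' => measurableSet_le (hsc e') (hsc (g k))
  have hk : Measurable fun x => Nat.find (hp x) := measurable_find hp hm
  have hS : ∀ e, MeasurableSet {x | e ∈ Nb (g (Nat.find (hp x)))} := fun e =>
    hk (MeasurableSet.of_discrete (s := {k | e ∈ Nb (g k)}))
  refine ⟨fun x => Nb (g (Nat.find (hp x))), fun x => Or.inr ⟨_, rfl⟩, hS, ?_⟩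
  have hR : ∀ e, lam e {x | e ∈ Nb (g (Nat.find (hp x)))} =
      ∫⁻ x, ({x | e ∈ Nb (g (Nat.find (hp x)))}).indicator (k4ePost lam e) x ∂(k4eTot lam) := by
    intro e
    conv_lhs => rw [← k4e_post_density lam e]
    rw [withDensity_apply _ (hS e), lintegral_indicator (hS e)]
  have hL : ∀ e₁ e₂, k4ePair lam e₁ e₂ Set.univ =
      ∫⁻ x, k4ePost lam e₁ x * k4ePost lam e₂ x ∂(k4eTot lam) := by
    intro e₁ e₂
    unfold k4ePair
    rw [withDensity_apply _ MeasurableSet.univ, Measure.restrict_univ]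
  simp only [hR, hL]
  rw [← lintegral_finsetSum _ (fun e _ => (hpm e).indicator (hS e))]
  have h2 : ∀ e₁, ∑ e₂ ∈ Nb e₁, ∫⁻ x, k4ePost lam e₁ x * k4ePost lam e₂ x ∂(k4eTot lam) =
      ∫⁻ x, ∑ e₂ ∈ Nb e₁, k4ePost lam e₁ x * k4ePost lam e₂ x ∂(k4eTot lam) := fun e₁ =>
    (lintegral_finsetSum _ (fun e₂ _ => (hpm e₁).mul (hpm e₂))).symm
  simp only [h2]
  have h4 : ∑ e₁, ∫⁻ x, ∑ e₂ ∈ Nb e₁, k4ePost lam e₁ x * k4ePost lam e₂ x ∂(k4eTot lam) =
      ∫⁻ x, ∑ e₁, ∑ e₂ ∈ Nb e₁, k4ePost lam e₁ x * k4ePost lam e₂ x ∂(k4eTot lam) :=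
    (lintegral_finsetSum Finset.univ (f := fun e₁ x => ∑ e₂ ∈ Nb e₁, k4ePost lam e₁ x * k4ePost lam e₂ x)
      (fun e₁ _ => Finset.measurable_sum _ fun e₂ _ => (hpm e₁).mul (hpm e₂))).symm
  rw [h4]
  refine lintegral_mono_ae ?_
  filter_upwards [k4e_post_sum lam] with x hx
  have h3 : ∑ e, ({x | e ∈ Nb (g (Nat.find (hp x)))}).indicator (k4ePost lam e) x =
      sc (g (Nat.find (hp x))) x := by
    simp only [Set.indicator_apply, Set.mem_ofPred_eq]
    rw [← Finset.sum_filter]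
    refine Finset.sum_congr ?_ fun _ _ => rfl
    ext e
    simp
  rw [h3]
  calc ∑ e₁, ∑ e₂ ∈ Nb e₁, k4ePost lam e₁ x * k4ePost lam e₂ x
      = ∑ e₁, k4ePost lam e₁ x * sc e₁ x := Finset.sum_congr rfl fun e₁ _ => (Finset.mul_sum _ _ _).symm
    _ ≤ ∑ e₁, k4ePost lam e₁ x * sc (g (Nat.find (hp x))) x :=
        Finset.sum_le_sum fun e₁ _ => mul_le_mul' le_rfl (Nat.find_spec (hp x) e₁)
    _ = (∑ e₁, k4ePost lam e₁ x) * sc (g (Nat.find (hp x))) x := (Finset.sum_mul _ _ _).symm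
    _ = sc (g (Nat.find (hp x))) x := by rw [hx, one_mul]

end Post

/-! ## C. light entries -/

/-- **LEAF L-252-S4E-C1** (l.1512-1515).  Entries `e` of the chart `par e`, at most `nE` per chart, chart weights `∑ m ≤ 1`: the entries of mass `< m τ` have total mass `≤ nE τ`.
PROOF.  `∑_{light} ms ≤ ∑_e m (par e) τ = ∑_q #{par = q} m q τ` (`Finset.sum_fiberwise`). -/
theorem k4e_light {Q E : Type} [Fintype Q] [Fintype E] [DecidableEq Q] (par : E → Q) (m : Q → ℝ≥0∞) (ms : E → ℝ≥0∞) (nE : ℕ) (τ : ℝ≥0∞)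
    (hsum : ∑ q, m q ≤ 1) (hcard : ∀ q, (Finset.univ.filter fun e => par e = q).card ≤ nE) :
    ∑ e ∈ Finset.univ.filter (fun e => ms e < m (par e) * τ), ms e ≤ nE * τ := by
  rw [Finset.sum_filter]
  calc ∑ e, (if ms e < m (par e) * τ then ms e else 0) ≤ ∑ e, m (par e) * τ := by
        refine Finset.sum_le_sum fun e _ => ?_
        split_ifs with h
        · exact h.le
        · exact zero_le
    _ = ∑ q, ∑ e ∈ Finset.univ.filter (fun e => par e = q), m (par e) * τ := (Finset.sum_fiberwise _ _ _).symm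
    _ = ∑ q, ((Finset.univ.filter fun e => par e = q).card : ℝ≥0∞) * (m q * τ) := by
        refine Finset.sum_congr rfl fun q _ => ?_
        rw [Finset.sum_congr rfl (g := fun _ => m q * τ) (fun e he => by rw [(Finset.mem_filter.mp he).2]),
          Finset.sum_const, nsmul_eq_mul]
    _ ≤ ∑ q, (nE : ℝ≥0∞) * (m q * τ) := by
        refine Finset.sum_le_sum fun q _ => ?_
        gcongr
        exact hcard q
    _ = (nE : ℝ≥0∞) * τ * ∑ q, m q := by
        rw [Finset.mul_sum]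
        refine Finset.sum_congr rfl fun q _ => ?_
        ring
    _ ≤ (nE : ℝ≥0∞) * τ * 1 := by gcongr
    _ = nE * τ := mul_one _

/-- **LEAF L-252-S4E-C1**.  The same count for a bound chart by chart: groups `g` of the chart `par g`, at most `nG` per chart, each with `Bd g ≤ m (par g) τ`. -/
theorem k4e_group_sum {Q G : Type} [Fintype Q] [Fintype G] [DecidableEq Q] (par : G → Q) (m : Q → ℝ≥0∞) (Bd : G → ℝ≥0∞) (nG : ℕ) (τ : ℝ≥0∞)
    (hsum : ∑ q, m q ≤ 1) (hcard : ∀ q, (Finset.univ.filter fun g => par g = q).card ≤ nG) (hB : ∀ g, Bd g ≤ m (par g) * τ) :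
    ∑ g, Bd g ≤ nG * τ := by
  calc ∑ g, Bd g ≤ ∑ g, m (par g) * τ := Finset.sum_le_sum fun g _ => hB g
    _ = ∑ q, ∑ g ∈ Finset.univ.filter (fun g => par g = q), m (par g) * τ := (Finset.sum_fiberwise _ _ _).symm
    _ = ∑ q, ((Finset.univ.filter fun g => par g = q).card : ℝ≥0∞) * (m q * τ) := by
        refine Finset.sum_congr rfl fun q _ => ?_
        rw [Finset.sum_congr rfl (g := fun _ => m q * τ) (fun g hg => by rw [(Finset.mem_filter.mp hg).2]),
          Finset.sum_const, nsmul_eq_mul]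
    _ ≤ ∑ q, (nG : ℝ≥0∞) * (m q * τ) := by
        refine Finset.sum_le_sum fun q _ => ?_
        gcongr
        exact hcard q
    _ = (nG : ℝ≥0∞) * τ * ∑ q, m q := by
        rw [Finset.mul_sum]
        refine Finset.sum_congr rfl fun q _ => ?_
        ring
    _ ≤ (nG : ℝ≥0∞) * τ * 1 := by gcongr
    _ = nG * τ := mul_one _

/-! ## D. bins of code vectors -/

/-- the bin of a code vector at step `η` -/
def k4eBin {m : ℕ} (η : ℝ) (J : Fin m → ℝ) : Fin m → ℤ := fun k => ⌊J k / η⌋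

/-- the bins at sup-distance `≤ r` -/
def k4eNbr {m : ℕ} (r : ℕ) (b : Fin m → ℤ) : Finset (Fin m → ℤ) := Fintype.piFinset fun k => Finset.Icc (b k - r) (b k + r)

/-- **LEAF L-252-S4E-D1**.  (`Fintype.card_piFinset`, `Int.card_Icc`.) -/
theorem k4e_nbr_card {m : ℕ} (r : ℕ) (b : Fin m → ℤ) : (k4eNbr r b).card = (2 * r + 1) ^ m := by
  unfold k4eNbr
  rw [Fintype.card_piFinset]
  have h : ∀ k : Fin m, (Finset.Icc (b k - r) (b k + r)).card = 2 * r + 1 := by
    intro k
    rw [Int.card_Icc]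
    have : b k + (r : ℤ) + 1 - (b k - r) = ((2 * r + 1 : ℕ) : ℤ) := by push_cast; ring
    rw [this, Int.toNat_natCast]
  simp only [h, Finset.prod_const, Finset.card_univ, Fintype.card_fin]

/-- **LEAF L-252-S4E-D1**.  Close codes lie in neighbouring bins. -/
theorem k4e_bin_close {m : ℕ} (η : ℝ) (hη : 0 < η) (r : ℕ) (J J' : Fin m → ℝ) (h : ∀ k, |J k - J' k| ≤ r * η) : k4eBin η J' ∈ k4eNbr (r + 1) (k4eBin η J) := by
  unfold k4eNbr k4eBin
  rw [Fintype.mem_piFinset]
  intro k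
  rw [Finset.mem_Icc]
  have hk := abs_le.mp (h k)
  have h1 : J k / η - J' k / η ≤ r := by
    rw [← sub_div, div_le_iff₀ hη]; exact hk.2
  have h2 : -(r : ℝ) ≤ J k / η - J' k / η := by
    rw [← sub_div, le_div_iff₀ hη]; linarith [hk.1]
  have a1 := Int.floor_le (J k / η)
  have a2 := Int.lt_floor_add_one (J k / η)
  have b1 := Int.floor_le (J' k / η)
  have b2 := Int.lt_floor_add_one (J' k / η)
  constructor
  · have : ((⌊J k / η⌋ : ℤ) : ℝ) - (r : ℝ) - 1 < (⌊J' k / η⌋ : ℤ) := by linarith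
    have h3 : ⌊J k / η⌋ - (r : ℤ) - 1 < ⌊J' k / η⌋ := by exact_mod_cast this
    push_cast
    omega
  · have : ((⌊J' k / η⌋ : ℤ) : ℝ) < (⌊J k / η⌋ : ℤ) + (r : ℝ) + 1 := by linarith
    have h3 : ⌊J' k / η⌋ < ⌊J k / η⌋ + (r : ℤ) + 1 := by exact_mod_cast this
    push_cast
    omega

/-- **LEAF L-252-S4E-D1**.  Codes in the same bin are close. -/
theorem k4e_bin_same {m : ℕ} (η : ℝ) (hη : 0 < η) (J J' : Fin m → ℝ) (h : k4eBin η J = k4eBin η J') (k : Fin m) : |J k - J' k| ≤ η := by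
  have hk : ⌊J k / η⌋ = ⌊J' k / η⌋ := congrFun h k
  have h1 := Int.abs_sub_lt_one_of_floor_eq_floor hk
  rw [← sub_div, abs_div, abs_of_pos hη, div_lt_one hη] at h1
  exact h1.le

/-! ## H. comparison graphs and the hubs consumed from Sec. 3 -/

/-- `|f - g| ≤ η` on `Bx` ("norm on the real comparison box") -/
def k4eClose {U : Type} (Bx : Set U) (f g : U → ℝ) (η : ℝ) : Prop := ∀ u ∈ Bx, |f u - g u| ≤ η

/-- the discriminant of `A w² + b(u) w + c(u)` as a polynomial in the base variables -/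
def k4eDisc {n : ℕ} (A : ℝ) (b c : MvPolynomial (Fin n) ℝ) : MvPolynomial (Fin n) ℝ := b ^ 2 - MvPolynomial.C (4 * A) * c

/-- the discriminant is STABLE on the complex polydisc of radius `4 r` about `u₀` -/
def k4eStable {n : ℕ} (D : MvPolynomial (Fin n) ℝ) (u₀ : Fin n → ℝ) (r : ℝ) : Prop :=
  0 < MvPolynomial.eval u₀ D ∧ ∀ z : Fin n → ℂ, (∀ i, ‖z i - (u₀ i : ℂ)‖ ≤ 4 * r) → ‖MvPolynomial.aeval z D - ((MvPolynomial.eval u₀ D : ℝ) : ℂ)‖ ≤ MvPolynomial.eval u₀ D / 2

/-- **the class of comparison graphs** on the cube `closedBall u₀ r` (sup norm): polynomials of degree `≤ 2` (affine centres; explicit tests `w - F` of version 1) and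
simple roots of `A w² + b(u) w + c(u)`, `deg b ≤ 1`, `deg c ≤ 2`, with stable discriminant.  No bound on the coefficients. -/
def k4eSh (n : ℕ) (u₀ : Fin n → ℝ) (r : ℝ) : Set ((Fin n → ℝ) → ℝ) :=
  {f | (∃ p : MvPolynomial (Fin n) ℝ, p.totalDegree ≤ 2 ∧ ∀ u, f u = MvPolynomial.eval u p) ∨
    ∃ (A s : ℝ) (b c : MvPolynomial (Fin n) ℝ), b.totalDegree ≤ 1 ∧ c.totalDegree ≤ 2 ∧ (s = 1 ∨ s = -1) ∧ k4eStable (k4eDisc A b c) u₀ r ∧
      ∀ u, f u = k4eRoot A (MvPolynomial.eval u b) (MvPolynomial.eval u c) s}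

/-- **HUB (03 Cor 3.4, `a02:local-graph-matching`)** in the form consumed here: ONE list for both colours, uniform index weights, law given by the family `pr e₁ e₂` of measures on the base.
`R = M/Δ`.  Conclusion: the total mass is `< R^{-ε}`. -/
def K4eMatch (n : ℕ) (d ε R : ℝ) : Prop :=
  ∀ (u₀ : Fin n → ℝ) (r M Δ : ℝ) (E : Type) [Fintype E] (f : E → (Fin n → ℝ) → ℝ) (f₀ : (Fin n → ℝ) → ℝ) (pr : E → E → Measure (Fin n → ℝ)),
    0 < r → 0 < Δ → M = R * Δ → f₀ ∈ k4eSh n u₀ r → (∀ e, f e ∈ k4eSh n u₀ r) → (Fintype.card E : ℝ) ≤ R ^ (d + ε) →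
    (∀ e, k4eClose (Metric.closedBall u₀ r) (f e) f₀ (M * R ^ ε)) →
    (∀ e₁, ∑ e₂, pr e₁ e₂ ≤ ENNReal.ofReal (R ^ ε / (Fintype.card E * (2 * r) ^ n)) • volume.restrict (Metric.closedBall u₀ r)) →
    (∀ e₂, ∑ e₁, pr e₁ e₂ ≤ ENNReal.ofReal (R ^ ε / (Fintype.card E * (2 * r) ^ n)) • volume.restrict (Metric.closedBall u₀ r)) →
    (∀ e₁ e₂, ∀ᵐ u ∂(pr e₁ e₂), |f e₁ u - f e₂ u| ≤ Δ * R ^ ε ∧ ¬ k4eClose (Metric.closedBall u₀ r) (f e₁) (f e₂) (M * R ^ (-ε))) →
    ∑ e₁, ∑ e₂, pr e₁ e₂ Set.univ < ENNReal.ofReal (R ^ (-ε))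

/-- **HUB (03 L3.1, (a02:remez))** for differences of two comparison graphs. -/
def K4eRemez (n : ℕ) (C : ℝ) : Prop :=
  ∀ (u₀ : Fin n → ℝ) (r θ η : ℝ) (f g : (Fin n → ℝ) → ℝ) (F : Set (Fin n → ℝ)), 0 < r → 0 < θ → θ ≤ 1 → f ∈ k4eSh n u₀ r → g ∈ k4eSh n u₀ r →
    MeasurableSet F → F ⊆ Metric.closedBall u₀ r → ENNReal.ofReal (θ * (2 * r) ^ n) ≤ volume F → k4eClose F f g η →
    k4eClose (Metric.closedBall u₀ r) f g (C * θ ^ (-C) * η)

/-- **HUB (03 L3.1, norm ⇒ jets (Cauchy) and "sufficiently many centre jets control the norm")**: a code `J f ∈ ℝ^m` (scaled jets at the centre, or values on a grid) which is bi-Lipschitz for the norm of DIFFERENCES. -/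
def K4eCode (n m : ℕ) (C : ℝ) : Prop :=
  ∀ (u₀ : Fin n → ℝ) (r : ℝ), 0 < r → ∃ J : ((Fin n → ℝ) → ℝ) → Fin m → ℝ, ∀ f ∈ k4eSh n u₀ r, ∀ g ∈ k4eSh n u₀ r, ∀ η : ℝ,
    (k4eClose (Metric.closedBall u₀ r) f g η → ∀ k, |J f k - J g k| ≤ C * η) ∧ ((∀ k, |J f k - J g k| ≤ η) → k4eClose (Metric.closedBall u₀ r) f g (C * η))

/-! ## L. the bad pairs of one group -/

/-- **LEAF L-252-S4E-L1** (l.1499-1570).  ONE group `(Q, subbox, true branch)`: observation space `X`, base point `bp`, value `om x` of the hidden coordinate read off from the observation; entries `e` with graphs `f e`, laws `lam e`;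
`mq` = weight of the chart; `Lm` = all losses.  The pairs of entries whose graphs are NOT `M R^{-ε}`-close carry pair mass `≤ mq / Lm`.
PROOF.  Suppose `B := ∑_{bad} pair e₁ e₂ univ > mq/Lm` (so `mq > 0`, `B < ∞`).   `pr e₁ e₂ := B⁻¹ • (k4ePair lam e₁ e₂).map bp` for bad pairs, `0` otherwise.   Marginals: `∑_{e₂} pr e₁ e₂ ≤ B⁻¹ (lam e₁).map bp` (`k4e_pair_marg`, `k4e_pair_comm`)
`≤ (Lm/mq)(mq Lm R^{-d}/(2r)^n) vol = Lm² R^{-d} /(2r)^n vol ≤ R^ε/(card E (2r)^n) vol` because `card E ≤ Lm R^d`, `Lm³ ≤ R^ε`.   Events: `pair e₁ e₂ ≤ lam e₁`, `≤ lam e₂` (`k4e_pair_le`), so a.e. both graphs are within `Δ Lm / 2` of `om x`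
(`ae_map_iff` needs the measurability of `{u | |f e₁ u - f e₂ u| ≤ ..}`: hypothesis `hfm`).   Total mass `= 1 ≥ R^{-ε}`: contradiction with the hub. -/
theorem k4e_bad_small {n : ℕ} {d ε R : ℝ} (hub : K4eMatch n d ε R) {X E : Type} [MeasurableSpace X] [Fintype E] [DecidableEq E]
    (lam : E → Measure X) [∀ e, IsFiniteMeasure (lam e)] (bp : X → Fin n → ℝ) (hbp : Measurable bp) (om : X → ℝ)
    (u₀ : Fin n → ℝ) (r M Δ Lm mq : ℝ) (f : E → (Fin n → ℝ) → ℝ) (f₀ : (Fin n → ℝ) → ℝ) (hfm : ∀ e, Measurable (f e))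
    (hr : 0 < r) (hΔ : 0 < Δ) (hM : M = R * Δ) (hR : 1 ≤ R) (hε : 0 < ε) (hLm : 1 ≤ Lm) (hLR : Lm ^ 3 ≤ R ^ ε) (hmq : 0 ≤ mq)
    (hf₀ : f₀ ∈ k4eSh n u₀ r) (hf : ∀ e, f e ∈ k4eSh n u₀ r) (hcard : (Fintype.card E : ℝ) ≤ Lm * R ^ d)
    (hnorm : ∀ e, k4eClose (Metric.closedBall u₀ r) (f e) f₀ (M * Lm))
    (hmarg : ∀ e, (lam e).map bp ≤ ENNReal.ofReal (mq * Lm * R ^ (-d) / (2 * r) ^ n) • volume.restrict (Metric.closedBall u₀ r))
    (hev : ∀ e, ∀ᵐ x ∂(lam e), |f e (bp x) - om x| ≤ Δ * Lm / 2) :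
    ∑ e₁, ∑ e₂ ∈ Finset.univ.filter (fun e₂ => ¬ k4eClose (Metric.closedBall u₀ r) (f e₁) (f e₂) (M * R ^ (-ε))), k4ePair lam e₁ e₂ Set.univ
      ≤ ENNReal.ofReal (mq / Lm) := by
  classical
  by_contra hcon
  rw [not_le] at hcon
  obtain ⟨B, hB⟩ : ∃ B : ℝ≥0∞, B = ∑ e₁, ∑ e₂ ∈ Finset.univ.filter (fun e₂ =>
      ¬ k4eClose (Metric.closedBall u₀ r) (f e₁) (f e₂) (M * R ^ (-ε))), k4ePair lam e₁ e₂ Set.univ := ⟨_, rfl⟩
  rw [← hB] at hcon
  have hB0 : B ≠ 0 := (lt_of_le_of_lt zero_le hcon).ne'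
  have hBtop : B ≠ ∞ := by
    rw [hB]
    refine ENNReal.sum_ne_top.2 fun e₁ _ => ENNReal.sum_ne_top.2 fun e₂ _ => ?_
    exact ne_top_of_le_ne_top (measure_ne_top (lam e₁) Set.univ) (k4e_pair_le lam e₁ e₂ Set.univ)
  have hE : Nonempty E := by
    by_contra h
    rw [not_nonempty_iff] at h
    apply hB0
    rw [hB]
    simp
  have hcard0 : (0 : ℝ) < Fintype.card E := by exact_mod_cast Fintype.card_pos
  have hR0 : 0 < R := by linarith
  have hLm0 : 0 < Lm := by linarith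
  have hLmε : Lm ≤ R ^ ε := le_trans (by nlinarith [sq_nonneg Lm, mul_nonneg hLm0.le hLm0.le]) hLR
  have hM0 : 0 ≤ M := by rw [hM]; positivity
  have h2r : (0 : ℝ) < (2 * r) ^ n := by positivity
  let pr : E → E → Measure (Fin n → ℝ) := fun e₁ e₂ =>
    if ¬ k4eClose (Metric.closedBall u₀ r) (f e₁) (f e₂) (M * R ^ (-ε)) then B⁻¹ • (k4ePair lam e₁ e₂).map bp else 0
  have hpr_le : ∀ e₁ e₂, pr e₁ e₂ ≤ B⁻¹ • (k4ePair lam e₁ e₂).map bp := by
    intro e₁ e₂
    by_cases h : ¬ k4eClose (Metric.closedBall u₀ r) (f e₁) (f e₂) (M * R ^ (-ε))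
    · simp only [pr, if_pos h]
      exact le_rfl
    · simp only [pr, if_neg h]
      exact Measure.zero_le _
  have hconst : B⁻¹ * ENNReal.ofReal (mq * Lm * R ^ (-d) / (2 * r) ^ n) ≤
      ENNReal.ofReal (R ^ ε / (Fintype.card E * (2 * r) ^ n)) := by
    have e1 : mq * Lm * R ^ (-d) / (2 * r) ^ n = mq / Lm * (Lm ^ 2 * R ^ (-d) / (2 * r) ^ n) := by
      field_simp
    rw [e1, ENNReal.ofReal_mul (div_nonneg hmq hLm0.le), ← mul_assoc]
    have e2 : B⁻¹ * ENNReal.ofReal (mq / Lm) ≤ 1 := by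
      calc B⁻¹ * ENNReal.ofReal (mq / Lm) ≤ B⁻¹ * B := mul_le_mul' le_rfl hcon.le
        _ = 1 := ENNReal.inv_mul_cancel hB0 hBtop
    have e3 : Lm ^ 2 * R ^ (-d) / (2 * r) ^ n ≤ R ^ ε / (Fintype.card E * (2 * r) ^ n) := by
      rw [← div_div]
      refine div_le_div_of_nonneg_right ?_ h2r.le
      rw [le_div_iff₀ hcard0]
      have e4 : R ^ (-d) * R ^ d = 1 := by rw [← Real.rpow_add hR0]; simp
      have e5 : 0 ≤ Lm ^ 2 * R ^ (-d) := by positivity
      calc Lm ^ 2 * R ^ (-d) * (Fintype.card E : ℝ) ≤ Lm ^ 2 * R ^ (-d) * (Lm * R ^ d) :=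
            mul_le_mul_of_nonneg_left hcard e5
        _ = Lm ^ 3 * (R ^ (-d) * R ^ d) := by ring
        _ = Lm ^ 3 := by rw [e4, mul_one]
        _ ≤ R ^ ε := hLR
    calc B⁻¹ * ENNReal.ofReal (mq / Lm) * ENNReal.ofReal (Lm ^ 2 * R ^ (-d) / (2 * r) ^ n)
        ≤ 1 * ENNReal.ofReal (R ^ ε / (Fintype.card E * (2 * r) ^ n)) :=
          mul_le_mul' e2 (ENNReal.ofReal_le_ofReal e3)
      _ = _ := one_mul _
  have hmargin : ∀ e, B⁻¹ • (lam e).map bp ≤
      ENNReal.ofReal (R ^ ε / (Fintype.card E * (2 * r) ^ n)) • volume.restrict (Metric.closedBall u₀ r) := by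
    intro e
    refine Measure.le_iff'.2 fun s => ?_
    have h1 := hmarg e s
    simp only [Measure.smul_apply, smul_eq_mul] at h1 ⊢
    calc B⁻¹ * (lam e).map bp s
        ≤ B⁻¹ * (ENNReal.ofReal (mq * Lm * R ^ (-d) / (2 * r) ^ n) * volume.restrict (Metric.closedBall u₀ r) s) :=
          mul_le_mul' le_rfl h1
      _ = B⁻¹ * ENNReal.ofReal (mq * Lm * R ^ (-d) / (2 * r) ^ n) * volume.restrict (Metric.closedBall u₀ r) s :=
          (mul_assoc _ _ _).symm
      _ ≤ _ := mul_le_mul' hconst le_rfl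
  have hmapsum : ∀ e₁, ∑ e₂, (k4ePair lam e₁ e₂).map bp = (lam e₁).map bp := by
    intro e₁
    ext s hs
    rw [Measure.finsetSum_apply, Measure.map_apply hbp hs, ← k4e_pair_marg lam e₁, Measure.finsetSum_apply]
    exact Finset.sum_congr rfl fun e₂ _ => Measure.map_apply hbp hs
  have hm1 : ∀ e₁, ∑ e₂, pr e₁ e₂ ≤
      ENNReal.ofReal (R ^ ε / (Fintype.card E * (2 * r) ^ n)) • volume.restrict (Metric.closedBall u₀ r) := by
    intro e₁
    calc ∑ e₂, pr e₁ e₂ ≤ ∑ e₂, B⁻¹ • (k4ePair lam e₁ e₂).map bp := Finset.sum_le_sum fun e₂ _ => hpr_le e₁ e₂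
      _ = B⁻¹ • ∑ e₂, (k4ePair lam e₁ e₂).map bp := Finset.smul_sum.symm
      _ = B⁻¹ • (lam e₁).map bp := by rw [hmapsum]
      _ ≤ _ := hmargin e₁
  have hm2 : ∀ e₂, ∑ e₁, pr e₁ e₂ ≤
      ENNReal.ofReal (R ^ ε / (Fintype.card E * (2 * r) ^ n)) • volume.restrict (Metric.closedBall u₀ r) := by
    intro e₂
    calc ∑ e₁, pr e₁ e₂ ≤ ∑ e₁, B⁻¹ • (k4ePair lam e₂ e₁).map bp := Finset.sum_le_sum fun e₁ _ => by
            rw [k4e_pair_comm lam e₂ e₁]
            exact hpr_le e₁ e₂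
      _ = B⁻¹ • ∑ e₁, (k4ePair lam e₂ e₁).map bp := Finset.smul_sum.symm
      _ = B⁻¹ • (lam e₂).map bp := by rw [hmapsum]
      _ ≤ _ := hmargin e₂
  have hevs : ∀ e₁ e₂, ∀ᵐ u ∂(pr e₁ e₂), |f e₁ u - f e₂ u| ≤ Δ * R ^ ε ∧
      ¬ k4eClose (Metric.closedBall u₀ r) (f e₁) (f e₂) (M * R ^ (-ε)) := by
    intro e₁ e₂
    by_cases h : ¬ k4eClose (Metric.closedBall u₀ r) (f e₁) (f e₂) (M * R ^ (-ε))
    · simp only [pr, if_pos h]
      refine Measure.ae_smul_measure ?_ _
      have hms : MeasurableSet {u | |f e₁ u - f e₂ u| ≤ Δ * R ^ ε ∧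
          ¬ k4eClose (Metric.closedBall u₀ r) (f e₁) (f e₂) (M * R ^ (-ε))} := by
        have h1 : {u | |f e₁ u - f e₂ u| ≤ Δ * R ^ ε ∧
          ¬ k4eClose (Metric.closedBall u₀ r) (f e₁) (f e₂) (M * R ^ (-ε))} = {u | |f e₁ u - f e₂ u| ≤ Δ * R ^ ε} := by
          ext u
          simp [h]
        rw [h1]
        exact measurableSet_le ((hfm e₁).sub (hfm e₂)).abs measurable_const
      rw [ae_map_iff hbp.aemeasurable hms]
      have a1 : ∀ᵐ x ∂(k4ePair lam e₁ e₂), |f e₁ (bp x) - om x| ≤ Δ * Lm / 2 :=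
        ae_mono (k4e_pair_le lam e₁ e₂) (hev e₁)
      have a2 : ∀ᵐ x ∂(k4ePair lam e₁ e₂), |f e₂ (bp x) - om x| ≤ Δ * Lm / 2 := by
        rw [k4e_pair_comm lam e₁ e₂]
        exact ae_mono (k4e_pair_le lam e₂ e₁) (hev e₂)
      filter_upwards [a1, a2] with x h1 h2
      refine ⟨?_, h⟩
      have h3 : |f e₁ (bp x) - f e₂ (bp x)| ≤ Δ * Lm := by
        rw [abs_le] at h1 h2 ⊢
        constructor <;> linarith [h1.1, h1.2, h2.1, h2.2]
      exact h3.trans (mul_le_mul_of_nonneg_left hLmε hΔ.le)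
    · simp only [pr, if_neg h]
      simp
  have hfin := hub u₀ r M Δ E f f₀ pr hr hΔ hM hf₀ hf
    (by
      rw [Real.rpow_add hR0, mul_comm]
      exact hcard.trans (mul_le_mul_of_nonneg_right hLmε (by positivity)))
    (fun e u hu => (hnorm e u hu).trans (mul_le_mul_of_nonneg_left hLmε hM0)) hm1 hm2 hevs
  have htot : ∑ e₁, ∑ e₂, pr e₁ e₂ Set.univ = 1 := by
    have h1 : ∀ e₁ e₂, pr e₁ e₂ Set.univ =
        if ¬ k4eClose (Metric.closedBall u₀ r) (f e₁) (f e₂) (M * R ^ (-ε)) then B⁻¹ * k4ePair lam e₁ e₂ Set.univ else 0 := by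
      intro e₁ e₂
      by_cases h : ¬ k4eClose (Metric.closedBall u₀ r) (f e₁) (f e₂) (M * R ^ (-ε))
      · simp only [pr, if_pos h]
        rw [Measure.smul_apply, Measure.map_apply hbp MeasurableSet.univ, Set.preimage_univ, smul_eq_mul]
      · simp only [pr, if_neg h]
        simp
    simp only [h1]
    simp only [← Finset.sum_filter, ← Finset.mul_sum]
    rw [← hB]
    exact ENNReal.inv_mul_cancel hB0 hBtop
  rw [htot] at hfin
  have h1 : ENNReal.ofReal (R ^ (-ε)) ≤ 1 :=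
    ENNReal.ofReal_le_one.2 (Real.rpow_le_one_of_one_le_of_nonpos hR (by linarith))
  exact absurd hfin (not_lt.2 h1)

theorem k4e_defs_eqns_cite : True := by
  have := @k4eRoot.eq_1
  have := @k4eTot.eq_1
  have := @k4ePost.eq_1
  have := @k4ePair.eq_1
  have := @k4eBin.eq_1
  have := @k4eNbr.eq_1
  have := @k4eClose.eq_1
  have := @k4eDisc.eq_1
  have := @k4eStable.eq_1
  have := @k4eSh.eq_1
  have := @K4eMatch.eq_1
  have := @K4eRemez.eq_1
  have := @K4eCode.eq_1
  trivial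

end

end Claimed.Agent.R252
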