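import Claimed.Agent.R252.S4E.CoreDefs

/-!
# ROW 252 (S0492), unit S4E (sub-architect helper222), file 3: CONTRACT of the assembly on `R252/Base`:   **unknown time candidates ⟹ a KNOWN atlas of smaller gain** (04 l.1420-1660).

Read the header of `S4E/CoreDefs.lean` first.   The `sorry`s are the leaves `L-252-S4E-K*`: prove IN PLACE, statement verbatim, helper lemmas directly above (prefix `k4e_`); every statement ABOVE yours may be cited, proved or not.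
CHAIN.   `K4eHyp` (input) + `K4eNum` (numerical conditions on the parameters) + the three hubs of `S4E/Contract.lean`.
Q  tests as quadratics in `w`            →  S1 marginal, count, witness volume      →  S2 Remez ⟹ stable discriminants      →  S3 one trajectory stays near the graph
→  S4 facts on heavy entries             →  S5 norm closeness to the true graph     →  S6 bad pairs of a group              →  S7 list rule of a group
→  S8 the output tests on all members    →  S9 `WF`, `Geo`, `Known`, mass of `k4eOut`  →  `k4e_core_par`  →  `k4e_core` (choice of the parameters).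
UNITS.  derivative unit `B = P.B γ`;  graphs are in `w`-units: closeness `a_fit/B`;  `M = 1/B`, `Δ = 1/(R B)`.
DROPPED in the measurable model: coefficient bounds (l.1666-1690: `KbSys.Tmp` has no test coefficients), `a03:actual-lists` (list rules are measurable functions of the observation).
-/

set_option autoImplicit false

namespace Claimed.Agent.R252

open MeasureTheory
open scoped ENNReal BigOperators Classical

noncomputable section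

variable {v : KbVer} {P : KbPb v}

/-- **the input**: normalised node `P`, candidate system `Yc` (level `0`, thickness `1/R`, slack `Λ`), covered law `S'`. -/
structure K4eHyp (Yc : KbSys P) (S' : Yc.C → Set (P.Lam × ℝ)) (π : K4ePar) : Prop where
  wf : P.WF
  ntv : P.Ntv π.K
  cwf : Yc.WF
  n0 : Yc.n = 0
  val : ∀ c, ∀ l ∈ Yc.A c, ∀ t ∈ Set.Ico (0 : ℝ) 1, |kbX (Yc.ch c).T (P.co (Yc.wd c) l) t| ≤ π.Lm / π.R
  dw : ∀ c, ∀ l ∈ Yc.A c, ∀ t ∈ Set.Ico (0 : ℝ) 1, |kbX (kbDw (Yc.ch c).T) (P.co (Yc.wd c) l) t| ≤ π.Lm * P.B (Yc.wd c)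
  dw_low : ∀ c, ∀ x ∈ Yc.S c, P.B (Yc.wd c) ≤ π.Lm * |kbX (kbDw (Yc.ch c).T) (P.co (Yc.wd c) x.1) x.2|
  dww : ∀ c t y w, |kbDww (Yc.ch c).T t y w| ≤ π.Lm * π.R * P.B (Yc.wd c) ^ 2
  /-- every chosen test carries the greedy threshold -/
  floor : ∀ c, ENNReal.ofReal (π.R ^ (-π.d) / π.Lm) ≤ Yc.mC c
  /-- the dimension cap at width `1/R` -/
  cap : ∀ γ k, P.part (P.hid (1 / π.R)) γ k ≤ ENNReal.ofReal (π.Lm * π.R ^ (-π.d)) • volume
  S'_meas : ∀ c, MeasurableSet (S' c)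
  S'_sub : ∀ c, S' c ⊆ Yc.S c
  K1 : 1 ≤ π.K
  KL : π.K ≤ π.Lm
  R1 : 1 ≤ π.R
  aL0 : 0 < π.aL
  aLR : π.aL ≤ 1 / π.R
  d0 : 0 ≤ π.d
  ε0 : 0 < π.ε
  ε1 : π.ε ≤ 1 / 2

/-- **numerical conditions** on the parameters; `C1` = constant of `k4e_stable_of_remez`, `Crem, Cc` = constants of the hubs, `L2` = the large slack of the matching step. -/
structure K4eNum (v : KbVer) (π : K4ePar) (C1 Crem Cc L2 : ℝ) : Prop where
  r4 : π.r ≤ 1 / 4
  n1 : C1 * (128 * π.Lm ^ 6) ^ (2 * (v.j + 1)) * (6 * π.Lm ^ 4) * π.r ≤ 1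
  τ0 : 0 < π.τ
  τ1 : π.τ * π.R ^ π.d ≤ 8 * π.Lm ^ 3
  n2 : Crem * (π.τ * π.R ^ π.d / (8 * π.Lm ^ 3)) ^ (-Crem) * (64 * π.Lm ^ 4) ≤ L2
  n3 : L2 ^ 3 ≤ π.R ^ π.ε
  n3' : 68 * π.Lm ^ 4 ≤ L2
  n4 : Cc + 1 ≤ π.rn
  n5 : 16 * Cc * π.Lm ≤ π.R ^ (π.ε / 6)
  n5' : 32 * π.Lm ^ 4 ≤ Cc * π.R ^ (1 - π.ε)
  n6 : 4 * π.Lm * π.R ^ π.d * 2 ^ π.n' * (2 * (π.Nz : ℝ) + 1) ^ v.j * π.τ ≤ 1 / (8 * π.Lm)
  n6' : 2 * 2 ^ π.n' * (2 * (π.Nz : ℝ) + 1) ^ v.j / L2 ≤ 1 / (8 * π.Lm)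
  Cc1 : 1 ≤ Cc
  Crem1 : 1 ≤ Crem

/-! ## Q. tests as quadratics in `w` -/

/-- **LEAF L-252-S4E-KQ**.  (`k4eQ T = h.choose`, `h.choose_spec`; unfold `KbQuad.ev`, `kbDw`, `kbDww`, `k4eU`; `Fin.cons_zero`, `Fin.cons_succ`, `dotProduct`, `Matrix.mulVec`; `simp [map_sum]`, `ring`.) -/
theorem k4e_quad_form (T : KbTest v) (hT : KbIsQuad T) (t : ℝ) (y : KbB v) (w : ℝ) :
    T t y w = k4eA T * w ^ 2 + MvPolynomial.eval (k4eU (t, y)) (k4ebP T) * w + MvPolynomial.eval (k4eU (t, y)) (k4ecP T) ∧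
      kbDw T t y w = 2 * k4eA T * w + MvPolynomial.eval (k4eU (t, y)) (k4ebP T) ∧ kbDww T t y w = 2 * k4eA T := by
  have hQ : ∀ t y w, T t y w = (k4eQ T).ev t y w := by
    unfold k4eQ
    rw [dif_pos hT]
    exact hT.choose_spec
  have eb : MvPolynomial.eval (k4eU (t, y)) (k4ebP T) = (k4eQ T).cw + (k4eQ T).ctw * t + (k4eQ T).cyw ⬝ᵥ y := by
    unfold k4ebP k4eU
    simp [dotProduct, map_sum]
  have ec : MvPolynomial.eval (k4eU (t, y)) (k4ecP T) = (k4eQ T).c0 + (k4eQ T).ct * t + (k4eQ T).cy ⬝ᵥ y + (k4eQ T).ctt * t ^ 2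
      + t * ((k4eQ T).cty ⬝ᵥ y) + y ⬝ᵥ (k4eQ T).cyy.mulVec y := by
    unfold k4ecP k4eU
    simp only [dotProduct, Matrix.mulVec, map_sum, map_add, map_mul, map_pow, MvPolynomial.eval_C, MvPolynomial.eval_X, Fin.cons_zero,
      Fin.cons_succ, Finset.mul_sum]
    congr 1
    · congr 1
      exact Finset.sum_congr rfl fun i _ => by ring
    · exact Finset.sum_congr rfl fun i _ => Finset.sum_congr rfl fun k _ => by ring
  refine ⟨?_, ?_, ?_⟩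
  · rw [hQ, eb, ec]
    unfold KbQuad.ev k4eA
    ring
  · unfold kbDw
    rw [hQ, hQ, eb]
    unfold KbQuad.ev k4eA
    ring
  · unfold kbDww
    rw [hQ, hQ, hQ]
    unfold KbQuad.ev k4eA
    ring

/-- **LEAF L-252-S4E-KQ**.  Degrees.  (`MvPolynomial.totalDegree_add`, `totalDegree_mul`, `totalDegree_finset_sum`, `totalDegree_C`, `totalDegree_X`; `degreeOf_le_totalDegree`.) -/
theorem k4e_quad_deg (T : KbTest v) : (k4ebP T).totalDegree ≤ 1 ∧ (k4ecP T).totalDegree ≤ 2 ∧ ∀ i, (k4eDP T).degreeOf i ≤ 2 := by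
  have hC : ∀ a : ℝ, (MvPolynomial.C a : MvPolynomial (Fin (v.j + 1)) ℝ).totalDegree = 0 := fun a => MvPolynomial.totalDegree_C a
  have hX : ∀ i : Fin (v.j + 1), (MvPolynomial.X i : MvPolynomial (Fin (v.j + 1)) ℝ).totalDegree = 1 := fun i => MvPolynomial.totalDegree_X i
  have hCX : ∀ (a : ℝ) (i : Fin (v.j + 1)), (MvPolynomial.C a * MvPolynomial.X i : MvPolynomial (Fin (v.j + 1)) ℝ).totalDegree ≤ 1 := fun a i => by
    refine (MvPolynomial.totalDegree_mul _ _).trans ?_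
    rw [hC, hX]
  have hCXX : ∀ (a : ℝ) (i k : Fin (v.j + 1)),
      (MvPolynomial.C a * MvPolynomial.X i * MvPolynomial.X k : MvPolynomial (Fin (v.j + 1)) ℝ).totalDegree ≤ 2 := fun a i k => by
    refine (MvPolynomial.totalDegree_mul _ _).trans ?_
    rw [hX]
    have := hCX a i
    omega
  have hadd : ∀ (d : ℕ) (p q : MvPolynomial (Fin (v.j + 1)) ℝ), p.totalDegree ≤ d → q.totalDegree ≤ d → (p + q).totalDegree ≤ d :=
    fun d p q h1 h2 => (MvPolynomial.totalDegree_add _ _).trans (max_le h1 h2)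
  have hsum : ∀ (d : ℕ) (f : Fin v.j → MvPolynomial (Fin (v.j + 1)) ℝ), (∀ i, (f i).totalDegree ≤ d) → (∑ i, f i).totalDegree ≤ d :=
    fun d f h => (MvPolynomial.totalDegree_finsetSum _ _).trans (Finset.sup_le fun i _ => h i)
  have hb : (k4ebP T).totalDegree ≤ 1 := by
    unfold k4ebP
    refine hadd _ _ _ (hadd _ _ _ ?_ (hCX _ _)) (hsum _ _ fun i => hCX _ _)
    rw [hC]
    omega
  have hc : (k4ecP T).totalDegree ≤ 2 := by
    unfold k4ecP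
    refine hadd _ _ _ (hadd _ _ _ (hadd _ _ _ (hadd _ _ _ (hadd _ _ _ ?_ ((hCX _ _).trans (by omega))) (hsum _ _ fun i => (hCX _ _).trans (by omega))) ?_)
      (hsum _ _ fun i => hCXX _ _ _)) (hsum _ _ fun i => hsum _ _ fun k => hCXX _ _ _)
    · rw [hC]
      omega
    · refine (MvPolynomial.totalDegree_mul _ _).trans ?_
      rw [hC]
      have := MvPolynomial.totalDegree_pow (MvPolynomial.X 0 : MvPolynomial (Fin (v.j + 1)) ℝ) 2
      rw [hX] at this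
      omega
  refine ⟨hb, hc, fun i => (MvPolynomial.degreeOf_le_totalDegree _ _).trans ?_⟩
  unfold k4eDP k4eDisc
  refine (MvPolynomial.totalDegree_sub _ _).trans (max_le ?_ ?_)
  · have := MvPolynomial.totalDegree_pow (k4ebP T) 2
    omega
  · refine (MvPolynomial.totalDegree_mul _ _).trans ?_
    rw [hC]
    omega

/-- **LEAF L-252-S4E-KU**.  `(t, y) ↦ Fin.cons t y` preserves Lebesgue measure (`MeasureTheory.volume_preserving_piFinSuccAbove (fun _ => ℝ) 0`, its `.symm`; `MeasurableEquiv.piFinSuccAbove`). -/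
theorem k4e_U_mp : MeasurePreserving (k4eU (v := v)) volume volume := by
  have h := (MeasureTheory.volume_preserving_piFinSuccAbove (fun _ : Fin (v.j + 1) => ℝ) 0).symm
  have e : (k4eU (v := v)) = ⇑(MeasurableEquiv.piFinSuccAbove (fun _ : Fin (v.j + 1) => ℝ) 0).symm := by
    funext o
    exact (Fin.insertNth_zero' o.1 o.2).symm
  rw [e]
  exact h

/-- **LEAF L-252-S4E-KU**.  The graphs are measurable (polynomial evaluation is continuous: `MvPolynomial.continuous_eval`; `Real.continuous_sqrt`; `Measurable.div`, `Measurable.ite` on constant conditions; unfold `k4eGr`, `k4eRoot`). -/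
theorem k4e_graph_meas (T : KbTest v) (κ : ℝ) (s : Bool) : Measurable (k4eGr T κ s) := by
  have hb : Measurable fun u : Fin (v.j + 1) → ℝ => MvPolynomial.eval u (k4ebP T) := (MvPolynomial.continuous_eval _).measurable
  have hc : Measurable fun u : Fin (v.j + 1) → ℝ => MvPolynomial.eval u (k4ecP T) := (MvPolynomial.continuous_eval _).measurable
  unfold k4eGr
  by_cases h1 : κ ≤ |2 * k4eA T|
  · simp only [if_pos h1]
    exact hb.neg.div_const _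
  · simp only [if_neg h1]
    unfold k4eRoot
    by_cases h2 : k4eA T = 0
    · simp only [if_pos h2]
      exact hc.neg.div hb
    · simp only [if_neg h2]
      exact ((hb.neg).add (measurable_const.mul ((hb.pow_const 2).sub (measurable_const.mul hc)).sqrt)).div_const _

/-! ## S1. marginal, count, witness -/

theorem k4e_dy_pos (x : ℝ) : 0 < kbDy x := by
  unfold kbDy
  positivity

theorem k4e_dy_ge {x : ℝ} (hx : 0 < x) : x ≤ kbDy x := by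
  have hL : (2 : ℝ) ^ Real.logb 2 x = x := Real.rpow_logb (by norm_num) (by norm_num) hx
  have e : kbDy x = (2 : ℝ) ^ ((⌈Real.logb 2 x⌉ : ℤ) : ℝ) := by
    unfold kbDy
    rw [Real.rpow_intCast]
  rw [e]
  calc x = (2 : ℝ) ^ Real.logb 2 x := hL.symm
    _ ≤ _ := Real.rpow_le_rpow_of_exponent_le (by norm_num) (Int.le_ceil _)

theorem k4e_U_cont : Continuous (k4eU (v := v)) := by
  unfold k4eU
  refine continuous_pi fun i => ?_
  refine Fin.cases ?_ (fun k => ?_) i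
  · simpa using continuous_fst
  · have : Continuous fun o : ℝ × KbB v => o.2 k := (continuous_apply k).comp continuous_snd
    simpa using this

theorem k4e_bs_meas (hP : P.WF) (γ : P.W) : Measurable (P.bs γ) := by
  have hco := hP.co_meas γ
  have h1 : Measurable fun x : P.Lam × ℝ => (P.co γ x.1).1 := measurable_fst.comp (hco.comp measurable_fst)
  have h2 : Measurable fun x : P.Lam × ℝ => (P.co γ x.1).2.1 := measurable_fst.comp (measurable_snd.comp (hco.comp measurable_fst))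
  unfold KbPb.bs kbY
  refine measurable_snd.prodMk ?_
  rw [measurable_pi_iff]
  intro i
  exact ((measurable_pi_apply i).comp h1).add (measurable_snd.mul ((measurable_pi_apply i).comp h2))

theorem k4e_hw_meas (hP : P.WF) (γ : P.W) : Measurable (P.hw γ) := by
  have hco := hP.co_meas γ
  have h2 : Measurable fun x : P.Lam × ℝ => (P.co γ x.1).2.2 := measurable_snd.comp (measurable_snd.comp (hco.comp measurable_fst))
  unfold KbPb.hw kbW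
  exact Finset.measurable_sum _ fun i _ => ((measurable_pi_apply i).comp h2).mul (measurable_snd.pow_const _)

/-- an incidence of `Yc.S c`: the trajectory lies in `A c`, the time in `[0,1)`, the incidence in `Ev` -/
theorem k4e_S_mem {Yc : KbSys P} {S' : Yc.C → Set (P.Lam × ℝ)} {π : K4ePar} (h : K4eHyp Yc S' π) (c : Yc.C) {x : P.Lam × ℝ} (hx : x ∈ Yc.S c) :
    x.1 ∈ Yc.A c ∧ x.2 ∈ Set.Ico (0 : ℝ) 1 ∧ x ∈ P.Ev (Yc.wd c) := by
  have h1 := h.cwf.S_sub c hx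
  have i0 : Yc.iv c = 0 := by
    have := h.cwf.iv_lt c
    rw [h.n0] at this
    omega
  refine ⟨h1.2.1, ?_, h1.1⟩
  have h2 : x.2 ∈ Yc.I c := h1.2.2
  unfold KbSys.I kbI kbQ at h2
  rw [i0, h.n0] at h2
  simpa using h2

/-- **LEAF L-252-S4E-K1** (a03:candidate-marginal).   PROOF: `k4e_marginal` with `μ = P.mu γ`, `bs = P.bs γ`, `hw = P.hw γ`, `h = kbDy ((1/R)/B)` (`≥ (1/R)/B`), `cap` from `h.cap` (`P.part`, `P.hid`, `kbBin` unfold to the hypothesis `hcap`),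
`A, b, c` from `k4e_quad_form`, `V = Λ/R`, `lo = B/Λ`;  `V/(lo h) ≤ Λ²`, `4 (1 + Λ²) ≤ 8 Λ²`.   Measurability of `P.bs γ`, `P.hw γ` from `h.wf.co_meas`. -/
theorem k4e_s1_marg {Yc : KbSys P} {S' : Yc.C → Set (P.Lam × ℝ)} {π : K4ePar} (h : K4eHyp Yc S' π) (c : Yc.C) :
    ((P.mu (Yc.wd c)).restrict (Yc.S c)).map (P.bs (Yc.wd c)) ≤ ENNReal.ofReal (8 * π.Lm ^ 3 * π.R ^ (-π.d)) • volume := by
  have hLm1 : 1 ≤ π.Lm := h.K1.trans h.KL
  have hLm : 0 < π.Lm := by linarith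
  have hR : 0 < π.R := by linarith [h.R1]
  have hB : 0 < P.B (Yc.wd c) := h.wf.B_pos _
  have hT : KbIsQuad (Yc.ch c).T := (h.cwf.adm c).1
  have hw0 : 0 < (1 / π.R) / P.B (Yc.wd c) := by positivity
  have hh := k4e_dy_pos ((1 / π.R) / P.B (Yc.wd c))
  have hge := k4e_dy_ge hw0
  have hRd : 0 < π.R ^ (-π.d) := Real.rpow_pos_of_pos hR _
  refine (k4e_marginal (P.mu (Yc.wd c)) volume (P.bs (Yc.wd c)) (P.hw (Yc.wd c)) (k4e_bs_meas h.wf _) (k4e_hw_meas h.wf _)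
    (kbDy ((1 / π.R) / P.B (Yc.wd c))) hh (ENNReal.ofReal (π.Lm * π.R ^ (-π.d))) (fun d => h.cap (Yc.wd c) d) (k4eA (Yc.ch c).T)
    (fun o => MvPolynomial.eval (k4eU o) (k4ebP (Yc.ch c).T)) (fun o => MvPolynomial.eval (k4eU o) (k4ecP (Yc.ch c).T))
    ((MvPolynomial.continuous_eval _).comp k4e_U_cont) ((MvPolynomial.continuous_eval _).comp k4e_U_cont)
    (π.Lm / π.R) (P.B (Yc.wd c) / π.Lm) (by positivity) (by positivity) (Yc.S c) (h.cwf.S_meas c) ?_ ?_).trans ?_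
  · intro x hx
    obtain ⟨hA, ht, -⟩ := k4e_S_mem h c hx
    have h1 := h.val c x.1 hA x.2 ht
    unfold kbX at h1
    rw [(k4e_quad_form _ hT _ _ _).1] at h1
    exact h1
  · intro x hx
    have h1 := h.dw_low c x hx
    unfold kbX at h1
    rw [(k4e_quad_form _ hT _ _ _).2.1] at h1
    rw [div_le_iff₀ hLm, mul_comm]
    exact h1
  · refine Measure.le_iff.2 fun s _ => ?_
    rw [Measure.smul_apply, Measure.smul_apply, smul_eq_mul, smul_eq_mul]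
    refine mul_le_mul_left ?_ _
    rw [← ENNReal.ofReal_mul (by positivity)]
    apply ENNReal.ofReal_le_ofReal
    have e1 : π.Lm / π.R / (P.B (Yc.wd c) / π.Lm * kbDy ((1 / π.R) / P.B (Yc.wd c))) ≤ π.Lm ^ 2 := by
      rw [div_le_iff₀ (by positivity)]
      calc π.Lm / π.R = π.Lm ^ 2 * (P.B (Yc.wd c) / π.Lm * ((1 / π.R) / P.B (Yc.wd c))) := by field_simp
        _ ≤ π.Lm ^ 2 * (P.B (Yc.wd c) / π.Lm * kbDy ((1 / π.R) / P.B (Yc.wd c))) := by gcongr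
    have e2 : 1 ≤ π.Lm ^ 2 := one_le_pow₀ hLm1
    calc π.Lm * π.R ^ (-π.d) * (4 * (1 + π.Lm / π.R / (P.B (Yc.wd c) / π.Lm * kbDy ((1 / π.R) / P.B (Yc.wd c)))))
        ≤ π.Lm * π.R ^ (-π.d) * (4 * (1 + π.Lm ^ 2)) := by gcongr
      _ ≤ π.Lm * π.R ^ (-π.d) * (8 * π.Lm ^ 2) :=
          mul_le_mul_of_nonneg_left (by linarith) (by positivity)
      _ = 8 * π.Lm ^ 3 * π.R ^ (-π.d) := by ring

/-- **LEAF L-252-S4E-K1b**.  The greedy assignment stops: the sets `Yc.S c` of one world are disjoint (`cwf.A_disj`, `n0`, `iv_lt`), `P.mu γ univ ≤ 1`, each has mass `≥ R^{-d}/Λ`. -/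
theorem k4e_s1_count {Yc : KbSys P} {S' : Yc.C → Set (P.Lam × ℝ)} {π : K4ePar} (h : K4eHyp Yc S' π) (γ : P.W) :
    ((Finset.univ.filter fun c => Yc.wd c = γ).card : ℝ) ≤ π.Lm * π.R ^ π.d := by
  have hLm : 0 < π.Lm := by linarith [h.K1, h.KL]
  have hR : 0 < π.R := by linarith [h.R1]
  have hRdpos : 0 < π.R ^ π.d := Real.rpow_pos_of_pos hR _
  have hx : 0 < π.R ^ (-π.d) / π.Lm := div_pos (Real.rpow_pos_of_pos hR _) hLm
  obtain ⟨F, hF⟩ : ∃ F : Finset Yc.C, F = Finset.univ.filter fun c => Yc.wd c = γ := ⟨_, rfl⟩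
  rw [← hF]
  have hFw : ∀ c ∈ F, Yc.wd c = γ := fun c hc => by
    rw [hF] at hc
    exact (Finset.mem_filter.1 hc).2
  have i0 : ∀ c, Yc.iv c = 0 := fun c => by
    have := h.cwf.iv_lt c
    rw [h.n0] at this
    omega
  have hdisj : (F : Set Yc.C).PairwiseDisjoint Yc.S := by
    intro c hc c' hc' hne
    have hA := h.cwf.A_disj c c' hne ((hFw c hc).trans (hFw c' hc').symm) ((i0 c).trans (i0 c').symm)
    rw [Function.onFun, Set.disjoint_left]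
    intro x hx hx'
    exact Set.disjoint_left.1 hA ((h.cwf.S_sub c hx).2.1) ((h.cwf.S_sub c' hx').2.1)
  have hsum : ∑ c ∈ F, P.mu γ (Yc.S c) = P.mu γ (⋃ c ∈ F, Yc.S c) :=
    (measure_biUnion_finset hdisj fun c _ => h.cwf.S_meas c).symm
  have hle1 : P.mu γ Set.univ ≤ 1 := by
    have := h.wf.prob γ
    unfold KbPb.mu KbPb.tm
    rw [Measure.restrict_apply MeasurableSet.univ, Set.univ_inter]
    refine (measure_mono (Set.subset_univ _)).trans (le_of_eq ?_)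
    rw [← Set.univ_prod_univ, Measure.prod_prod, measure_univ, one_mul, Measure.restrict_apply MeasurableSet.univ, Set.univ_inter,
      Real.volume_Icc]
    simp
  have hcard : (F.card : ℝ≥0∞) * ENNReal.ofReal (π.R ^ (-π.d) / π.Lm) ≤ 1 := by
    calc (F.card : ℝ≥0∞) * ENNReal.ofReal (π.R ^ (-π.d) / π.Lm) = ∑ _c ∈ F, ENNReal.ofReal (π.R ^ (-π.d) / π.Lm) := by
          rw [Finset.sum_const, nsmul_eq_mul]
      _ ≤ ∑ c ∈ F, P.mu γ (Yc.S c) := Finset.sum_le_sum fun c hc => by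
          have := h.floor c
          unfold KbSys.mC at this
          rwa [hFw c hc] at this
      _ = P.mu γ (⋃ c ∈ F, Yc.S c) := hsum
      _ ≤ P.mu γ Set.univ := measure_mono (Set.subset_univ _)
      _ ≤ 1 := hle1
  have hreal : (F.card : ℝ) * (π.R ^ (-π.d) / π.Lm) ≤ 1 := by
    rw [← ENNReal.ofReal_natCast, ← ENNReal.ofReal_mul (Nat.cast_nonneg _), ← ENNReal.ofReal_one,
      ENNReal.ofReal_le_ofReal_iff zero_le_one] at hcard
    exact hcard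
  rw [Real.rpow_neg hR.le] at hreal
  have e : (F.card : ℝ) * ((π.R ^ π.d)⁻¹ / π.Lm) = (F.card : ℝ) / (π.Lm * π.R ^ π.d) := by
    field_simp
  rw [e, div_le_one (by positivity)] at hreal
  exact hreal

/-- the chart box in the base variables -/
def k4eBoxA (v : KbVer) (K : ℝ) : Fin (v.j + 1) → ℝ := k4eU (0, fun _ => -(K + 1))

/-- the chart box in the base variables -/
def k4eBoxB (v : KbVer) (K : ℝ) : Fin (v.j + 1) → ℝ := k4eU (1, fun _ => K + 1)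

theorem k4e_DP_eval (T : KbTest v) (u : Fin (v.j + 1) → ℝ) :
    MvPolynomial.eval u (k4eDP T) = MvPolynomial.eval u (k4ebP T) ^ 2 - 4 * k4eA T * MvPolynomial.eval u (k4ecP T) := by
  unfold k4eDP k4eDisc
  simp

/-- the discriminant at a point of the graph space: `D = T_w² - 2 T_ww T` -/
theorem k4e_DP_at (T : KbTest v) (hT : KbIsQuad T) (t : ℝ) (y : KbB v) (w : ℝ) :
    MvPolynomial.eval (k4eU (t, y)) (k4eDP T) = kbDw T t y w ^ 2 - 2 * kbDww T t y w * T t y w := by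
  obtain ⟨h1, h2, h3⟩ := k4e_quad_form T hT t y w
  rw [k4e_DP_eval, h2, h3, h1]
  ring

theorem k4e_disc_bd {a b c X Y Z : ℝ} (ha : |a| ≤ X) (hb : |b| ≤ Y) (hc : |c| ≤ Z) : |a ^ 2 - 2 * b * c| ≤ X ^ 2 + 2 * Y * Z := by
  have hY : 0 ≤ Y := (abs_nonneg b).trans hb
  calc |a ^ 2 - 2 * b * c| ≤ |a ^ 2| + |2 * b * c| := abs_sub _ _
    _ = |a| ^ 2 + 2 * |b| * |c| := by
        rw [abs_pow, abs_mul, abs_mul]
        norm_num
    _ ≤ X ^ 2 + 2 * Y * Z := by gcongr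

theorem k4e_box_vol (K : ℝ) : volume (Set.Icc (k4eBoxA v K) (k4eBoxB v K)) = ENNReal.ofReal (2 * K + 2) ^ v.j := by
  rw [Real.volume_Icc_pi, Fin.prod_univ_succ]
  unfold k4eBoxA k4eBoxB k4eU
  simp only [Fin.cons_zero, Fin.cons_succ, sub_zero, ENNReal.ofReal_one, one_mul, Finset.prod_const, Finset.card_univ, Fintype.card_fin]
  congr 2
  ring

/-- **LEAF L-252-S4E-K1c** (l.1433, l.1455).  On the base projection of the witness of `c` BOTH discriminants (candidate and true test) are `≤ 3 Λ² B²`, and this set is large.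
PROOF.  `F` is closed, hence measurable.  For `x ∈ Yc.S c`: `D = T_w² - 2 T_ww T` (`k4e_quad_form`, `k4e_disc`), `|D_c| ≤ Λ²B² + 2 (ΛRB²)(Λ/R)`, `|D_*| ≤ K²B² + 2 K B² K` (`h.ntv`), the base lies in the box (`ntv.base`), so `k4eU (P.bs γ x) ∈ F`.
`R^{-d}/Λ ≤ μ (S c) = ν (k4eU⁻¹ F) ≤ 8Λ³R^{-d} vol F` (`k4e_s1_marg`, `k4e_vol_of_mass`, `k4e_U_mp`);  `vol (box) = (2K+2)^j ≤ 16 Λ²`. -/
theorem k4e_s1_wit {Yc : KbSys P} {S' : Yc.C → Set (P.Lam × ℝ)} {π : K4ePar} (h : K4eHyp Yc S' π) (c : Yc.C) :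
    ENNReal.ofReal (1 / (128 * π.Lm ^ 6)) * volume (Set.Icc (k4eBoxA v π.K) (k4eBoxB v π.K)) ≤
      volume {u | u ∈ Set.Icc (k4eBoxA v π.K) (k4eBoxB v π.K) ∧ |MvPolynomial.eval u (k4eDP (Yc.ch c).T)| ≤ 3 * π.Lm ^ 2 * P.B (Yc.wd c) ^ 2 ∧
        |MvPolynomial.eval u (k4eDP (P.Pst (Yc.wd c)))| ≤ 3 * π.Lm ^ 2 * P.B (Yc.wd c) ^ 2} := by
  have hK0 : 0 < π.K := by linarith [h.K1]
  have hLm1 : 1 ≤ π.Lm := h.K1.trans h.KL
  have hLm : 0 < π.Lm := by linarith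
  have hR : 0 < π.R := by linarith [h.R1]
  have hB : 0 < P.B (Yc.wd c) := h.wf.B_pos _
  have hRd : 0 < π.R ^ (-π.d) := Real.rpow_pos_of_pos hR _
  have hT : KbIsQuad (Yc.ch c).T := (h.cwf.adm c).1
  have hT' : KbIsQuad (P.Pst (Yc.wd c)) := (h.wf.Pst_adm _).1
  obtain ⟨F, hF⟩ : ∃ F : Set (Fin (v.j + 1) → ℝ), F = {u | u ∈ Set.Icc (k4eBoxA v π.K) (k4eBoxB v π.K) ∧
      |MvPolynomial.eval u (k4eDP (Yc.ch c).T)| ≤ 3 * π.Lm ^ 2 * P.B (Yc.wd c) ^ 2 ∧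
      |MvPolynomial.eval u (k4eDP (P.Pst (Yc.wd c)))| ≤ 3 * π.Lm ^ 2 * P.B (Yc.wd c) ^ 2} := ⟨_, rfl⟩
  rw [← hF]
  have hFm : MeasurableSet F := by
    have c1 : Continuous fun u : Fin (v.j + 1) → ℝ => |MvPolynomial.eval u (k4eDP (Yc.ch c).T)| := (MvPolynomial.continuous_eval _).abs
    have c2 : Continuous fun u : Fin (v.j + 1) → ℝ => |MvPolynomial.eval u (k4eDP (P.Pst (Yc.wd c)))| := (MvPolynomial.continuous_eval _).abs
    rw [hF]
    exact (isClosed_Icc.inter ((isClosed_le c1 continuous_const).inter (isClosed_le c2 continuous_const))).measurableSet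
  have hsub : Yc.S c ⊆ (P.bs (Yc.wd c)) ⁻¹' (k4eU ⁻¹' F) := by
    intro x hx
    obtain ⟨hA, ht, hEv⟩ := k4e_S_mem h c hx
    have hSp := h.cwf.A_sub c hA
    have ht' : x.2 ∈ Set.Icc (0 : ℝ) 1 := ⟨ht.1, ht.2.le⟩
    show k4eU (x.2, kbY (P.co (Yc.wd c) x.1) x.2) ∈ F
    rw [hF]
    refine ⟨?_, ?_, ?_⟩
    · have hb := h.ntv.base _ _ hSp _ ht'
      have hy : ∀ i, |kbY (P.co (Yc.wd c) x.1) x.2 i| ≤ π.K := fun i => by
        have h1 := norm_le_pi_norm (kbY (P.co (Yc.wd c) x.1) x.2) i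
        rw [Real.norm_eq_abs] at h1
        linarith [norm_nonneg (kbV (P.co (Yc.wd c) x.1))]
      unfold k4eBoxA k4eBoxB k4eU
      constructor
      · intro i
        refine Fin.cases ?_ (fun k => ?_) i
        · simpa using ht.1
        · simp only [Fin.cons_succ]
          linarith [(abs_le.1 (hy k)).1]
      · intro i
        refine Fin.cases ?_ (fun k => ?_) i
        · simpa using ht.2.le
        · simp only [Fin.cons_succ]
          linarith [(abs_le.1 (hy k)).2]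
    · rw [k4e_DP_at _ hT _ _ (kbW (P.co (Yc.wd c) x.1) x.2)]
      refine (k4e_disc_bd (h.dw c x.1 hA x.2 ht) (h.dww c _ _ _) (h.val c x.1 hA x.2 ht)).trans (le_of_eq ?_)
      field_simp
      ring
    · rw [k4e_DP_at _ hT' _ _ (kbW (P.co (Yc.wd c) x.1) x.2)]
      refine (k4e_disc_bd (h.ntv.dw _ _ hSp _ ht') (h.ntv.dww _ _ _ _) (h.ntv.sig _ _ hSp _ ht')).trans ?_
      have hKL : π.K ^ 2 ≤ π.Lm ^ 2 := pow_le_pow_left₀ hK0.le h.KL 2
      have hB2 : 0 ≤ P.B (Yc.wd c) ^ 2 := by positivity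
      nlinarith [mul_le_mul_of_nonneg_right hKL hB2]
  have hUm : Measurable (k4eU (v := v)) := k4e_U_cont.measurable
  have hm1 : Yc.mC c ≤ ENNReal.ofReal (8 * π.Lm ^ 3 * π.R ^ (-π.d)) * volume F := by
    calc Yc.mC c = P.mu (Yc.wd c) (Yc.S c) := rfl
      _ = (P.mu (Yc.wd c)).restrict (Yc.S c) (P.bs (Yc.wd c) ⁻¹' (k4eU ⁻¹' F)) := by
          rw [Measure.restrict_apply (k4e_bs_meas h.wf _ (hUm hFm)), Set.inter_eq_right.2 hsub]
      _ = ((P.mu (Yc.wd c)).restrict (Yc.S c)).map (P.bs (Yc.wd c)) (k4eU ⁻¹' F) := (Measure.map_apply (k4e_bs_meas h.wf _) (hUm hFm)).symm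
      _ ≤ ENNReal.ofReal (8 * π.Lm ^ 3 * π.R ^ (-π.d)) * volume (k4eU (v := v) ⁻¹' F) := k4e_vol_of_mass _ _ _ (k4e_s1_marg h c) _
      _ = ENNReal.ofReal (8 * π.Lm ^ 3 * π.R ^ (-π.d)) * volume F := by rw [k4e_U_mp.measure_preimage hFm.nullMeasurableSet]
  have hm2 := (h.floor c).trans hm1
  have hm3 : ENNReal.ofReal (1 / (8 * π.Lm ^ 4)) ≤ volume F := by
    calc ENNReal.ofReal (1 / (8 * π.Lm ^ 4)) = ENNReal.ofReal ((8 * π.Lm ^ 3 * π.R ^ (-π.d))⁻¹) * ENNReal.ofReal (π.R ^ (-π.d) / π.Lm) := by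
          rw [← ENNReal.ofReal_mul (by positivity)]
          congr 1
          field_simp
      _ ≤ ENNReal.ofReal ((8 * π.Lm ^ 3 * π.R ^ (-π.d))⁻¹) * (ENNReal.ofReal (8 * π.Lm ^ 3 * π.R ^ (-π.d)) * volume F) := by gcongr
      _ = volume F := by
          rw [← mul_assoc, ← ENNReal.ofReal_mul (by positivity), inv_mul_cancel₀ (by positivity), ENNReal.ofReal_one, one_mul]
  have hj : v.j ≤ 2 := by cases v <;> simp [KbVer.j]
  have hbox : volume (Set.Icc (k4eBoxA v π.K) (k4eBoxB v π.K)) ≤ ENNReal.ofReal (16 * π.Lm ^ 2) := by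
    rw [k4e_box_vol, ← ENNReal.ofReal_pow (by positivity)]
    apply ENNReal.ofReal_le_ofReal
    calc (2 * π.K + 2) ^ v.j ≤ (4 * π.Lm) ^ v.j := pow_le_pow_left₀ (by positivity) (by linarith [h.K1, h.KL]) _
      _ ≤ (4 * π.Lm) ^ 2 := pow_le_pow_right₀ (by linarith) hj
      _ = 16 * π.Lm ^ 2 := by ring
  calc ENNReal.ofReal (1 / (128 * π.Lm ^ 6)) * volume (Set.Icc (k4eBoxA v π.K) (k4eBoxB v π.K))
      ≤ ENNReal.ofReal (1 / (128 * π.Lm ^ 6)) * ENNReal.ofReal (16 * π.Lm ^ 2) := by gcongr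
    _ = ENNReal.ofReal (1 / (8 * π.Lm ^ 4)) := by
        rw [← ENNReal.ofReal_mul (by positivity)]
        congr 1
        field_simp
        ring
    _ ≤ volume F := hm3

/-! ## S2. Remez ⟹ stable discriminant on small polydiscs -/

/-- `aeval` at a real point -/
theorem k4e_aeval_real {n : ℕ} (D : MvPolynomial (Fin n) ℝ) (u : Fin n → ℝ) :
    MvPolynomial.aeval (fun i => (u i : ℂ)) D = ((MvPolynomial.eval u D : ℝ) : ℂ) := by
  rw [MvPolynomial.aeval_def, MvPolynomial.eval₂_eq', MvPolynomial.eval_eq']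
  push_cast
  rfl

/-- difference of two finite products -/
theorem k4e_prod_sub_le {ι : Type} (s : Finset ι) (x y : ι → ℂ) (A e : ℝ) (hA : 1 ≤ A) (he : 0 ≤ e) (hx : ∀ i ∈ s, ‖x i‖ ≤ A) (hy : ∀ i ∈ s, ‖y i‖ ≤ A)
    (hxy : ∀ i ∈ s, ‖x i - y i‖ ≤ e) : ‖∏ i ∈ s, x i - ∏ i ∈ s, y i‖ ≤ s.card * A ^ s.card * e := by
  classical
  induction s using Finset.induction_on with
  | empty => simp
  | insert a s ha ih =>
    rw [Finset.prod_insert ha, Finset.prod_insert ha, Finset.card_insert_of_notMem ha]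
    have ih' := ih (fun i hi => hx i (Finset.mem_insert_of_mem hi)) (fun i hi => hy i (Finset.mem_insert_of_mem hi))
      (fun i hi => hxy i (Finset.mem_insert_of_mem hi))
    have e1 : x a * ∏ i ∈ s, x i - y a * ∏ i ∈ s, y i = (x a - y a) * ∏ i ∈ s, x i + y a * (∏ i ∈ s, x i - ∏ i ∈ s, y i) := by ring
    have h1 : ‖∏ i ∈ s, x i‖ ≤ A ^ s.card := by
      rw [norm_prod]
      refine (Finset.prod_le_prod (fun _ _ => norm_nonneg _) (fun i hi => hx i (Finset.mem_insert_of_mem hi))).trans ?_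
      rw [Finset.prod_const]
    have hA0 : 0 ≤ A := by linarith
    rw [e1]
    refine (norm_add_le _ _).trans ?_
    rw [norm_mul, norm_mul]
    have h2 : ‖x a - y a‖ * ‖∏ i ∈ s, x i‖ ≤ e * A ^ s.card :=
      mul_le_mul (hxy a (Finset.mem_insert_self _ _)) h1 (norm_nonneg _) he
    have h3 : ‖y a‖ * ‖∏ i ∈ s, x i - ∏ i ∈ s, y i‖ ≤ A * (s.card * A ^ s.card * e) :=
      mul_le_mul (hy a (Finset.mem_insert_self _ _)) ih' (norm_nonneg _) hA0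
    have h4 : e * A ^ s.card ≤ e * A ^ (s.card + 1) := mul_le_mul_of_nonneg_left (pow_le_pow_right₀ hA (Nat.le_succ _)) he
    push_cast
    calc ‖x a - y a‖ * ‖∏ i ∈ s, x i‖ + ‖y a‖ * ‖∏ i ∈ s, x i - ∏ i ∈ s, y i‖ ≤ e * A ^ (s.card + 1) + A * (s.card * A ^ s.card * e) := by linarith
      _ = ((s.card : ℝ) + 1) * A ^ (s.card + 1) * e := by ring

/-- powers `≤ 2` -/
theorem k4e_pow_sub_le (x y : ℂ) (e : ℝ) (m : ℕ) (hm : m ≤ 2) (he : 0 ≤ e) (hx : ‖x‖ ≤ 2) (hy : ‖y‖ ≤ 2) (hxy : ‖x - y‖ ≤ e) :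
    ‖x ^ m‖ ≤ 4 ∧ ‖y ^ m‖ ≤ 4 ∧ ‖x ^ m - y ^ m‖ ≤ 4 * e := by
  have hp : ∀ w : ℂ, ‖w‖ ≤ 2 → ‖w ^ m‖ ≤ 4 := by
    intro w hw
    rw [norm_pow]
    calc ‖w‖ ^ m ≤ 2 ^ m := pow_le_pow_left₀ (norm_nonneg _) hw m
      _ ≤ 2 ^ 2 := pow_le_pow_right₀ (by norm_num) hm
      _ = 4 := by norm_num
  refine ⟨hp x hx, hp y hy, ?_⟩
  interval_cases m
  · simp
    linarith
  · simp only [pow_one]
    linarith
  · have e1 : x ^ 2 - y ^ 2 = (x - y) * (x + y) := by ring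
    rw [e1, norm_mul]
    have h1 : ‖x + y‖ ≤ 4 := (norm_add_le _ _).trans (by linarith)
    calc ‖x - y‖ * ‖x + y‖ ≤ e * 4 := mul_le_mul hxy h1 (norm_nonneg _) he
      _ = 4 * e := by ring

/-- Lipschitz bound in the coefficient norm on the polydisc of radius `2` -/
theorem k4e_aeval_lip {n : ℕ} (Q : MvPolynomial (Fin n) ℝ) (hQ : ∀ i, Q.degreeOf i ≤ 2) (x y : Fin n → ℂ) (e : ℝ) (he : 0 ≤ e) (hx : ∀ i, ‖x i‖ ≤ 2)
    (hy : ∀ i, ‖y i‖ ≤ 2) (hxy : ∀ i, ‖x i - y i‖ ≤ e) :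
    ‖MvPolynomial.aeval x Q - MvPolynomial.aeval y Q‖ ≤ rmzNm Q * (n * 4 ^ n * (4 * e)) := by
  rw [MvPolynomial.aeval_def, MvPolynomial.aeval_def, MvPolynomial.eval₂_eq', MvPolynomial.eval₂_eq', ← Finset.sum_sub_distrib]
  refine (norm_sum_le _ _).trans ?_
  unfold rmzNm
  rw [Finset.sum_mul]
  refine Finset.sum_le_sum fun m hm => ?_
  rw [← mul_sub, norm_mul]
  have h1 : ‖(algebraMap ℝ ℂ) (MvPolynomial.coeff m Q)‖ = |MvPolynomial.coeff m Q| := by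
    rw [Complex.coe_algebraMap, Complex.norm_real, Real.norm_eq_abs]
  rw [h1]
  refine mul_le_mul_of_nonneg_left ?_ (abs_nonneg _)
  have hm2 : ∀ i, m i ≤ 2 := fun i => (MvPolynomial.monomial_le_degreeOf i hm).trans (hQ i)
  have := k4e_prod_sub_le Finset.univ (fun i => x i ^ m i) (fun i => y i ^ m i) 4 (4 * e) (by norm_num) (by positivity)
    (fun i _ => (k4e_pow_sub_le (x i) (y i) e (m i) (hm2 i) he (hx i) (hy i) (hxy i)).1)
    (fun i _ => (k4e_pow_sub_le (x i) (y i) e (m i) (hm2 i) he (hx i) (hy i) (hxy i)).2.1)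
    (fun i _ => (k4e_pow_sub_le (x i) (y i) e (m i) (hm2 i) he (hx i) (hy i) (hxy i)).2.2)
  rwa [Finset.card_univ, Fintype.card_fin] at this

/-- **LEAF L-252-S4E-K2** (l.1453-1476; PAPER-FREE, only `R252/Remez`).
PROOF.  `N := rmzNm (rmzAffm a b D) ≤ rmzCm n 2 θ * M ≤ C' θ^{-2n} M` (`rmz_box`, `rmz_Cm_le`).   In the normalised variables `σ = (u - a)/(b - a)` (sides `≥ 1`) all points of the polydisc of radius `4r ≤ 1` about `u₀` have `|σ| ≤ 2`, and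
`|σ^m - σ'^m| ≤ |m| 2^{|m|} |σ - σ'|_∞`, so `‖D(z) - D(u₀)‖ ≤ C'' N · 4 r` (`rmz_affm_aeval`, `MvPolynomial.aeval` as a sum over the support).   With `C = 64 C' C''`: variation `≤ δ/16 · …`; `D(u₀) ≥ D(u₁) - δ/16`. -/
theorem k4e_stable_of_remez (n : ℕ) : ∃ C : ℝ, 1 ≤ C ∧ ∀ (D : MvPolynomial (Fin n) ℝ) (a b : Fin n → ℝ) (θ M δ r : ℝ) (F : Set (Fin n → ℝ)) (u₀ u₁ : Fin n → ℝ),
    (∀ i, D.degreeOf i ≤ 2) → (∀ i, a i + 1 ≤ b i) → 0 < θ → θ ≤ 1 → 0 ≤ M → F ⊆ Set.Icc a b → ENNReal.ofReal θ * volume (Set.Icc a b) ≤ volume F →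
    (∀ u ∈ F, |MvPolynomial.eval u D| ≤ M) → u₀ ∈ Set.Icc a b → 0 < r → r ≤ 1 / 4 → u₁ ∈ Metric.closedBall u₀ r → 0 < δ → δ ≤ MvPolynomial.eval u₁ D →
    C * θ⁻¹ ^ (2 * n) * M * r ≤ δ → k4eStable D u₀ r ∧ δ / 2 ≤ MvPolynomial.eval u₀ D := by
  obtain ⟨C', hC'⟩ : ∃ C' : ℝ, C' = (((2 : ℕ) : ℝ) + 1) ^ 2 * (8 * (((2 : ℕ) : ℝ) + 1) * 2 ^ n) ^ 2 := ⟨_, rfl⟩
  have hC'0 : 0 ≤ C' := by rw [hC']; positivity
  refine ⟨1 + 8 * (C' ^ n * (n * 4 ^ n * 16)), by have : 0 ≤ 8 * (C' ^ n * (n * 4 ^ n * 16)) := by positivity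
                                                  linarith, ?_⟩
  intro D a b θ M δ r F u₀ u₁ hD hab hθ hθ1 hM hF hvol hFM hu₀ hr hr4 hu₁ hδ hδ1 hcond
  have hab' : ∀ i, a i < b i := fun i => by linarith [hab i]
  obtain ⟨Q, hQ⟩ : ∃ Q, Q = rmzAffm a b D := ⟨_, rfl⟩
  have hQd : ∀ i, Q.degreeOf i ≤ 2 := fun i => by rw [hQ]; exact (rmz_affm_degreeOf a b D i).trans (hD i)
  have hN : rmzNm Q ≤ C' ^ n * θ⁻¹ ^ (2 * n) * M := by
    rw [hQ]
    refine (rmz_box n 2 D hD a b hab' θ M hθ F hF hvol hFM).trans ?_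
    refine mul_le_mul_of_nonneg_right ?_ hM
    have := rmz_Cm_le n 2 θ hθ
    rwa [← hC', mul_comm n 2] at this
  -- the variation on the polydisc
  have hvar : ∀ z : Fin n → ℂ, (∀ i, ‖z i - (u₀ i : ℂ)‖ ≤ 4 * r) →
      ‖MvPolynomial.aeval z D - ((MvPolynomial.eval u₀ D : ℝ) : ℂ)‖ ≤ δ / 8 := by
    intro z hz
    have hback : ∀ w : Fin n → ℂ, MvPolynomial.aeval w D = MvPolynomial.aeval (fun i => (w i - (a i : ℂ)) / ((b i - a i : ℝ) : ℂ)) Q := by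
      intro w
      rw [hQ, rmz_affm_aeval]
      congr 2
      funext i
      have h3 : ((b i : ℂ) - (a i : ℂ)) ≠ 0 := by
        have := (sub_pos.2 (hab' i)).ne'
        exact_mod_cast this
      push_cast
      field_simp
      ring
    rw [← k4e_aeval_real, hback z, hback fun i => (u₀ i : ℂ)]
    have hnorm : ∀ (w : ℂ) (i : Fin n), ‖w / ((b i - a i : ℝ) : ℂ)‖ ≤ ‖w‖ := by
      intro w i
      rw [norm_div, Complex.norm_real, Real.norm_eq_abs, abs_of_pos (sub_pos.2 (hab' i))]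
      exact div_le_self (norm_nonneg _) (by linarith [hab i])
    have hu0 : ∀ i, ‖((u₀ i : ℂ) - (a i : ℂ)) / ((b i - a i : ℝ) : ℂ)‖ ≤ 1 := by
      intro i
      rw [norm_div, Complex.norm_real, Real.norm_eq_abs, abs_of_pos (sub_pos.2 (hab' i)), ← Complex.ofReal_sub, Complex.norm_real, Real.norm_eq_abs,
        div_le_one (sub_pos.2 (hab' i)), abs_of_nonneg (by linarith [hu₀.1 i])]
      linarith [hu₀.2 i]
    have hdiff : ∀ i, ‖(z i - (a i : ℂ)) / ((b i - a i : ℝ) : ℂ) - ((u₀ i : ℂ) - (a i : ℂ)) / ((b i - a i : ℝ) : ℂ)‖ ≤ 4 * r := by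
      intro i
      rw [← sub_div, sub_sub_sub_cancel_right]
      exact (hnorm _ i).trans (hz i)
    have h1 := k4e_aeval_lip Q hQd (fun i => (z i - (a i : ℂ)) / ((b i - a i : ℝ) : ℂ)) (fun i => ((u₀ i : ℂ) - (a i : ℂ)) / ((b i - a i : ℝ) : ℂ)) (4 * r)
      (by positivity)
      (by
        intro i
        have e : (z i - (a i : ℂ)) / ((b i - a i : ℝ) : ℂ) = ((z i - (a i : ℂ)) / ((b i - a i : ℝ) : ℂ) - ((u₀ i : ℂ) - (a i : ℂ)) / ((b i - a i : ℝ) : ℂ))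
            + ((u₀ i : ℂ) - (a i : ℂ)) / ((b i - a i : ℝ) : ℂ) := by ring
        rw [e]
        refine (norm_add_le _ _).trans ?_
        linarith [hdiff i, hu0 i])
      (fun i => (hu0 i).trans (by norm_num)) hdiff
    refine h1.trans ?_
    have h2 : rmzNm Q * (n * 4 ^ n * (4 * (4 * r))) ≤ C' ^ n * θ⁻¹ ^ (2 * n) * M * (n * 4 ^ n * (4 * (4 * r))) :=
      mul_le_mul_of_nonneg_right hN (by positivity)
    refine h2.trans ?_
    have h3 : 0 ≤ θ⁻¹ ^ (2 * n) * M * r := by positivity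
    have h4 : (1 + 8 * (C' ^ n * (n * 4 ^ n * 16))) * θ⁻¹ ^ (2 * n) * M * r = θ⁻¹ ^ (2 * n) * M * r + 8 * (C' ^ n * θ⁻¹ ^ (2 * n) * M * (n * 4 ^ n * (4 * (4 * r)))) := by ring
    rw [h4] at hcond
    linarith
  have h01 : |MvPolynomial.eval u₁ D - MvPolynomial.eval u₀ D| ≤ δ / 8 := by
    have := hvar (fun i => (u₁ i : ℂ)) (fun i => by
      rw [← Complex.ofReal_sub, Complex.norm_real, Real.norm_eq_abs]
      have h1 : dist u₁ u₀ ≤ r := hu₁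
      have h2 := (dist_pi_le_iff hr.le).1 h1 i
      rw [Real.dist_eq] at h2
      linarith)
    rwa [k4e_aeval_real, ← Complex.ofReal_sub, Complex.norm_real, Real.norm_eq_abs] at this
  have h0 : 7 * δ / 8 ≤ MvPolynomial.eval u₀ D := by
    have := (abs_le.1 h01).2
    linarith
  exact ⟨⟨by linarith, fun z hz => (hvar z hz).trans (by linarith)⟩, by linarith⟩

/-- **LEAF L-252-S4E-K2b**.  Consequences of stability at REAL points of the cube (take `z = u`, `MvPolynomial.aeval` of a real point is the cast of `eval`: `MvPolynomial.aeval_def`, `eval₂_eq_eval_map`/`Complex.ofReal` ring hom; `Complex.norm_real`). -/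
theorem k4e_stable_real {n : ℕ} (D : MvPolynomial (Fin n) ℝ) (u₀ : Fin n → ℝ) (r : ℝ) (hr : 0 ≤ r) (h : k4eStable D u₀ r) (u : Fin n → ℝ) (hu : u ∈ Metric.closedBall u₀ r) :
    MvPolynomial.eval u₀ D / 2 ≤ MvPolynomial.eval u D ∧ MvPolynomial.eval u D ≤ 3 / 2 * MvPolynomial.eval u₀ D := by
  have := h.2 (fun i => (u i : ℂ)) (fun i => by
    rw [← Complex.ofReal_sub, Complex.norm_real, Real.norm_eq_abs]
    have h1 : dist u u₀ ≤ r := hu
    have h2 := (dist_pi_le_iff hr).1 h1 i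
    rw [Real.dist_eq] at h2
    linarith)
  rw [k4e_aeval_real, ← Complex.ofReal_sub, Complex.norm_real, Real.norm_eq_abs, abs_le] at this
  constructor <;> linarith [this.1, this.2]

/-! ## S3. one trajectory and one test -/

theorem k4e_Uline_cont (l : KbTj v) : Continuous fun t : ℝ => k4eU (t, kbY l t) := by
  unfold k4eU kbY
  refine continuous_pi fun i => ?_
  refine Fin.cases ?_ (fun k => ?_) i
  · simp only [Fin.cons_zero]
    exact continuous_id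
  · simp only [Fin.cons_succ, Pi.add_apply, Pi.smul_apply, smul_eq_mul]
    fun_prop

theorem k4e_Wline_cont (l : KbTj v) : Continuous fun t : ℝ => kbW l t := by
  unfold kbW
  fun_prop

theorem k4e_DP_eval_eq (T : KbTest v) (u : Fin (v.j + 1) → ℝ) :
    MvPolynomial.eval u (k4eDP T) = MvPolynomial.eval u (k4ebP T) ^ 2 - 4 * k4eA T * MvPolynomial.eval u (k4ecP T) := by
  simp [k4eDP, k4eDisc]

/-- **LEAF L-252-S4E-K3** (l.1443-1447, 1478-1482).  One trajectory piece inside the cube stays within `32 Λ⁴ a_fit / B` of the graph selected by the midpoint sign.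
PROOF.  `k4e_quad_form` along the trajectory (`kbX`).   High curvature: `k4e_center` with `U = ΛB`, `κ = k4eKap`.   Low curvature: `D ≥ D(u₀)/2 ≥ B²/(8Λ²) =: D₀` on the piece (`k4e_stable_real`), `8|A|V = 4|2A|Λ a_fit ≤ D₀`,
`k4e_branch_line` (continuity: polynomials in `t`); its sign is the midpoint sign; `2V/√D₀ = 2√8 Λ² a_fit/B`. -/
theorem k4e_graph_near (T : KbTest v) (hT : KbIsQuad T) (π : K4ePar) (B af : ℝ) (hB : 0 < B) (haf : 0 < af) (hL : 1 ≤ π.Lm) (l : KbTj v) (I : Set ℝ) (hI : I.OrdConnected)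
    (u₀ : Fin (v.j + 1) → ℝ) (r : ℝ) (hr : 0 ≤ r) (tm : ℝ) (htm : tm ∈ I) (hbox : ∀ t ∈ I, k4eU (t, kbY l t) ∈ Metric.closedBall u₀ r)
    (hval : ∀ t ∈ I, |kbX T l t| ≤ π.Lm * af) (hdw : ∀ t ∈ I, |kbX (kbDw T) l t| ≤ π.Lm * B)
    (hst : |2 * k4eA T| < k4eKap π B af → k4eStable (k4eDP T) u₀ r ∧ B ^ 2 / (4 * π.Lm ^ 2) ≤ MvPolynomial.eval u₀ (k4eDP T))
    (s : Bool) (hs : s = decide (0 ≤ kbX (kbDw T) l tm)) :
    ∀ t ∈ I, |kbW l t - k4eGr T (k4eKap π B af) s (k4eU (t, kbY l t))| ≤ 32 * π.Lm ^ 4 * af / B := by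
  have hL0 : 0 < π.Lm := by linarith
  have hκ : 0 < k4eKap π B af := by
    unfold k4eKap
    positivity
  have hX : ∀ t, kbX T l t = k4eA T * kbW l t ^ 2 + MvPolynomial.eval (k4eU (t, kbY l t)) (k4ebP T) * kbW l t + MvPolynomial.eval (k4eU (t, kbY l t)) (k4ecP T) :=
    fun t => (k4e_quad_form T hT t (kbY l t) (kbW l t)).1
  have hXw : ∀ t, kbX (kbDw T) l t = 2 * k4eA T * kbW l t + MvPolynomial.eval (k4eU (t, kbY l t)) (k4ebP T) :=
    fun t => (k4e_quad_form T hT t (kbY l t) (kbW l t)).2.1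
  by_cases hc : k4eKap π B af ≤ |2 * k4eA T|
  · intro t ht
    unfold k4eGr
    rw [if_pos hc]
    have h1 := k4e_center (k4eA T) (MvPolynomial.eval (k4eU (t, kbY l t)) (k4ebP T)) (kbW l t) (π.Lm * B) (k4eKap π B af) hκ hc (by rw [← hXw]; exact hdw t ht)
    refine h1.trans (le_of_eq ?_)
    unfold k4eKap
    field_simp
  · push Not at hc
    obtain ⟨hstab, hlow⟩ := hst hc
    obtain ⟨D₀, hD₀⟩ : ∃ D₀ : ℝ, D₀ = B ^ 2 / (8 * π.Lm ^ 2) := ⟨_, rfl⟩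
    have hD₀pos : 0 < D₀ := by rw [hD₀]; positivity
    have hbr := k4e_branch_line (k4eA T) (fun t => MvPolynomial.eval (k4eU (t, kbY l t)) (k4ebP T)) (fun t => MvPolynomial.eval (k4eU (t, kbY l t)) (k4ecP T))
      (fun t => kbW l t) I hI (π.Lm * af) D₀
      (((MvPolynomial.continuous_eval (k4ebP T)).comp (k4e_Uline_cont l)).continuousOn) ((k4e_Wline_cont l).continuousOn) hD₀pos
      (by
        intro t ht
        have h1 := (k4e_stable_real (k4eDP T) u₀ r hr hstab _ (hbox t ht)).1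
        rw [k4e_DP_eval_eq T (k4eU (t, kbY l t))] at h1
        refine le_trans ?_ h1
        rw [hD₀]
        have : B ^ 2 / (8 * π.Lm ^ 2) = B ^ 2 / (4 * π.Lm ^ 2) / 2 := by
          field_simp
          ring
        rw [this]
        linarith)
      (by
        intro t ht
        rw [← hX]
        exact hval t ht)
      (by
        have h1 : 8 * |k4eA T| * (π.Lm * af) = 4 * |2 * k4eA T| * (π.Lm * af) := by
          rw [abs_mul, abs_two]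
          ring
        rw [h1]
        have h2 : 4 * |2 * k4eA T| * (π.Lm * af) ≤ 4 * k4eKap π B af * (π.Lm * af) := by
          have : 0 < π.Lm * af := by positivity
          nlinarith
        refine h2.trans (le_of_eq ?_)
        rw [hD₀]
        unfold k4eKap
        field_simp
        ring)
    obtain ⟨s', hs', hall⟩ := hbr
    have hsg : k4eSg s = s' := by
      have h1 := (hall tm htm).1
      rw [← hXw] at h1
      unfold k4eSg
      rcases hs' with h | h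
      · rw [h, one_mul] at h1
        rw [hs, h, if_pos (by simpa using h1.le)]
      · rw [h] at h1
        rw [hs, h, if_neg (by simp only [decide_eq_true_eq, not_le]; linarith)]
    intro t ht
    unfold k4eGr
    rw [if_neg (not_le.2 hc), hsg]
    have h2 := (hall t ht).2
    have h3 : B / (3 * π.Lm) ≤ Real.sqrt D₀ := by
      refine Real.le_sqrt_of_sq_le ?_
      rw [hD₀, div_pow, mul_pow]
      refine div_le_div_of_nonneg_left (by positivity) (by positivity) ?_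
      nlinarith [sq_nonneg π.Lm]
    obtain ⟨x, hx⟩ : ∃ x, x = |kbW l t - k4eRoot (k4eA T) (MvPolynomial.eval (k4eU (t, kbY l t)) (k4ebP T)) (MvPolynomial.eval (k4eU (t, kbY l t)) (k4ecP T)) s'| := ⟨_, rfl⟩
    rw [← hx] at h2 ⊢
    have hx0 : 0 ≤ x := by rw [hx]; exact abs_nonneg _
    have h4 : x * (B / (3 * π.Lm)) ≤ 2 * (π.Lm * af) := (mul_le_mul_of_nonneg_left h3 hx0).trans h2
    have h5 : x ≤ 6 * π.Lm ^ 2 * af / B := by
      rw [le_div_iff₀ hB]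
      have h6 : x * (B / (3 * π.Lm)) * (3 * π.Lm) = x * B := by
        field_simp
      have h7 : x * (B / (3 * π.Lm)) * (3 * π.Lm) ≤ 2 * (π.Lm * af) * (3 * π.Lm) := mul_le_mul_of_nonneg_right h4 (by positivity)
      rw [h6] at h7
      nlinarith
    refine h5.trans ?_
    refine div_le_div_of_nonneg_right ?_ hB.le
    have h8 : π.Lm ^ 2 ≤ π.Lm ^ 4 := pow_le_pow_right₀ hL (by norm_num)
    nlinarith [mul_pos haf (pow_pos hL0 2)]

/-- **LEAF L-252-S4E-K3b**.  The graphs belong to the class of the hubs (`k4e_quad_deg`; high curvature: the polynomial `C (-1/(2A)) * b`). -/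
theorem k4e_graph_mem (T : KbTest v) (κ : ℝ) (s : Bool) (u₀ : Fin (v.j + 1) → ℝ) (r : ℝ) (hst : |2 * k4eA T| < κ → k4eStable (k4eDP T) u₀ r) :
    k4eGr T κ s ∈ k4eSh (v.j + 1) u₀ r := by
  obtain ⟨hb, hc, -⟩ := k4e_quad_deg T
  by_cases h : κ ≤ |2 * k4eA T|
  · left
    refine ⟨MvPolynomial.C (-1 / (2 * k4eA T)) * k4ebP T, ?_, fun u => ?_⟩
    · refine (MvPolynomial.totalDegree_mul _ _).trans ?_
      rw [MvPolynomial.totalDegree_C]
      omega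
    · unfold k4eGr
      rw [if_pos h]
      simp only [map_mul, MvPolynomial.eval_C]
      ring
  · right
    refine ⟨k4eA T, k4eSg s, k4ebP T, k4ecP T, hb, hc, ?_, hst (not_le.1 h), fun u => ?_⟩
    · unfold k4eSg
      by_cases hs : s = true
      · left; rw [if_pos hs]
      · right; rw [if_neg hs]
    · unfold k4eGr
      rw [if_neg h]

/-- **LEAF L-252-S4E-K3c** (l.1462-1466).  Geometry of a short piece: the base point stays in the comparison cube of the group, whose centre lies in the chart box.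
PROOF.  `|t - mid| ≤ ρ/2`; `‖y(t) - y(mid)‖ ≤ K ρ/2` (`ntv.base` bounds `‖V‖`); `|y(mid) i - (bz i + 1/2) ρ| ≤ ρ/2` (floor).   `dist` on `Fin (j+1) → ℝ` is the sup (`dist_pi_le_iff`), `Fin.cases`. -/
theorem k4e_piece_box {Yc : KbSys P} {S' : Yc.C → Set (P.Lam × ℝ)} {π : K4ePar} (h : K4eHyp Yc S' π) (e : K4eEnt Yc) (he : e.2.1 < 2 ^ π.n') (l : P.Lam) (hl : l ∈ k4eTraj Yc π.n' e) :
    (∀ t ∈ kbI π.n' e.2.1, t ∈ Set.Ico (0 : ℝ) 1 ∧ k4eU (t, kbY (P.co (Yc.wd e.1) l) t) ∈ Metric.closedBall (k4eCen π.n' (k4eGrpOf Yc e)) π.r) ∧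
      k4eMid π.n' e.2.1 ∈ kbI π.n' e.2.1 ∧ k4eCen π.n' (k4eGrpOf Yc e) ∈ Set.Icc (k4eBoxA v π.K) (k4eBoxB v π.K) := by
  obtain ⟨ρ, hρ⟩ : ∃ ρ : ℝ, ρ = kbQ π.n' := ⟨_, rfl⟩
  have hρ0 : 0 < ρ := by rw [hρ]; unfold kbQ; positivity
  have hρ2 : ρ * 2 ^ π.n' = 1 := by
    rw [hρ]
    unfold kbQ
    rw [← mul_pow]
    norm_num
  have hρ1 : ρ ≤ 1 := by
    rw [hρ]
    unfold kbQ
    exact pow_le_one₀ (by norm_num) (by norm_num)
  obtain ⟨k, hk⟩ : ∃ k : ℕ, k = e.2.1 := ⟨_, rfl⟩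
  have hk1 : ((k : ℝ) + 1) * ρ ≤ 1 := by
    have h1 : ((k : ℝ) + 1) ≤ 2 ^ π.n' := by
      rw [hk]
      exact_mod_cast he
    calc ((k : ℝ) + 1) * ρ ≤ 2 ^ π.n' * ρ := mul_le_mul_of_nonneg_right h1 hρ0.le
      _ = 1 := by rw [mul_comm]; exact hρ2
  have hk0 : (0 : ℝ) ≤ k := Nat.cast_nonneg k
  have hK1 := h.K1
  have hlSp : l ∈ P.Sp (Yc.wd e.1) := h.cwf.A_sub _ hl.1
  obtain ⟨c, hc⟩ : ∃ c, c = P.co (Yc.wd e.1) l := ⟨_, rfl⟩
  have hbase : ∀ t ∈ Set.Icc (0 : ℝ) 1, ‖kbY c t‖ + ‖kbV c‖ ≤ π.K := fun t ht => by rw [hc]; exact h.ntv.base _ l hlSp t ht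
  have hmidI : k4eMid π.n' k ∈ kbI π.n' k := by
    unfold k4eMid kbI
    rw [← hρ]
    constructor <;> nlinarith
  have hI01 : ∀ t ∈ kbI π.n' k, t ∈ Set.Ico (0 : ℝ) 1 := by
    intro t ht
    unfold kbI at ht
    rw [← hρ] at ht
    exact ⟨le_trans (by positivity) ht.1, lt_of_lt_of_le ht.2 hk1⟩
  have hmid01 := hI01 _ hmidI
  have hV : ∀ i, |kbV c i| ≤ π.K := by
    intro i
    have h1 := hbase 0 ⟨le_rfl, zero_le_one⟩
    have h2 := norm_le_pi_norm (kbV c) i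
    rw [Real.norm_eq_abs] at h2
    linarith [norm_nonneg (kbY c 0)]
  have hYm : ∀ i, |kbY c (k4eMid π.n' k) i| ≤ π.K := by
    intro i
    have h1 := hbase _ ⟨hmid01.1, hmid01.2.le⟩
    have h2 := norm_le_pi_norm (kbY c (k4eMid π.n' k)) i
    rw [Real.norm_eq_abs] at h2
    linarith [norm_nonneg (kbV c)]
  have hfl : ∀ i, |kbY c (k4eMid π.n' k) i - ((e.2.2.1 i : ℝ) + 1 / 2) * ρ| ≤ ρ / 2 := by
    intro i
    have h1 := hl.2.1 i
    rw [← hc, ← hk, ← hρ, Int.floor_eq_iff] at h1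
    obtain ⟨h2, h3⟩ := h1
    rw [le_div_iff₀ hρ0] at h2
    rw [div_lt_iff₀ hρ0] at h3
    rw [abs_le]
    constructor <;> nlinarith
  rw [← hk, ← hc]
  have hcen0 : k4eCen π.n' (k4eGrpOf Yc e) 0 = k4eMid π.n' k := by
    unfold k4eCen k4eU k4eGrpOf
    simp [hk]
  have hcenS : ∀ i : Fin v.j, k4eCen π.n' (k4eGrpOf Yc e) i.succ = ((e.2.2.1 i : ℝ) + 1 / 2) * ρ := by
    intro i
    unfold k4eCen k4eU k4eGrpOf k4eCy
    simp [hρ]
  refine ⟨fun t ht => ⟨hI01 t ht, ?_⟩, hmidI, ?_⟩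
  · have hr0 : 0 ≤ π.r := by
      unfold K4ePar.r K4ePar.ρ
      rw [← hρ]
      have : 0 ≤ π.K + 1 := by linarith
      positivity
    rw [Metric.mem_closedBall, dist_pi_le_iff hr0]
    have htm : |t - k4eMid π.n' k| ≤ ρ / 2 := by
      unfold kbI at ht
      unfold k4eMid
      rw [← hρ] at ht ⊢
      rw [abs_le]
      constructor <;> nlinarith [ht.1, ht.2]
    have hr : π.r = (π.K + 1) * ρ := by
      unfold K4ePar.r K4ePar.ρ
      rw [hρ]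
    intro i
    rw [Real.dist_eq, hr]
    refine Fin.cases ?_ (fun i => ?_) i
    · rw [hcen0]
      unfold k4eU
      simp only [Fin.cons_zero]
      nlinarith
    · rw [hcenS]
      unfold k4eU
      simp only [Fin.cons_succ]
      have e1 : kbY c t i - ((e.2.2.1 i : ℝ) + 1 / 2) * ρ = (t - k4eMid π.n' k) * kbV c i + (kbY c (k4eMid π.n' k) i - ((e.2.2.1 i : ℝ) + 1 / 2) * ρ) := by
        unfold kbY kbV
        simp only [Pi.add_apply, Pi.smul_apply, smul_eq_mul]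
        ring
      rw [e1]
      refine (abs_add_le _ _).trans ?_
      rw [abs_mul]
      have h5 : |t - k4eMid π.n' k| * |kbV c i| ≤ ρ / 2 * π.K := mul_le_mul htm (hV i) (abs_nonneg _) (by positivity)
      nlinarith [hfl i]
  · rw [Set.mem_Icc, Pi.le_def, Pi.le_def]
    constructor
    · intro i
      refine Fin.cases ?_ (fun i => ?_) i
      · rw [hcen0]
        unfold k4eBoxA k4eU
        simp only [Fin.cons_zero]
        exact hmid01.1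
      · rw [hcenS]
        unfold k4eBoxA k4eU
        simp only [Fin.cons_succ]
        have h1 := abs_le.1 (hfl i)
        have h2 := abs_le.1 (hYm i)
        linarith [h1.1, h1.2, h2.1, h2.2]
    · intro i
      refine Fin.cases ?_ (fun i => ?_) i
      · rw [hcen0]
        unfold k4eBoxB k4eU
        simp only [Fin.cons_zero]
        exact hmid01.2.le
      · rw [hcenS]
        unfold k4eBoxB k4eU
        simp only [Fin.cons_succ]
        have h1 := abs_le.1 (hfl i)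
        have h2 := abs_le.1 (hYm i)
        linarith [h1.1, h1.2, h2.1, h2.2]

/-! ## S4. heavy entries -/

/-- the discriminant at a counted point of a test of low curvature -/
theorem k4e_s4_point (T : KbTest v) (hT : KbIsQuad T) (π : K4ePar) (B af : ℝ) (hB : 0 < B) (haf : 0 < af) (hL : 1 ≤ π.Lm) (l : KbTj v) (t : ℝ)
    (hval : |kbX T l t| ≤ π.Lm * af) (hlow : B ≤ π.Lm * |kbX (kbDw T) l t|) (hc : |2 * k4eA T| < k4eKap π B af) :
    B ^ 2 / (2 * π.Lm ^ 2) ≤ MvPolynomial.eval (k4eU (t, kbY l t)) (k4eDP T) ∧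
      MvPolynomial.eval (k4eU (t, kbY l t)) (k4eDP T) ≤ 3 / 2 * kbX (kbDw T) l t ^ 2 := by
  have hL0 : 0 < π.Lm := by linarith
  have hX : kbX T l t = k4eA T * kbW l t ^ 2 + MvPolynomial.eval (k4eU (t, kbY l t)) (k4ebP T) * kbW l t + MvPolynomial.eval (k4eU (t, kbY l t)) (k4ecP T) :=
    (k4e_quad_form T hT t (kbY l t) (kbW l t)).1
  have hXw : kbX (kbDw T) l t = 2 * k4eA T * kbW l t + MvPolynomial.eval (k4eU (t, kbY l t)) (k4ebP T) :=
    (k4e_quad_form T hT t (kbY l t) (kbW l t)).2.1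
  have hlo : B / π.Lm ≤ |kbX (kbDw T) l t| := by
    rw [div_le_iff₀ hL0]
    linarith
  have h1 := k4e_disc_comp (k4eA T) (MvPolynomial.eval (k4eU (t, kbY l t)) (k4ebP T)) (MvPolynomial.eval (k4eU (t, kbY l t)) (k4ecP T)) (kbW l t)
    (π.Lm * af) (B / π.Lm) (by rw [← hX]; exact hval) (by rw [← hXw]; exact hlo) (by positivity)
    (by
      have e1 : 8 * |k4eA T| * (π.Lm * af) = 4 * |2 * k4eA T| * (π.Lm * af) := by
        rw [abs_mul, abs_two]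
        ring
      rw [e1]
      have h2 : 4 * |2 * k4eA T| * (π.Lm * af) ≤ 4 * k4eKap π B af * (π.Lm * af) := by
        have : 0 < π.Lm * af := by positivity
        nlinarith
      refine h2.trans ?_
      have e2 : 4 * k4eKap π B af * (π.Lm * af) = (B / π.Lm) ^ 2 / 8 := by
        unfold k4eKap
        field_simp
        ring
      rw [e2]
      have : 0 ≤ (B / π.Lm) ^ 2 := by positivity
      linarith)
  rw [← hXw, ← k4e_DP_eval_eq] at h1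
  refine ⟨le_trans ?_ h1.1, h1.2⟩
  have h3 : (B / π.Lm) ^ 2 ≤ kbX (kbDw T) l t ^ 2 := by
    rw [← sq_abs (kbX (kbDw T) l t)]
    exact pow_le_pow_left₀ (by positivity) hlo 2
  have e3 : B ^ 2 / (2 * π.Lm ^ 2) = (B / π.Lm) ^ 2 / 2 := by
    field_simp
  rw [e3]
  linarith

/-- **LEAF L-252-S4E-K4** (l.1467-1476).  A heavy entry is certified by a counted occurrence: below the curvature cutoffs both discriminants are stable on the comparison polydisc.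
PROOF.  `τ > 0` gives `x₁ ∈ k4eCov e`; `u₁ = k4eU (bs x₁)` lies in the cube (`k4e_piece_box`).   Low curvature: `k4e_disc_comp` (`V = Λ a_fit`, `lo = B/Λ`; true test: `ntv.dw_low`, `K ≤ Λ`) gives `D(u₁) ≥ B²/(2Λ²) =: δ`, and `D(u₁) ≤ 3/2 Λ²B²`.
`k4e_stable_of_remez` with `F` of `k4e_s1_wit`, `θ = 1/(128Λ⁶)`, `M = 3Λ²B²`; the condition is `num.n1` times `B²/(2Λ²)`.   Upper bound: `D(u₀) ≤ 2 D(u₁)` (`k4e_stable_real`). -/
theorem k4e_s4_stable {Yc : KbSys P} {S' : Yc.C → Set (P.Lam × ℝ)} {π : K4ePar} {C1 Crem Cc L2 : ℝ} (h : K4eHyp Yc S' π) (num : K4eNum v π C1 Crem Cc L2)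
    (hC1 : ∀ (D : MvPolynomial (Fin (v.j + 1)) ℝ) (a b : Fin (v.j + 1) → ℝ) (θ M δ r : ℝ) (F : Set (Fin (v.j + 1) → ℝ)) (u₀ u₁ : Fin (v.j + 1) → ℝ),
      (∀ i, D.degreeOf i ≤ 2) → (∀ i, a i + 1 ≤ b i) → 0 < θ → θ ≤ 1 → 0 ≤ M → F ⊆ Set.Icc a b → ENNReal.ofReal θ * volume (Set.Icc a b) ≤ volume F →
      (∀ u ∈ F, |MvPolynomial.eval u D| ≤ M) → u₀ ∈ Set.Icc a b → 0 < r → r ≤ 1 / 4 → u₁ ∈ Metric.closedBall u₀ r → 0 < δ → δ ≤ MvPolynomial.eval u₁ D →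
      C1 * θ⁻¹ ^ (2 * (v.j + 1)) * M * r ≤ δ → k4eStable D u₀ r ∧ δ / 2 ≤ MvPolynomial.eval u₀ D)
    (e : K4eEnt Yc) (he : e ∈ k4eHv Yc S' π) :
    (|2 * k4eA (Yc.ch e.1).T| < k4eKap π (P.B (Yc.wd e.1)) (1 / π.R) →
        k4eStable (k4eDP (Yc.ch e.1).T) (k4eCen π.n' (k4eGrpOf Yc e)) π.r ∧
          P.B (Yc.wd e.1) ^ 2 / (4 * π.Lm ^ 2) ≤ MvPolynomial.eval (k4eCen π.n' (k4eGrpOf Yc e)) (k4eDP (Yc.ch e.1).T) ∧
          MvPolynomial.eval (k4eCen π.n' (k4eGrpOf Yc e)) (k4eDP (Yc.ch e.1).T) ≤ 3 * π.Lm ^ 2 * P.B (Yc.wd e.1) ^ 2) ∧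
      (|2 * k4eA (P.Pst (Yc.wd e.1))| < k4eKap π (P.B (Yc.wd e.1)) 1 →
        k4eStable (k4eDP (P.Pst (Yc.wd e.1))) (k4eCen π.n' (k4eGrpOf Yc e)) π.r ∧
          P.B (Yc.wd e.1) ^ 2 / (4 * π.Lm ^ 2) ≤ MvPolynomial.eval (k4eCen π.n' (k4eGrpOf Yc e)) (k4eDP (P.Pst (Yc.wd e.1)))) := by
  have hK1 := h.K1
  have hL : 1 ≤ π.Lm := hK1.trans h.KL
  have hL0 : 0 < π.Lm := by linarith
  have hR0 : 0 < π.R := by linarith [h.R1]
  obtain ⟨B, hBdef⟩ : ∃ B, B = P.B (Yc.wd e.1) := ⟨_, rfl⟩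
  have hB : 0 < B := by rw [hBdef]; exact h.wf.B_pos _
  rw [← hBdef]
  -- the entry
  unfold k4eHv at he
  rw [Finset.mem_filter] at he
  obtain ⟨heAll, hmass⟩ := he
  have hek : e.2.1 < 2 ^ π.n' := by
    unfold k4eAll at heAll
    simp only [Finset.mem_product, Finset.mem_range] at heAll
    exact heAll.2.1
  have hne : (k4eCov Yc S' π.n' e).Nonempty := by
    by_contra hcon
    rw [Set.not_nonempty_iff_eq_empty] at hcon
    rw [hcon, measure_empty, nonpos_iff_eq_zero, ENNReal.ofReal_eq_zero] at hmass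
    linarith [num.τ0]
  obtain ⟨x₁, hxS, hxT, hxI⟩ := hne
  obtain ⟨hpiece, -, hcen⟩ := k4e_piece_box h e hek x₁.1 hxT
  obtain ⟨ht01, hu₁⟩ := hpiece x₁.2 hxI
  have hxS' : x₁ ∈ Yc.S e.1 := h.S'_sub _ hxS
  have hxA : x₁.1 ∈ Yc.A e.1 := hxT.1
  have hxSp : x₁.1 ∈ P.Sp (Yc.wd e.1) := h.cwf.A_sub _ hxA
  have hxEv : x₁ ∈ P.Ev (Yc.wd e.1) := (h.cwf.S_sub _ hxS').1
  have hr0 : 0 < π.r := by
    unfold K4ePar.r K4ePar.ρ kbQ
    have : 0 < π.K + 1 := by linarith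
    positivity
  have hbox : ∀ i, k4eBoxA v π.K i + 1 ≤ k4eBoxB v π.K i := by
    intro i
    unfold k4eBoxA k4eBoxB k4eU
    refine Fin.cases ?_ (fun i => ?_) i
    · simp
    · simp only [Fin.cons_succ]
      linarith
  obtain ⟨F, hF⟩ : ∃ F : Set (Fin (v.j + 1) → ℝ), F = {u | u ∈ Set.Icc (k4eBoxA v π.K) (k4eBoxB v π.K) ∧ |MvPolynomial.eval u (k4eDP (Yc.ch e.1).T)| ≤ 3 * π.Lm ^ 2 * P.B (Yc.wd e.1) ^ 2 ∧
        |MvPolynomial.eval u (k4eDP (P.Pst (Yc.wd e.1)))| ≤ 3 * π.Lm ^ 2 * P.B (Yc.wd e.1) ^ 2} := ⟨_, rfl⟩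
  have hFvol := k4e_s1_wit h e.1
  rw [← hF] at hFvol
  have hθ0 : (0 : ℝ) < 1 / (128 * π.Lm ^ 6) := by positivity
  have hθ1 : 1 / (128 * π.Lm ^ 6) ≤ (1 : ℝ) := by
    rw [div_le_one (by positivity)]
    have : (1 : ℝ) ≤ π.Lm ^ 6 := one_le_pow₀ hL
    linarith
  have hcond : C1 * (1 / (128 * π.Lm ^ 6))⁻¹ ^ (2 * (v.j + 1)) * (3 * π.Lm ^ 2 * B ^ 2) * π.r ≤ B ^ 2 / (2 * π.Lm ^ 2) := by
    have h1 := num.n1
    have e1 : (1 / (128 * π.Lm ^ 6))⁻¹ = 128 * π.Lm ^ 6 := by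
      rw [one_div, inv_inv]
    rw [e1]
    have e2 : C1 * (128 * π.Lm ^ 6) ^ (2 * (v.j + 1)) * (3 * π.Lm ^ 2 * B ^ 2) * π.r
        = (C1 * (128 * π.Lm ^ 6) ^ (2 * (v.j + 1)) * (6 * π.Lm ^ 4) * π.r) * (B ^ 2 / (2 * π.Lm ^ 2)) := by
      field_simp
      ring
    rw [e2]
    have h2 : 0 ≤ B ^ 2 / (2 * π.Lm ^ 2) := by positivity
    nlinarith
  -- the common argument
  have main : ∀ T : KbTest v, KbIsQuad T → (∀ u ∈ F, |MvPolynomial.eval u (k4eDP T)| ≤ 3 * π.Lm ^ 2 * B ^ 2) →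
      B ^ 2 / (2 * π.Lm ^ 2) ≤ MvPolynomial.eval (k4eU (x₁.2, kbY (P.co (Yc.wd e.1) x₁.1) x₁.2)) (k4eDP T) →
      k4eStable (k4eDP T) (k4eCen π.n' (k4eGrpOf Yc e)) π.r ∧ B ^ 2 / (4 * π.Lm ^ 2) ≤ MvPolynomial.eval (k4eCen π.n' (k4eGrpOf Yc e)) (k4eDP T) := by
    intro T _ hFT hlow
    have := hC1 (k4eDP T) (k4eBoxA v π.K) (k4eBoxB v π.K) (1 / (128 * π.Lm ^ 6)) (3 * π.Lm ^ 2 * B ^ 2) (B ^ 2 / (2 * π.Lm ^ 2)) π.r F
      (k4eCen π.n' (k4eGrpOf Yc e)) (k4eU (x₁.2, kbY (P.co (Yc.wd e.1) x₁.1) x₁.2)) (k4e_quad_deg T).2.2 hbox hθ0 hθ1 (by positivity)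
      (by rw [hF]; exact fun u hu => hu.1) hFvol hFT hcen hr0 num.r4 hu₁ (by positivity) hlow hcond
    refine ⟨this.1, le_trans (le_of_eq ?_) this.2⟩
    field_simp
    ring
  constructor
  · intro hc
    have hq : KbIsQuad (Yc.ch e.1).T := (h.cwf.adm e.1).1
    have hp := k4e_s4_point (Yc.ch e.1).T hq π B (1 / π.R) hB (by positivity) hL (P.co (Yc.wd e.1) x₁.1) x₁.2
      (by
        have := h.val e.1 x₁.1 hxA x₁.2 ht01
        rwa [mul_one_div])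
      (by rw [hBdef]; exact h.dw_low e.1 x₁ hxS') hc
    obtain ⟨hs, hl⟩ := main _ hq (by
      intro u hu
      rw [hF] at hu
      rw [hBdef]
      exact hu.2.1) hp.1
    refine ⟨hs, hl, ?_⟩
    have h1 := (k4e_stable_real _ _ π.r hr0.le hs _ hu₁).1
    have h2 : kbX (kbDw (Yc.ch e.1).T) (P.co (Yc.wd e.1) x₁.1) x₁.2 ^ 2 ≤ (π.Lm * B) ^ 2 := by
      rw [← sq_abs]
      refine pow_le_pow_left₀ (abs_nonneg _) ?_ 2
      rw [hBdef]
      exact h.dw e.1 x₁.1 hxA x₁.2 ht01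
    nlinarith [hp.2]
  · intro hc
    have hq : KbIsQuad (P.Pst (Yc.wd e.1)) := (h.wf.Pst_adm _).1
    have hp := k4e_s4_point (P.Pst (Yc.wd e.1)) hq π B 1 hB one_pos hL (P.co (Yc.wd e.1) x₁.1) x₁.2
      (by
        have := h.ntv.sig _ x₁.1 hxSp x₁.2 ⟨ht01.1, ht01.2.le⟩
        rw [mul_one]
        exact this.trans h.KL)
      (by
        have := h.ntv.dw_low _ x₁ hxEv
        rw [hBdef]
        refine this.trans (mul_le_mul_of_nonneg_right h.KL (abs_nonneg _))) hc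
    exact main _ hq (by
      intro u hu
      rw [hF] at hu
      rw [hBdef]
      exact hu.2.2) hp.1

/-- the facts on a heavy entry used downstream -/
structure K4eEntOk (Yc : KbSys P) (π : K4ePar) (e : K4eEnt Yc) : Prop where
  mem : k4eGrE Yc π e ∈ k4eSh (v.j + 1) (k4eCen π.n' (k4eGrpOf Yc e)) π.r
  mem0 : k4eGr0 π (k4eGrpOf Yc e) ∈ k4eSh (v.j + 1) (k4eCen π.n' (k4eGrpOf Yc e)) π.r
  near : ∀ l ∈ k4eTraj Yc π.n' e, ∀ t ∈ kbI π.n' e.2.1,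
    |kbW (P.co (Yc.wd e.1) l) t - k4eGrE Yc π e (k4eU (t, kbY (P.co (Yc.wd e.1) l) t))| ≤ 32 * π.Lm ^ 4 * (1 / π.R) / P.B (Yc.wd e.1)
  near0 : ∀ l ∈ k4eTraj Yc π.n' e, ∀ t ∈ kbI π.n' e.2.1,
    |kbW (P.co (Yc.wd e.1) l) t - k4eGr0 π (k4eGrpOf Yc e) (k4eU (t, kbY (P.co (Yc.wd e.1) l) t))| ≤ 32 * π.Lm ^ 4 * 1 / P.B (Yc.wd e.1)

theorem k4e_hv_lt {Yc : KbSys P} {S' : Yc.C → Set (P.Lam × ℝ)} {π : K4ePar} {e : K4eEnt Yc} (he : e ∈ k4eHv Yc S' π) : e.2.1 < 2 ^ π.n' := by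
  unfold k4eHv k4eAll at he
  rw [Finset.mem_filter, Finset.mem_product, Finset.mem_product] at he
  exact Finset.mem_range.1 he.1.2.1

/-- **LEAF L-252-S4E-K4b**.  (`k4e_s4_stable`, `k4e_graph_mem`, `k4e_graph_near` twice with `I = kbI n' k`, `tm = k4eMid`, `k4e_piece_box`; bounds from `h.val`, `h.dw`, `h.ntv.sig`, `h.ntv.dw`, `A_sub`; the signs are those in the definition of `k4eTraj`.) -/
theorem k4e_s4_ok {Yc : KbSys P} {S' : Yc.C → Set (P.Lam × ℝ)} {π : K4ePar} {C1 Crem Cc L2 : ℝ} (h : K4eHyp Yc S' π) (num : K4eNum v π C1 Crem Cc L2)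
    (hst : ∀ e ∈ k4eHv Yc S' π, (|2 * k4eA (Yc.ch e.1).T| < k4eKap π (P.B (Yc.wd e.1)) (1 / π.R) →
        k4eStable (k4eDP (Yc.ch e.1).T) (k4eCen π.n' (k4eGrpOf Yc e)) π.r ∧
          P.B (Yc.wd e.1) ^ 2 / (4 * π.Lm ^ 2) ≤ MvPolynomial.eval (k4eCen π.n' (k4eGrpOf Yc e)) (k4eDP (Yc.ch e.1).T)) ∧
      (|2 * k4eA (P.Pst (Yc.wd e.1))| < k4eKap π (P.B (Yc.wd e.1)) 1 →
        k4eStable (k4eDP (P.Pst (Yc.wd e.1))) (k4eCen π.n' (k4eGrpOf Yc e)) π.r ∧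
          P.B (Yc.wd e.1) ^ 2 / (4 * π.Lm ^ 2) ≤ MvPolynomial.eval (k4eCen π.n' (k4eGrpOf Yc e)) (k4eDP (P.Pst (Yc.wd e.1)))))
    (e : K4eEnt Yc) (he : e ∈ k4eHv Yc S' π) : K4eEntOk Yc π e := by
  have hlt := k4e_hv_lt he
  have hB := h.wf.B_pos (Yc.wd e.1)
  have hL : 1 ≤ π.Lm := h.K1.trans h.KL
  have hR0 : 0 < π.R := lt_of_lt_of_le one_pos h.R1
  have hr : 0 ≤ π.r := by
    unfold K4ePar.r K4ePar.ρ kbQ
    have := h.K1
    positivity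
  refine ⟨?_, ?_, ?_, ?_⟩
  · exact k4e_graph_mem _ _ _ _ _ (fun hlt' => ((hst e he).1 hlt').1)
  · exact k4e_graph_mem _ _ _ _ _ (fun hlt' => ((hst e he).2 hlt').1)
  · intro l hl
    obtain ⟨hbox, hmid, -⟩ := k4e_piece_box h e hlt l hl
    have hlA : l ∈ Yc.A e.1 := hl.1
    exact k4e_graph_near (Yc.ch e.1).T (h.cwf.adm e.1).1 π (P.B (Yc.wd e.1)) (1 / π.R) hB (by positivity) hL (P.co (Yc.wd e.1) l)
      (kbI π.n' e.2.1) Set.ordConnected_Ico (k4eCen π.n' (k4eGrpOf Yc e)) π.r hr (k4eMid π.n' e.2.1) hmid (fun t ht => (hbox t ht).2)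
      (fun t ht => by
        have := h.val e.1 l hlA t (hbox t ht).1
        rwa [mul_one_div])
      (fun t ht => h.dw e.1 l hlA t (hbox t ht).1) (hst e he).1 e.2.2.2.2 hl.2.2.2
  · intro l hl
    obtain ⟨hbox, hmid, -⟩ := k4e_piece_box h e hlt l hl
    have hlS : l ∈ P.Sp (Yc.wd e.1) := h.cwf.A_sub e.1 hl.1
    have hIcc : ∀ t ∈ kbI π.n' e.2.1, t ∈ Set.Icc (0 : ℝ) 1 := fun t ht => ⟨(hbox t ht).1.1, (hbox t ht).1.2.le⟩
    exact k4e_graph_near (P.Pst (Yc.wd e.1)) (h.wf.Pst_adm _).1 π (P.B (Yc.wd e.1)) 1 hB one_pos hL (P.co (Yc.wd e.1) l)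
      (kbI π.n' e.2.1) Set.ordConnected_Ico (k4eCen π.n' (k4eGrpOf Yc e)) π.r hr (k4eMid π.n' e.2.1) hmid (fun t ht => (hbox t ht).2)
      (fun t ht => by
        rw [mul_one]
        exact (h.ntv.sig _ l hlS t (hIcc t ht)).trans h.KL)
      (fun t ht => (h.ntv.dw _ l hlS t (hIcc t ht)).trans (mul_le_mul_of_nonneg_right h.KL hB.le)) (hst e he).2 e.2.2.2.1 hl.2.2.1

/-! ## S5. norm closeness to the true graph -/

/-- **LEAF L-252-S4E-K5** (l.1516-1522).   PROOF.  `F := {u ∈ cube | |GrE e u - Gr0 G u| ≤ 64Λ⁴/B}` is measurable (`k4e_graph_meas`) and contains `k4eU (bs x)` for `x ∈ k4eCov e` (`ok.near`, `ok.near0`, `R ≥ 1`, `k4e_piece_box`).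
`τ ≤ μ (Cov e) ≤ 8Λ³R^{-d} vol F` (`k4e_s1_marg` restricted to `Cov e ⊆ Yc.S c`, `k4e_U_mp`, `k4e_vol_of_mass`), `(2r)^n ≤ 1`: relative measure `θ = τ R^d/(8Λ³)`.   Hub `K4eRemez`, then `num.n2`. -/
theorem k4e_s5_norm {Yc : KbSys P} {S' : Yc.C → Set (P.Lam × ℝ)} {π : K4ePar} {C1 Crem Cc L2 : ℝ} (h : K4eHyp Yc S' π) (num : K4eNum v π C1 Crem Cc L2)
    (hrem : K4eRemez (v.j + 1) Crem) (e : K4eEnt Yc) (he : e ∈ k4eHv Yc S' π) (ok : K4eEntOk Yc π e) :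
    k4eClose (Metric.closedBall (k4eCen π.n' (k4eGrpOf Yc e)) π.r) (k4eGrE Yc π e) (k4eGr0 π (k4eGrpOf Yc e)) (1 / P.B (Yc.wd e.1) * L2) := by
  have hlt := k4e_hv_lt he
  have hB := h.wf.B_pos (Yc.wd e.1)
  have hL : 1 ≤ π.Lm := h.K1.trans h.KL
  have hL0 : 0 < π.Lm := by linarith
  have hR0 : 0 < π.R := lt_of_lt_of_le one_pos h.R1
  have hr : 0 < π.r := by
    unfold K4ePar.r K4ePar.ρ kbQ
    have := h.K1
    positivity
  obtain ⟨F, hF⟩ : ∃ F : Set (Fin (v.j + 1) → ℝ), F = {u | u ∈ Metric.closedBall (k4eCen π.n' (k4eGrpOf Yc e)) π.r ∧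
      |k4eGrE Yc π e u - k4eGr0 π (k4eGrpOf Yc e) u| ≤ 64 * π.Lm ^ 4 / P.B (Yc.wd e.1)} := ⟨_, rfl⟩
  have hFm : MeasurableSet F := by
    rw [hF]
    exact Metric.isClosed_closedBall.measurableSet.inter
      (measurableSet_le ((k4e_graph_meas _ _ _).sub (k4e_graph_meas _ _ _)).abs measurable_const)
  have hcov : ∀ x ∈ k4eCov Yc S' π.n' e, k4eU (P.bs (Yc.wd e.1) x) ∈ F := by
    intro x hx
    obtain ⟨-, hx2, hx3⟩ := hx
    obtain ⟨hbox, -, -⟩ := k4e_piece_box h e hlt x.1 hx2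
    rw [hF]
    refine ⟨(hbox x.2 hx3).2, ?_⟩
    have h1 := ok.near x.1 hx2 x.2 hx3
    have h2 := ok.near0 x.1 hx2 x.2 hx3
    have h3 : 32 * π.Lm ^ 4 * (1 / π.R) / P.B (Yc.wd e.1) ≤ 32 * π.Lm ^ 4 * 1 / P.B (Yc.wd e.1) := by
      have : 1 / π.R ≤ 1 := by rw [div_le_one hR0]; exact h.R1
      gcongr
    have h4 : |k4eGrE Yc π e (k4eU (x.2, kbY (P.co (Yc.wd e.1) x.1) x.2)) - k4eGr0 π (k4eGrpOf Yc e) (k4eU (x.2, kbY (P.co (Yc.wd e.1) x.1) x.2))|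
        ≤ 32 * π.Lm ^ 4 * (1 / π.R) / P.B (Yc.wd e.1) + 32 * π.Lm ^ 4 * 1 / P.B (Yc.wd e.1) := by
      have e1 : k4eGrE Yc π e (k4eU (x.2, kbY (P.co (Yc.wd e.1) x.1) x.2)) - k4eGr0 π (k4eGrpOf Yc e) (k4eU (x.2, kbY (P.co (Yc.wd e.1) x.1) x.2))
          = (kbW (P.co (Yc.wd e.1) x.1) x.2 - k4eGr0 π (k4eGrpOf Yc e) (k4eU (x.2, kbY (P.co (Yc.wd e.1) x.1) x.2)))
            - (kbW (P.co (Yc.wd e.1) x.1) x.2 - k4eGrE Yc π e (k4eU (x.2, kbY (P.co (Yc.wd e.1) x.1) x.2))) := by ring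
      rw [e1]
      refine (abs_sub _ _).trans ?_
      linarith
    refine h4.trans ?_
    have e2 : 64 * π.Lm ^ 4 / P.B (Yc.wd e.1) = 32 * π.Lm ^ 4 * 1 / P.B (Yc.wd e.1) + 32 * π.Lm ^ 4 * 1 / P.B (Yc.wd e.1) := by ring
    rw [e2]
    linarith
  obtain ⟨θ, hθ⟩ : ∃ θ : ℝ, θ = π.τ * π.R ^ π.d / (8 * π.Lm ^ 3) := ⟨_, rfl⟩
  have hRd : 0 < π.R ^ π.d := Real.rpow_pos_of_pos hR0 _
  have hθ0 : 0 < θ := by
    rw [hθ]
    have := num.τ0
    positivity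
  have hθ1 : θ ≤ 1 := by
    rw [hθ, div_le_one (by positivity)]
    exact num.τ1
  have hmass : ENNReal.ofReal π.τ ≤ ENNReal.ofReal (8 * π.Lm ^ 3 * π.R ^ (-π.d)) * volume F := by
    have h1 : ENNReal.ofReal π.τ ≤ P.mu (Yc.wd e.1) (k4eCov Yc S' π.n' e) := (Finset.mem_filter.1 he).2
    refine h1.trans ?_
    have h2 := k4e_vol_of_mass _ _ _ (k4e_s1_marg h e.1) (k4eU ⁻¹' F)
    rw [k4e_U_mp.measure_preimage hFm.nullMeasurableSet] at h2
    refine le_trans ?_ h2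
    rw [Measure.map_apply (k4e_bs_meas h.wf _) (k4e_U_mp.measurable hFm),
      Measure.restrict_apply ((k4e_bs_meas h.wf _) (k4e_U_mp.measurable hFm))]
    refine measure_mono ?_
    intro x hx
    exact ⟨hcov x hx, h.S'_sub e.1 hx.1⟩
  have hvol : ENNReal.ofReal (θ * (2 * π.r) ^ (v.j + 1)) ≤ volume F := by
    have h1 : θ * (2 * π.r) ^ (v.j + 1) ≤ θ := by
      have h2 : (2 * π.r) ^ (v.j + 1) ≤ 1 := pow_le_one₀ (by positivity) (by have := num.r4; linarith)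
      nlinarith
    refine (ENNReal.ofReal_le_ofReal h1).trans ?_
    have hc0 : 0 < 8 * π.Lm ^ 3 * π.R ^ (-π.d) := by
      have := Real.rpow_pos_of_pos hR0 (-π.d)
      positivity
    have e3 : π.τ = (8 * π.Lm ^ 3 * π.R ^ (-π.d)) * θ := by
      rw [hθ, Real.rpow_neg hR0.le]
      field_simp
    rw [e3, ENNReal.ofReal_mul hc0.le] at hmass
    exact (ENNReal.mul_le_mul_iff_right (ENNReal.ofReal_pos.2 hc0).ne' ENNReal.ofReal_ne_top).1 hmass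
  have key := hrem (k4eCen π.n' (k4eGrpOf Yc e)) π.r θ (64 * π.Lm ^ 4 / P.B (Yc.wd e.1)) (k4eGrE Yc π e) (k4eGr0 π (k4eGrpOf Yc e)) F hr hθ0 hθ1
    ok.mem ok.mem0 hFm (by rw [hF]; exact fun u hu => hu.1) hvol (by rw [hF]; exact fun u hu => hu.2)
  intro u hu
  refine (key u hu).trans ?_
  have h5 := num.n2
  rw [← hθ] at h5
  have e4 : Crem * θ ^ (-Crem) * (64 * π.Lm ^ 4 / P.B (Yc.wd e.1)) = 1 / P.B (Yc.wd e.1) * (Crem * θ ^ (-Crem) * (64 * π.Lm ^ 4)) := by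
    ring
  rw [e4]
  exact mul_le_mul_of_nonneg_left h5 (by positivity)

/-! ## S6, S7. one group: bad pairs, list rule -/

/-- the heavy entries of a group -/
def k4eHvG (Yc : KbSys P) (S' : Yc.C → Set (P.Lam × ℝ)) (π : K4ePar) (G : K4eGrp P) : Finset (K4eEnt Yc) := (k4eHv Yc S' π).filter fun e => k4eGrpOf Yc e = G

theorem k4e_dy_lt {x : ℝ} (hx : 0 < x) : kbDy x < 2 * x := by
  have hL : (2 : ℝ) ^ Real.logb 2 x = x := Real.rpow_logb (by norm_num) (by norm_num) hx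
  have e : kbDy x = (2 : ℝ) ^ ((⌈Real.logb 2 x⌉ : ℤ) : ℝ) := by
    unfold kbDy
    rw [Real.rpow_intCast]
  rw [e]
  calc (2 : ℝ) ^ ((⌈Real.logb 2 x⌉ : ℤ) : ℝ) < (2 : ℝ) ^ (Real.logb 2 x + 1) :=
        Real.rpow_lt_rpow_of_exponent_lt (by norm_num) (Int.ceil_lt_add_one _)
    _ = 2 * x := by rw [Real.rpow_add (by norm_num), hL, Real.rpow_one, mul_comm]

theorem k4e_obs_meas (hP : P.WF) (aL : ℝ) (γ : P.W) : Measurable (k4eObs P aL γ) := by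
  unfold k4eObs
  refine Measurable.prodMk ?_ (k4e_bs_meas hP γ)
  unfold KbPb.hid kbBin
  exact ((k4e_hw_meas hP γ).div_const _).floor

theorem k4e_mu_finite (hP : P.WF) (γ : P.W) : IsFiniteMeasure (P.mu γ) := by
  have := hP.prob γ
  have : IsFiniteMeasure (KbPb.tm) := by
    unfold KbPb.tm
    exact ⟨by rw [Measure.restrict_apply MeasurableSet.univ, Set.univ_inter, Real.volume_Icc]; exact ENNReal.ofReal_lt_top⟩
  unfold KbPb.mu
  infer_instance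

theorem k4e_lam_finite (hP : P.WF) (Yc : KbSys P) (S' : Yc.C → Set (P.Lam × ℝ)) (π : K4ePar) (e : K4eEnt Yc) :
    IsFiniteMeasure (k4eLam Yc S' π e) := by
  have := k4e_mu_finite hP (Yc.wd e.1)
  unfold k4eLam
  infer_instance

/-- membership in the heavy entries of a group -/
theorem k4e_hvG_mem {Yc : KbSys P} {S' : Yc.C → Set (P.Lam × ℝ)} {π : K4ePar} {G : K4eGrp P} {e : K4eEnt Yc} (he : e ∈ k4eHvG Yc S' π G) :
    e ∈ k4eHv Yc S' π ∧ k4eGrpOf Yc e = G ∧ Yc.wd e.1 = G.1 := by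
  unfold k4eHvG at he
  obtain ⟨h1, h2⟩ := Finset.mem_filter.1 he
  exact ⟨h1, h2, by rw [← h2]; rfl⟩

/-- at most two heavy entries of a group for every label of the world -/
theorem k4e_hvG_card {Yc : KbSys P} {S' : Yc.C → Set (P.Lam × ℝ)} {π : K4ePar} (h : K4eHyp Yc S' π) (G : K4eGrp P) :
    ((k4eHvG Yc S' π G).card : ℝ) ≤ 2 * (π.Lm * π.R ^ π.d) := by
  have hinj : Set.InjOn (fun e : K4eEnt Yc => (e.1, e.2.2.2.2)) (k4eHvG Yc S' π G) := by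
    intro e he e' he' hee
    have h1 := (k4e_hvG_mem he).2.1
    have h2 := (k4e_hvG_mem he').2.1
    have h3 : k4eGrpOf Yc e = k4eGrpOf Yc e' := h1.trans h2.symm
    unfold k4eGrpOf at h3
    simp only [Prod.mk.injEq] at h3 hee
    obtain ⟨c, k, bz, s0, s1⟩ := e
    obtain ⟨c', k', bz', s0', s1'⟩ := e'
    simp only at h3 hee
    obtain ⟨-, a2, a3, a4⟩ := h3
    obtain ⟨b1, b2⟩ := hee
    rw [a2, a3, a4, b1, b2]
  have hsub : (k4eHvG Yc S' π G).image (fun e : K4eEnt Yc => (e.1, e.2.2.2.2))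
      ⊆ (Finset.univ.filter fun c => Yc.wd c = G.1) ×ˢ (Finset.univ : Finset Bool) := by
    intro p hp
    obtain ⟨e, he, rfl⟩ := Finset.mem_image.1 hp
    exact Finset.mem_product.2 ⟨Finset.mem_filter.2 ⟨Finset.mem_univ _, (k4e_hvG_mem he).2.2⟩, Finset.mem_univ _⟩
  have h1 := Finset.card_le_card hsub
  rw [Finset.card_image_of_injOn hinj, Finset.card_product] at h1
  have h2 : ((k4eHvG Yc S' π G).card : ℝ) ≤ ((Finset.univ.filter fun c => Yc.wd c = G.1).card : ℝ) * 2 := by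
    have : (Finset.univ : Finset Bool).card = 2 := rfl
    rw [this] at h1
    exact_mod_cast h1
  have h3 := k4e_s1_count h G.1
  linarith

/-- the base marginal of the law of an entry -/
theorem k4e_lam_marg {Yc : KbSys P} {S' : Yc.C → Set (P.Lam × ℝ)} {π : K4ePar} (h : K4eHyp Yc S' π) (e : K4eEnt Yc) (he : e.2.1 < 2 ^ π.n') :
    (k4eLam Yc S' π e).map (fun x : ℤ × (ℝ × KbB v) => k4eU x.2)
      ≤ ENNReal.ofReal (8 * π.Lm ^ 3 * π.R ^ (-π.d)) • volume.restrict (Metric.closedBall (k4eCen π.n' (k4eGrpOf Yc e)) π.r) := by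
  have hbp : Measurable fun x : ℤ × (ℝ × KbB v) => k4eU x.2 := k4e_U_mp.measurable.comp measurable_snd
  have hobs := k4e_obs_meas h.wf π.aL (Yc.wd e.1)
  have hbs := k4e_bs_meas h.wf (Yc.wd e.1)
  refine Measure.le_iff.2 fun s hs => ?_
  have hsb : MeasurableSet (s ∩ Metric.closedBall (k4eCen π.n' (k4eGrpOf Yc e)) π.r) := hs.inter Metric.isClosed_closedBall.measurableSet
  unfold k4eLam
  rw [Measure.map_apply hbp hs, Measure.map_apply hobs (hbp hs), Measure.restrict_apply (hobs (hbp hs)), Measure.smul_apply, smul_eq_mul,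
    Measure.restrict_apply hs]
  have h2 := k4e_vol_of_mass _ _ _ (k4e_s1_marg h e.1) (k4eU ⁻¹' (s ∩ Metric.closedBall (k4eCen π.n' (k4eGrpOf Yc e)) π.r))
  rw [k4e_U_mp.measure_preimage hsb.nullMeasurableSet] at h2
  refine le_trans ?_ h2
  rw [Measure.map_apply hbs (k4e_U_mp.measurable hsb), Measure.restrict_apply (hbs (k4e_U_mp.measurable hsb))]
  refine measure_mono ?_
  rintro x ⟨hx1, hx2⟩
  obtain ⟨hxS, hxT, hxI⟩ := hx2
  obtain ⟨hbox, -, -⟩ := k4e_piece_box h e he x.1 hxT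
  exact ⟨⟨hx1, (hbox x.2 hxI).2⟩, h.S'_sub e.1 hxS⟩

/-- the observation determines the hidden coordinate up to the width of `p_L`, the graph of the entry follows it -/
theorem k4e_lam_ev {Yc : KbSys P} {S' : Yc.C → Set (P.Lam × ℝ)} {π : K4ePar} (h : K4eHyp Yc S' π) (e : K4eEnt Yc) (ok : K4eEntOk Yc π e) :
    ∀ᵐ x ∂(k4eLam Yc S' π e), |k4eGrE Yc π e (k4eU x.2) - (x.1 : ℝ) * kbDy (π.aL / P.B (Yc.wd e.1))|
      ≤ 1 / (π.R * P.B (Yc.wd e.1)) * (34 * π.Lm ^ 4) := by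
  have hB := h.wf.B_pos (Yc.wd e.1)
  have hL : 1 ≤ π.Lm := h.K1.trans h.KL
  have hR0 : 0 < π.R := lt_of_lt_of_le one_pos h.R1
  have hbp : Measurable fun x : ℤ × (ℝ × KbB v) => k4eU x.2 := k4e_U_mp.measurable.comp measurable_snd
  have hobs := k4e_obs_meas h.wf π.aL (Yc.wd e.1)
  have hom : Measurable fun x : ℤ × (ℝ × KbB v) => (x.1 : ℝ) * kbDy (π.aL / P.B (Yc.wd e.1)) :=
    ((Measurable.of_discrete (f := fun n : ℤ => (n : ℝ))).comp measurable_fst).mul_const _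
  have hset : MeasurableSet {x : ℤ × (ℝ × KbB v) | |k4eGrE Yc π e (k4eU x.2) - (x.1 : ℝ) * kbDy (π.aL / P.B (Yc.wd e.1))|
      ≤ 1 / (π.R * P.B (Yc.wd e.1)) * (34 * π.Lm ^ 4)} :=
    measurableSet_le ((((k4e_graph_meas _ _ _).comp hbp).sub hom).abs) measurable_const
  unfold k4eLam
  rw [ae_map_iff hobs.aemeasurable hset]
  refine (ae_restrict_iff (hobs hset)).2 ?_
  refine Filter.Eventually.of_forall fun x hx => ?_
  obtain ⟨-, hxT, hxI⟩ := hx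
  have h1 := ok.near x.1 hxT x.2 hxI
  obtain ⟨δ, hδ⟩ : ∃ δ, δ = kbDy (π.aL / P.B (Yc.wd e.1)) := ⟨_, rfl⟩
  have hδ0 : 0 < δ := by rw [hδ]; exact k4e_dy_pos _
  have hδ1 : δ ≤ 2 * (1 / (π.R * P.B (Yc.wd e.1))) := by
    have h2 := k4e_dy_lt (div_pos h.aL0 hB)
    rw [← hδ] at h2
    have h3 : π.aL / P.B (Yc.wd e.1) ≤ 1 / π.R / P.B (Yc.wd e.1) := div_le_div_of_nonneg_right h.aLR hB.le
    have e1 : 1 / π.R / P.B (Yc.wd e.1) = 1 / (π.R * P.B (Yc.wd e.1)) := by rw [div_div]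
    linarith
  show |k4eGrE Yc π e (k4eU (x.2, kbY (P.co (Yc.wd e.1) x.1) x.2))
      - ((⌊kbW (P.co (Yc.wd e.1) x.1) x.2 / kbDy (π.aL / P.B (Yc.wd e.1))⌋ : ℤ) : ℝ) * kbDy (π.aL / P.B (Yc.wd e.1))| ≤ _
  rw [← hδ]
  obtain ⟨w, hw⟩ : ∃ w, w = kbW (P.co (Yc.wd e.1) x.1) x.2 := ⟨_, rfl⟩
  rw [← hw] at h1 ⊢
  have f1 : (⌊w / δ⌋ : ℝ) * δ ≤ w := by
    have := Int.floor_le (w / δ)
    rwa [le_div_iff₀ hδ0] at this
  have f2 : w < ((⌊w / δ⌋ : ℝ) + 1) * δ := by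
    have := Int.lt_floor_add_one (w / δ)
    rwa [div_lt_iff₀ hδ0] at this
  have e2 : 32 * π.Lm ^ 4 * (1 / π.R) / P.B (Yc.wd e.1) = 1 / (π.R * P.B (Yc.wd e.1)) * (32 * π.Lm ^ 4) := by
    field_simp
  rw [e2] at h1
  have hΔ : 0 < 1 / (π.R * P.B (Yc.wd e.1)) := by positivity
  have hL4 : 1 ≤ π.Lm ^ 4 := one_le_pow₀ hL
  have h5 : 2 * (1 / (π.R * P.B (Yc.wd e.1))) ≤ 1 / (π.R * P.B (Yc.wd e.1)) * (2 * π.Lm ^ 4) := by nlinarith
  have h1' := abs_le.1 h1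
  rw [abs_le]
  constructor <;> nlinarith [h1'.1, h1'.2]

/-- **LEAF L-252-S4E-K6** (l.1499-1570).  The bad pairs of a group.   PROOF: `k4e_bad_small` with `E = {e // e ∈ k4eHvG G}`, `X = ℤ × (ℝ × KbB v)`, `lam = k4eLam`, `bp x = k4eU x.2`, `om x = x.1 * kbDy (aL/B)`, `u₀ = k4eCen`, `r = π.r`, `M = 1/B`, `Δ = 1/(R B)`, `Lm = L2`, `mq = 1`.
`hcard`: at most `2` entries per label `c` of the world (`s₁`), `k4e_s1_count`, `2Λ ≤ L2`.   `hnorm` = `k4e_s5_norm`.   `hmarg`: `(lam e).map bp = ((μ.restrict Cov).map bs).map k4eU ≤ 8Λ³R^{-d} vol` and it is carried by the cube; `(2r)^n ≤ 1`, `8Λ³ ≤ L2`.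
`hev`: `|w - GrE| ≤ 32Λ⁴/(RB)` and `|w - om| ≤ kbDy (aL/B) ≤ 2/(RB)` (`ae_map_iff`, `ae_restrict_iff`), `num.n3'`. -/
theorem k4e_s6_bad {Yc : KbSys P} {S' : Yc.C → Set (P.Lam × ℝ)} {π : K4ePar} {C1 Crem Cc L2 : ℝ} (h : K4eHyp Yc S' π) (num : K4eNum v π C1 Crem Cc L2)
    (hub : K4eMatch (v.j + 1) π.d π.ε π.R) (hrem : K4eRemez (v.j + 1) Crem) (hok : ∀ e ∈ k4eHv Yc S' π, K4eEntOk Yc π e) (G : K4eGrp P) :
    ∑ e₁ : {e // e ∈ k4eHvG Yc S' π G}, ∑ e₂ ∈ Finset.univ.filter (fun e₂ : {e // e ∈ k4eHvG Yc S' π G} =>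
        ¬ k4eClose (Metric.closedBall (k4eCen π.n' G) π.r) (k4eGrE Yc π e₁.1) (k4eGrE Yc π e₂.1) (1 / P.B G.1 * π.R ^ (-π.ε))),
      k4ePair (fun e : {e // e ∈ k4eHvG Yc S' π G} => k4eLam Yc S' π e.1) e₁ e₂ Set.univ ≤ ENNReal.ofReal (1 / L2) := by
  by_cases hne : (k4eHvG Yc S' π G).Nonempty
  swap
  · have : IsEmpty {e // e ∈ k4eHvG Yc S' π G} := ⟨fun e => hne ⟨e.1, e.2⟩⟩
    rw [Finset.univ_eq_empty, Finset.sum_empty]
    exact zero_le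
  obtain ⟨e₀, he₀⟩ := hne
  have hB := h.wf.B_pos G.1
  have hL : 1 ≤ π.Lm := h.K1.trans h.KL
  have hL0 : 0 < π.Lm := by linarith
  have hR0 : 0 < π.R := lt_of_lt_of_le one_pos h.R1
  have hL4 : 1 ≤ π.Lm ^ 4 := one_le_pow₀ hL
  have hL2 : 68 * π.Lm ^ 4 ≤ L2 := num.n3'
  have hL21 : 1 ≤ L2 := by linarith
  have hr : 0 < π.r := by
    unfold K4ePar.r K4ePar.ρ kbQ
    have := h.K1
    positivity
  have hRd : 0 < π.R ^ π.d := Real.rpow_pos_of_pos hR0 _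
  have hRd' : 0 < π.R ^ (-π.d) := Real.rpow_pos_of_pos hR0 _
  have hfin : ∀ e : {e // e ∈ k4eHvG Yc S' π G}, IsFiniteMeasure (k4eLam Yc S' π e.1) := fun e => k4e_lam_finite h.wf Yc S' π e.1
  have hLL : π.Lm ≤ π.Lm ^ 4 := by
    calc π.Lm = π.Lm ^ 1 := (pow_one _).symm
      _ ≤ π.Lm ^ 4 := pow_le_pow_right₀ hL (by norm_num)
  have hL3 : π.Lm ^ 3 ≤ π.Lm ^ 4 := pow_le_pow_right₀ hL (by norm_num)
  refine k4e_bad_small hub (fun e : {e // e ∈ k4eHvG Yc S' π G} => k4eLam Yc S' π e.1) (fun x : ℤ × (ℝ × KbB v) => k4eU x.2)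
    (k4e_U_mp.measurable.comp measurable_snd) (fun x => (x.1 : ℝ) * kbDy (π.aL / P.B G.1)) (k4eCen π.n' G) π.r (1 / P.B G.1)
    (1 / (π.R * P.B G.1)) L2 1 (fun e => k4eGrE Yc π e.1) (k4eGr0 π G) (fun e => k4e_graph_meas _ _ _) hr (by positivity) (by field_simp)
    h.R1 h.ε0 hL21 num.n3 zero_le_one ?_ ?_ ?_ ?_ ?_ ?_
  · have := (hok e₀ (k4e_hvG_mem he₀).1).mem0
    rwa [(k4e_hvG_mem he₀).2.1] at this
  · intro e
    have := (hok e.1 (k4e_hvG_mem e.2).1).mem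
    rwa [(k4e_hvG_mem e.2).2.1] at this
  · rw [Fintype.card_coe]
    refine (k4e_hvG_card h G).trans ?_
    have : 2 * π.Lm ≤ L2 := by linarith
    nlinarith
  · intro e
    have := k4e_s5_norm h num hrem e.1 (k4e_hvG_mem e.2).1 (hok e.1 (k4e_hvG_mem e.2).1)
    rwa [(k4e_hvG_mem e.2).2.1, (k4e_hvG_mem e.2).2.2] at this
  · intro e
    have h1 := k4e_lam_marg h e.1 (k4e_hv_lt (k4e_hvG_mem e.2).1)
    rw [(k4e_hvG_mem e.2).2.1] at h1
    refine h1.trans ?_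
    refine Measure.le_iff.2 fun s _ => ?_
    rw [Measure.smul_apply, Measure.smul_apply, smul_eq_mul, smul_eq_mul]
    refine mul_le_mul_left (ENNReal.ofReal_le_ofReal ?_) _
    have h2 : (2 * π.r) ^ (v.j + 1) ≤ 1 := pow_le_one₀ (by positivity) (by have := num.r4; linarith)
    rw [le_div_iff₀ (by positivity)]
    calc 8 * π.Lm ^ 3 * π.R ^ (-π.d) * (2 * π.r) ^ (v.j + 1) ≤ 8 * π.Lm ^ 3 * π.R ^ (-π.d) * 1 :=
          mul_le_mul_of_nonneg_left h2 (by positivity)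
      _ ≤ 1 * L2 * π.R ^ (-π.d) := by
          rw [mul_one, one_mul]
          exact mul_le_mul_of_nonneg_right (by linarith) hRd'.le
  · intro e
    have h1 := k4e_lam_ev h e.1 (hok e.1 (k4e_hvG_mem e.2).1)
    rw [(k4e_hvG_mem e.2).2.2] at h1
    filter_upwards [h1] with x hx
    refine hx.trans ?_
    have hΔ : 0 < 1 / (π.R * P.B G.1) := by positivity
    rw [mul_div_assoc]
    exact mul_le_mul_of_nonneg_left (by linarith) hΔ.le

/-- the coding `J` has the two properties of the hub `K4eCode` on every comparison cube -/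
def K4eCdOk (π : K4ePar) (Cc : ℝ) (J : K4eCd P π.m) : Prop :=
  ∀ G : K4eGrp P, ∀ f ∈ k4eSh (v.j + 1) (k4eCen π.n' G) π.r, ∀ g ∈ k4eSh (v.j + 1) (k4eCen π.n' G) π.r, ∀ η : ℝ,
    (k4eClose (Metric.closedBall (k4eCen π.n' G) π.r) f g η → ∀ k, |J G f k - J G g k| ≤ Cc * η) ∧
      ((∀ k, |J G f k - J G g k| ≤ η) → k4eClose (Metric.closedBall (k4eCen π.n' G) π.r) f g (Cc * η))

/-- the properties of a list rule -/
structure K4eLsOk (Yc : KbSys P) (S' : Yc.C → Set (P.Lam × ℝ)) (π : K4ePar) (J : K4eCd P π.m) (L2 : ℝ) (L : K4eLs Yc) : Prop where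
  meas : ∀ G e, MeasurableSet {x | e ∈ L G x}
  /-- the listed entries have boundedly many output labels -/
  card : ∀ G x, (((L G x).image (k4eKey Yc π J)).card : ℝ) ≤ (2 * (π.rn : ℝ) + 1) ^ π.m
  succ : ∀ G, ∑ e ∈ k4eHvG Yc S' π G, P.mu (Yc.wd e.1) (k4eCov Yc S' π.n' e) ≤
    ∑ e ∈ k4eHvG Yc S' π G, P.mu (Yc.wd e.1) {x | x ∈ k4eCov Yc S' π.n' e ∧ e ∈ L G (k4eObs P π.aL (Yc.wd e.1) x)} + ENNReal.ofReal (1 / L2)

theorem k4e_s7_mu_finite (hP : P.WF) (γ : P.W) : IsFiniteMeasure (P.mu γ) := by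
  have := hP.prob γ
  have : IsFiniteMeasure KbPb.tm := by
    unfold KbPb.tm
    infer_instance
  unfold KbPb.mu
  infer_instance

theorem k4e_s7_lam_finite {Yc : KbSys P} (S' : Yc.C → Set (P.Lam × ℝ)) (π : K4ePar) (hP : P.WF) (e : K4eEnt Yc) :
    IsFiniteMeasure (k4eLam Yc S' π e) := by
  have := k4e_s7_mu_finite hP (Yc.wd e.1)
  unfold k4eLam
  infer_instance

theorem k4e_s7_obs_meas (hP : P.WF) (aL : ℝ) (γ : P.W) : Measurable (k4eObs P aL γ) := by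
  unfold k4eObs
  refine Measurable.prodMk ?_ (k4e_bs_meas hP γ)
  unfold KbPb.hid kbBin
  exact ((k4e_hw_meas hP γ).div_const _).floor

/-- the law of the observation of an entry, evaluated -/
theorem k4e_s7_lam_apply {Yc : KbSys P} (S' : Yc.C → Set (P.Lam × ℝ)) (π : K4ePar) (hP : P.WF) (e : K4eEnt Yc) {A : Set (ℤ × (ℝ × KbB v))}
    (hA : MeasurableSet A) :
    k4eLam Yc S' π e A = P.mu (Yc.wd e.1) {x | x ∈ k4eCov Yc S' π.n' e ∧ k4eObs P π.aL (Yc.wd e.1) x ∈ A} := by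
  have hm := k4e_s7_obs_meas hP π.aL (Yc.wd e.1)
  unfold k4eLam
  rw [Measure.map_apply hm hA, Measure.restrict_apply (hm hA)]
  congr 1
  ext x
  exact and_comm

/-- entries of one group whose graphs are close lie in neighbouring bins -/
theorem k4e_s7_nbr {Yc : KbSys P} {S' : Yc.C → Set (P.Lam × ℝ)} {π : K4ePar} {C1 Crem Cc L2 : ℝ} (h : K4eHyp Yc S' π) (num : K4eNum v π C1 Crem Cc L2)
    (hok : ∀ e ∈ k4eHv Yc S' π, K4eEntOk Yc π e) (J : K4eCd P π.m) (hJ : K4eCdOk π Cc J) (G : K4eGrp P) (e₁ e₂ : K4eEnt Yc)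
    (h1 : e₁ ∈ k4eHvG Yc S' π G) (h2 : e₂ ∈ k4eHvG Yc S' π G)
    (hc : k4eClose (Metric.closedBall (k4eCen π.n' G) π.r) (k4eGrE Yc π e₁) (k4eGrE Yc π e₂) (1 / P.B G.1 * π.R ^ (-π.ε))) :
    (k4eKey Yc π J e₂).2 ∈ k4eNbr π.rn (k4eKey Yc π J e₁).2 := by
  obtain ⟨a1, g1⟩ := Finset.mem_filter.1 h1
  obtain ⟨a2, g2⟩ := Finset.mem_filter.1 h2
  have m1 := (hok e₁ a1).mem
  have m2 := (hok e₂ a2).mem
  rw [g1] at m1
  rw [g2] at m2
  have w1 : Yc.wd e₁.1 = G.1 := congrArg Prod.fst g1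
  have w2 : Yc.wd e₂.1 = G.1 := congrArg Prod.fst g2
  have hB := h.wf.B_pos G.1
  have hR0 : 0 < π.R := lt_of_lt_of_le one_pos h.R1
  have hη : 0 < k4eEta π (P.B G.1) := by
    unfold k4eEta
    exact div_pos (Real.rpow_pos_of_pos hR0 _) hB
  have eη : 1 / P.B G.1 * π.R ^ (-π.ε) = k4eEta π (P.B G.1) := by
    unfold k4eEta
    ring
  rw [eη] at hc
  have hd := (hJ G _ m1 _ m2 (k4eEta π (P.B G.1))).1 hc
  have n4 := num.n4
  have c1 := num.Cc1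
  have hrn : 1 ≤ π.rn := by
    by_contra hh
    have h0 : π.rn = 0 := by omega
    rw [h0] at n4
    norm_num at n4
    linarith
  have ecast : ((π.rn - 1 : ℕ) : ℝ) = (π.rn : ℝ) - 1 := by
    rw [Nat.cast_sub hrn, Nat.cast_one]
  have hb := k4e_bin_close (k4eEta π (P.B G.1)) hη (π.rn - 1) (J G (k4eGrE Yc π e₁)) (J G (k4eGrE Yc π e₂)) (fun k => (hd k).trans (by
    rw [ecast]
    exact mul_le_mul_of_nonneg_right (by linarith) hη.le))
  rw [Nat.sub_add_cancel hrn] at hb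
  unfold k4eKey
  show k4eBin (k4eEta π (P.B (Yc.wd e₂.1))) (J (k4eGrpOf Yc e₂) (k4eGrE Yc π e₂))
    ∈ k4eNbr π.rn (k4eBin (k4eEta π (P.B (Yc.wd e₁.1))) (J (k4eGrpOf Yc e₁) (k4eGrE Yc π e₁)))
  rw [w1, w2, g1, g2]
  exact hb

/-- the list rule of one group -/
theorem k4e_s7_group {Yc : KbSys P} {S' : Yc.C → Set (P.Lam × ℝ)} {π : K4ePar} {C1 Crem Cc L2 : ℝ} (h : K4eHyp Yc S' π) (num : K4eNum v π C1 Crem Cc L2)
    (hub : K4eMatch (v.j + 1) π.d π.ε π.R) (hrem : K4eRemez (v.j + 1) Crem) (hok : ∀ e ∈ k4eHv Yc S' π, K4eEntOk Yc π e) (J : K4eCd P π.m) (hJ : K4eCdOk π Cc J)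
    (G : K4eGrp P) :
    ∃ LG : ℤ × (ℝ × KbB v) → Finset (K4eEnt Yc), (∀ e, MeasurableSet {x | e ∈ LG x}) ∧
      (∀ x, (((LG x).image (k4eKey Yc π J)).card : ℝ) ≤ (2 * (π.rn : ℝ) + 1) ^ π.m) ∧
      ∑ e ∈ k4eHvG Yc S' π G, P.mu (Yc.wd e.1) (k4eCov Yc S' π.n' e) ≤
        ∑ e ∈ k4eHvG Yc S' π G, P.mu (Yc.wd e.1) {x | x ∈ k4eCov Yc S' π.n' e ∧ e ∈ LG (k4eObs P π.aL (Yc.wd e.1) x)} + ENNReal.ofReal (1 / L2) := by
  have hfin : ∀ e : {e // e ∈ k4eHvG Yc S' π G}, IsFiniteMeasure (k4eLam Yc S' π e.1) := fun e => k4e_s7_lam_finite S' π h.wf e.1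
  obtain ⟨Nb, hNb⟩ : ∃ Nb : {e // e ∈ k4eHvG Yc S' π G} → Finset {e // e ∈ k4eHvG Yc S' π G},
      Nb = fun e => Finset.univ.filter fun e' => (k4eKey Yc π J e'.1).2 ∈ k4eNbr π.rn (k4eKey Yc π J e.1).2 := ⟨_, rfl⟩
  obtain ⟨L0, hL1, hL2, hL3⟩ := k4e_list (fun e : {e // e ∈ k4eHvG Yc S' π G} => k4eLam Yc S' π e.1) Nb
  have hmem : ∀ (e : {e // e ∈ k4eHvG Yc S' π G}) (x : ℤ × (ℝ × KbB v)), e.1 ∈ (L0 x).image Subtype.val ↔ e ∈ L0 x := by
    intro e x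
    rw [Finset.mem_image]
    constructor
    · rintro ⟨e', he', hee⟩
      rwa [← Subtype.ext hee]
    · intro hx
      exact ⟨e, hx, rfl⟩
  refine ⟨fun x => (L0 x).image Subtype.val, ?_, ?_, ?_⟩
  · intro e
    by_cases he : e ∈ k4eHvG Yc S' π G
    · have e1 : {x | e ∈ (L0 x).image Subtype.val} = {x | (⟨e, he⟩ : {e // e ∈ k4eHvG Yc S' π G}) ∈ L0 x} := by
        ext x
        exact hmem ⟨e, he⟩ x
      rw [e1]
      exact hL2 _
    · have e1 : {x | e ∈ (L0 x).image Subtype.val} = ∅ := by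
        ext x
        simp only [Set.mem_setOf_eq, Finset.mem_image, Set.mem_empty_iff_false, iff_false]
        rintro ⟨e', -, rfl⟩
        exact he e'.2
      rw [e1]
      exact MeasurableSet.empty
  · intro x
    show ((((L0 x).image Subtype.val).image (k4eKey Yc π J)).card : ℝ) ≤ _
    rcases hL1 x with h0 | ⟨e, he⟩
    · rw [h0, Finset.image_empty, Finset.image_empty, Finset.card_empty, Nat.cast_zero]
      positivity
    · rw [he]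
      have hsub : ((Nb e).image Subtype.val).image (k4eKey Yc π J) ⊆ (k4eNbr π.rn (k4eKey Yc π J e.1).2).image (fun b' => (G, b')) := by
        intro p hp
        obtain ⟨e1, he1, rfl⟩ := Finset.mem_image.1 hp
        obtain ⟨e2, he2, rfl⟩ := Finset.mem_image.1 he1
        rw [hNb] at he2
        have h3 := (Finset.mem_filter.1 he2).2
        refine Finset.mem_image.2 ⟨(k4eKey Yc π J e2.1).2, h3, ?_⟩
        have hG : k4eGrpOf Yc e2.1 = G := (Finset.mem_filter.1 e2.2).2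
        exact Prod.ext hG.symm rfl
      have hc := (Finset.card_le_card hsub).trans Finset.card_image_le
      rw [k4e_nbr_card] at hc
      calc ((((Nb e).image Subtype.val).image (k4eKey Yc π J)).card : ℝ) ≤ (((2 * π.rn + 1) ^ π.m : ℕ) : ℝ) := by exact_mod_cast hc
        _ = (2 * (π.rn : ℝ) + 1) ^ π.m := by push_cast; ring
  · show _ ≤ ∑ e ∈ k4eHvG Yc S' π G, P.mu (Yc.wd e.1) {x | x ∈ k4eCov Yc S' π.n' e ∧ e ∈ (L0 (k4eObs P π.aL (Yc.wd e.1) x)).image Subtype.val} + _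
    rw [← Finset.sum_coe_sort (k4eHvG Yc S' π G) (fun e => P.mu (Yc.wd e.1) (k4eCov Yc S' π.n' e)),
      ← Finset.sum_coe_sort (k4eHvG Yc S' π G)
        (fun e => P.mu (Yc.wd e.1) {x | x ∈ k4eCov Yc S' π.n' e ∧ e ∈ (L0 (k4eObs P π.aL (Yc.wd e.1) x)).image Subtype.val})]
    have eL : ∀ e : {e // e ∈ k4eHvG Yc S' π G}, P.mu (Yc.wd e.1.1) (k4eCov Yc S' π.n' e.1)
        = ∑ e₂ ∈ Nb e, k4ePair (fun e : {e // e ∈ k4eHvG Yc S' π G} => k4eLam Yc S' π e.1) e e₂ Set.univ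
          + ∑ e₂ ∈ (Nb e)ᶜ, k4ePair (fun e : {e // e ∈ k4eHvG Yc S' π G} => k4eLam Yc S' π e.1) e e₂ Set.univ := by
      intro e
      rw [Finset.sum_add_sum_compl, ← Measure.finsetSum_apply, k4e_pair_marg, k4e_s7_lam_apply S' π h.wf e.1 MeasurableSet.univ]
      congr 1
      ext x
      simp
    have eR : ∀ e : {e // e ∈ k4eHvG Yc S' π G},
        P.mu (Yc.wd e.1.1) {x | x ∈ k4eCov Yc S' π.n' e.1 ∧ e.1 ∈ (L0 (k4eObs P π.aL (Yc.wd e.1.1) x)).image Subtype.val}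
          = k4eLam Yc S' π e.1 {x | e ∈ L0 x} := by
      intro e
      rw [k4e_s7_lam_apply S' π h.wf e.1 (hL2 e)]
      congr 1
      ext x
      simp only [Set.mem_setOf_eq, hmem]
    simp only [eL, eR, Finset.sum_add_distrib]
    refine add_le_add hL3 ?_
    refine le_trans (Finset.sum_le_sum fun e₁ _ => Finset.sum_le_sum_of_subset ?_) (k4e_s6_bad h num hub hrem hok G)
    intro e₂ he₂
    rw [Finset.mem_filter]
    refine ⟨Finset.mem_univ _, fun hc => ?_⟩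
    rw [Finset.mem_compl, hNb] at he₂
    exact he₂ (Finset.mem_filter.2 ⟨Finset.mem_univ _, k4e_s7_nbr h num hok J hJ G e₁.1 e₂.1 e₁.2 e₂.2 hc⟩)

/-- **LEAF L-252-S4E-K7** (a03:posterior-neighbors, l.1572-1600).   PROOF.  For each `G` apply `k4e_list` to `E = {e // e ∈ k4eHvG G}`, `lam = k4eLam`, `Nb e = {e' | bin e' ∈ k4eNbr rn (bin e)}` (`bin` = second component of `k4eKey`); `L G x` := image of the list in `K4eEnt Yc`.
`card`: the labels of `Nb e` are `(G, b)`, `b ∈ k4eNbr rn (bin e)` (`k4e_nbr_card`).   `succ`: total pair mass `= ∑ lam e univ` (`k4e_pair_marg`); pairs which are NOT neighbours are bad: if the graphs are `η`-close (`η = R^{-ε}/B = k4eEta`) the codes differ by `≤ Cc η ≤ (rn - 1) η`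
(`hJ`, `ok.mem`, `num.n4`), so `k4e_bin_close`; hence non-neighbour mass `≤ 1/L2` (`k4e_s6_bad`).   `lam e {x | e ∈ L x} = μ {x ∈ Cov e | e ∈ L (obs x)}` (`Measure.map_apply`, measurability of `k4eObs`). -/
theorem k4e_s7_list {Yc : KbSys P} {S' : Yc.C → Set (P.Lam × ℝ)} {π : K4ePar} {C1 Crem Cc L2 : ℝ} (h : K4eHyp Yc S' π) (num : K4eNum v π C1 Crem Cc L2)
    (hub : K4eMatch (v.j + 1) π.d π.ε π.R) (hrem : K4eRemez (v.j + 1) Crem) (hok : ∀ e ∈ k4eHv Yc S' π, K4eEntOk Yc π e) (J : K4eCd P π.m) (hJ : K4eCdOk π Cc J) :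
    ∃ L : K4eLs Yc, K4eLsOk Yc S' π J L2 L := by
  choose L hL using k4e_s7_group h num hub hrem hok J hJ
  exact ⟨L, fun G e => (hL G).1 e, fun G x => (hL G).2.1 x, fun G => (hL G).2.2⟩

/-! ## S8. the output tests on all members of a label -/

/-- **LEAF L-252-S4E-K8r**.  Root identities at an arbitrary base point (no reference point `w`).   `A = 0`: `D = b² > 0`, `f = -c/b`, `√(b²) = |b|`.   `A ≠ 0`: `2Af + b = s√D`, `4A (A f² + b f + c) = (2Af+b)² - D = 0`. -/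
theorem k4e_root_id (A b c s : ℝ) (hs : s = 1 ∨ s = -1) (hD : 0 < b ^ 2 - 4 * A * c) :
    A * k4eRoot A b c s ^ 2 + b * k4eRoot A b c s + c = 0 ∧ |2 * A * k4eRoot A b c s + b| = Real.sqrt (b ^ 2 - 4 * A * c) := by
  have hs2 : s ^ 2 = 1 := by rcases hs with h | h <;> rw [h] <;> norm_num
  by_cases hA : A = 0
  · subst hA
    have hb : b ≠ 0 := by
      intro hb
      rw [hb] at hD
      norm_num at hD
    unfold k4eRoot
    rw [if_pos rfl]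
    constructor
    · field_simp
      ring
    · simp only [mul_zero, zero_mul, zero_add, sub_zero]
      rw [Real.sqrt_sq_eq_abs]
  · unfold k4eRoot
    rw [if_neg hA]
    obtain ⟨R, hR⟩ : ∃ R, R = Real.sqrt (b ^ 2 - 4 * A * c) := ⟨_, rfl⟩
    have hR2 : R ^ 2 = b ^ 2 - 4 * A * c := by rw [hR, Real.sq_sqrt hD.le]
    have hR0 : 0 ≤ R := by rw [hR]; exact Real.sqrt_nonneg _
    rw [← hR]
    constructor
    · field_simp
      have : (s * R) ^ 2 = b ^ 2 - 4 * A * c := by rw [mul_pow, hs2, one_mul, hR2]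
      nlinarith
    · have e : 2 * A * ((-b + s * R) / (2 * A)) + b = s * R := by
        field_simp
        ring
      rw [e, abs_mul, abs_of_nonneg hR0]
      rcases hs with h | h <;> rw [h] <;> simp

/-- below the type threshold `B² R^{ε/2}` an entry is below the cutoff `k4eKap` at thickness `1/R` -/
theorem k4e_low_cut (Lm R ε Cc B : ℝ) (hL : 1 ≤ Lm) (hR : 1 ≤ R) (hε : 0 < ε) (hCc : 1 ≤ Cc) (hB : 0 < B)
    (n5 : 16 * Cc * Lm ≤ R ^ (ε / 6)) (n5' : 32 * Lm ^ 4 ≤ Cc * R ^ (1 - ε)) (π : K4ePar) (h1 : π.Lm = Lm) (h2 : π.R = R) :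
    B ^ 2 * R ^ (ε / 2) < k4eKap π B (1 / π.R) := by
  unfold k4eKap
  rw [h1, h2]
  have hR0 : 0 < R := by linarith
  have hL0 : 0 < Lm := by linarith
  have e1 : B ^ 2 / (32 * Lm ^ 3 * (1 / R)) = B ^ 2 * (R / (32 * Lm ^ 3)) := by
    field_simp
  rw [e1]
  refine mul_lt_mul_of_pos_left ?_ (by positivity)
  rw [lt_div_iff₀ (by positivity)]
  -- R^(ε/2) * 32 Λ³ < R
  have h3 : R ^ (ε / 6) * R ^ (1 - ε) = R ^ (1 - 5 * ε / 6) := by
    rw [← Real.rpow_add hR0]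
    congr 1
    ring
  have h4 : R ^ (ε / 2) * R ^ (1 - 5 * ε / 6) = R ^ (1 - ε / 3) := by
    rw [← Real.rpow_add hR0]
    congr 1
    ring
  have h5 : R ^ (1 - ε / 3) ≤ R := by
    calc R ^ (1 - ε / 3) ≤ R ^ (1 : ℝ) := Real.rpow_le_rpow_of_exponent_le hR (by linarith)
      _ = R := Real.rpow_one R
  have hp1 : 0 < R ^ (1 - ε) := Real.rpow_pos_of_pos hR0 _
  have hp2 : 0 < R ^ (ε / 2) := Real.rpow_pos_of_pos hR0 _
  -- 512 Λ^5 ≤ 16 Λ * Cc * R^(1-ε) ≤ R^(ε/6) R^(1-ε)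
  have h6 : 16 * Lm * (32 * Lm ^ 4) ≤ R ^ (1 - 5 * ε / 6) := by
    rw [← h3]
    calc 16 * Lm * (32 * Lm ^ 4) ≤ 16 * Lm * (Cc * R ^ (1 - ε)) := mul_le_mul_of_nonneg_left n5' (by positivity)
      _ = (16 * Cc * Lm) * R ^ (1 - ε) := by ring
      _ ≤ R ^ (ε / 6) * R ^ (1 - ε) := mul_le_mul_of_nonneg_right n5 hp1.le
  have h7 : 32 * Lm ^ 3 < 16 * Lm * (32 * Lm ^ 4) := by
    have h8 : Lm ^ 3 ≤ Lm ^ 5 := pow_le_pow_right₀ hL (by norm_num)
    have h9 : 0 < Lm ^ 3 := by positivity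
    have e : 16 * Lm * (32 * Lm ^ 4) = 512 * Lm ^ 5 := by ring
    rw [e]
    linarith
  calc R ^ (ε / 2) * (32 * Lm ^ 3) < R ^ (ε / 2) * R ^ (1 - 5 * ε / 6) :=
        mul_lt_mul_of_pos_left (lt_of_lt_of_le h7 h6) hp2
    _ = R ^ (1 - ε / 3) := h4
    _ ≤ R := h5

/-- powers of `R` in terms of `x = R^(ε/6)` -/
theorem k4e_rpow_x (R ε : ℝ) (hR : 0 < R) (k : ℕ) : R ^ (ε / 6 * k) = (R ^ (ε / 6)) ^ k := by
  rw [Real.rpow_mul hR.le, Real.rpow_natCast]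

theorem k4e_rpow_x_neg (R ε : ℝ) (hR : 0 < R) (k : ℕ) : R ^ (-(ε / 6 * k)) = 1 / (R ^ (ε / 6)) ^ k := by
  rw [Real.rpow_neg hR.le, k4e_rpow_x R ε hR k, one_div]

/-- TYPE 1 -/
theorem k4e_s8_low (A b c w f B Lm x Cc D0 Du : ℝ) (hB : 0 < B) (hL : 1 ≤ Lm) (hCc : 1 ≤ Cc) (hx : 16 * Cc * Lm ≤ x)
    (hw : |w - f| ≤ 2 * Cc / (x ^ 6 * B)) (hA : |2 * A| ≤ B ^ 2 * x ^ 3) (hf : A * f ^ 2 + b * f + c = 0)
    (hfd : |2 * A * f + b| = Real.sqrt Du) (h1 : D0 / 2 ≤ Du) (h2 : Du ≤ 3 / 2 * D0) (h3 : B ^ 2 / (4 * Lm ^ 2) ≤ D0) :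
    |B / Real.sqrt D0 * (A * w ^ 2 + b * w + c)| ≤ 6 * Cc * (1 / x ^ 4) ∧ B / 4 ≤ |B / Real.sqrt D0 * (2 * A * w + b)| ∧
      |B / Real.sqrt D0 * (2 * A * w + b)| ≤ 9 / 4 * B := by
  have hL0 : 0 < Lm := by linarith
  have hx1 : 1 ≤ x := by nlinarith
  have hx0 : 0 < x := by linarith
  have hD0 : 0 < D0 := lt_of_lt_of_le (by positivity) h3
  obtain ⟨δ, hδ⟩ : ∃ δ, δ = Real.sqrt D0 := ⟨_, rfl⟩
  have hδ0 : 0 < δ := by rw [hδ]; exact Real.sqrt_pos.2 hD0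
  have hδsq : δ ^ 2 = D0 := by rw [hδ]; exact Real.sq_sqrt hD0.le
  have hδlo : B / (2 * Lm) ≤ δ := by
    rw [hδ]
    apply Real.le_sqrt_of_sq_le
    have e : (B / (2 * Lm)) ^ 2 = B ^ 2 / (4 * Lm ^ 2) := by
      field_simp
      ring
    rw [e]
    exact h3
  have hs1 : δ / 2 ≤ Real.sqrt Du := by
    apply Real.le_sqrt_of_sq_le
    nlinarith
  have hs2 : Real.sqrt Du ≤ 2 * δ := by
    rw [Real.sqrt_le_left (by positivity)]
    nlinarith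
  have hκη : B ^ 2 * x ^ 3 * (2 * Cc / (x ^ 6 * B)) ≤ δ / 4 := by
    have e : B ^ 2 * x ^ 3 * (2 * Cc / (x ^ 6 * B)) = 2 * Cc * B / x ^ 3 := by
      field_simp
    rw [e]
    have h5 : 2 * Cc * B / x ^ 3 ≤ B / (8 * Lm) := by
      rw [div_le_div_iff₀ (by positivity) (by positivity)]
      have h6 : x ≤ x ^ 3 := by
        calc x = x ^ 1 := (pow_one x).symm
          _ ≤ x ^ 3 := pow_le_pow_right₀ hx1 (by norm_num)
      have h7 : 16 * Cc * Lm ≤ x ^ 3 := hx.trans h6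
      nlinarith
    have h8 : B / (8 * Lm) = B / (2 * Lm) / 4 := by
      field_simp
      ring
    rw [h8] at h5
    linarith
  obtain ⟨r1, r2, r3⟩ := k4e_rep_low A b c f w δ (2 * Cc / (x ^ 6 * B)) (B ^ 2 * x ^ 3) hδ0 hf (by rw [hfd]; exact hs1)
    (by rw [hfd]; exact hs2) hw hA hκη
  rw [← hδ]
  have e1 : ∀ z : ℝ, |B / δ * z| = B * (|z| / δ) := by
    intro z
    rw [abs_mul, abs_of_pos (div_pos hB hδ0)]
    field_simp
  rw [e1, e1]
  refine ⟨?_, by nlinarith, by nlinarith⟩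
  calc B * (|A * w ^ 2 + b * w + c| / δ) ≤ B * (3 * (2 * Cc / (x ^ 6 * B))) := mul_le_mul_of_nonneg_left r1 hB.le
    _ = 6 * Cc * (1 / x ^ 6) := by field_simp; ring
    _ ≤ 6 * Cc * (1 / x ^ 4) := by
        refine mul_le_mul_of_nonneg_left ?_ (by positivity)
        exact one_div_le_one_div_of_le (by positivity) (pow_le_pow_right₀ hx1 (by norm_num))

/-- TYPE 2, below the cutoff -/
theorem k4e_s8_high (A b w f B Lm x Cc D0 Du : ℝ) (hB : 0 < B) (hL : 1 ≤ Lm) (hCc : 1 ≤ Cc) (hx : 16 * Cc * Lm ≤ x)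
    (hw : |w - f| ≤ 2 * Cc / (x ^ 6 * B)) (hA : B ^ 2 * x ^ 3 < |2 * A|)
    (hfd : |2 * A * f + b| = Real.sqrt Du) (h2 : Du ≤ 3 / 2 * D0) (h3 : D0 ≤ 3 * Lm ^ 2 * B ^ 2) :
    |B * (w - -b / (2 * A))| ≤ 6 * Cc * (1 / x ^ 2) := by
  have hL0 : 0 < Lm := by linarith
  have hx1 : 1 ≤ x := by nlinarith
  have hx0 : 0 < x := by linarith
  have hU : |2 * A * f + b| ≤ 3 * Lm * B := by
    rw [hfd, Real.sqrt_le_left (by positivity)]
    nlinarith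
  have h4 := k4e_rep_high A b f w (3 * Lm * B) (2 * Cc / (x ^ 6 * B)) (B ^ 2 * x ^ 3) (by positivity) hA.le hU hw
  rw [abs_mul, abs_of_pos hB]
  calc B * |w - -b / (2 * A)| ≤ B * (2 * Cc / (x ^ 6 * B) + 3 * Lm * B / (B ^ 2 * x ^ 3)) := mul_le_mul_of_nonneg_left h4 hB.le
    _ = 2 * Cc * (1 / x ^ 6) + 3 * Lm * (1 / x ^ 3) := by field_simp
    _ ≤ 2 * Cc * (1 / x ^ 2) + 4 * Cc * (1 / x ^ 2) := by
        refine add_le_add ?_ ?_
        · refine mul_le_mul_of_nonneg_left ?_ (by positivity)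
          exact one_div_le_one_div_of_le (by positivity) (pow_le_pow_right₀ hx1 (by norm_num))
        · have e : 3 * Lm * (1 / x ^ 3) = (3 * Lm / x) * (1 / x ^ 2) := by field_simp
          rw [e]
          refine mul_le_mul_of_nonneg_right ?_ (by positivity)
          rw [div_le_iff₀ hx0]
          nlinarith
    _ = 6 * Cc * (1 / x ^ 2) := by ring

/-- TYPE 2, above the cutoff -/
theorem k4e_s8_high' (w f B x Cc : ℝ) (hB : 0 < B) (hCc : 1 ≤ Cc) (hx1 : 1 ≤ x)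
    (hw : |w - f| ≤ 2 * Cc / (x ^ 6 * B)) : |B * (w - f)| ≤ 6 * Cc * (1 / x ^ 2) := by
  have hx0 : 0 < x := by linarith
  rw [abs_mul, abs_of_pos hB]
  calc B * |w - f| ≤ B * (2 * Cc / (x ^ 6 * B)) := mul_le_mul_of_nonneg_left hw hB.le
    _ = 2 * Cc * (1 / x ^ 6) := by field_simp
    _ ≤ 6 * Cc * (1 / x ^ 2) := by
        have h1 : 1 / x ^ 6 ≤ 1 / x ^ 2 := one_div_le_one_div_of_le (by positivity) (pow_le_pow_right₀ hx1 (by norm_num))
        have h2 : 0 < 1 / x ^ 2 := by positivity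
        nlinarith

/-- the distance to the representative graph -/
theorem k4e_s8_eta (Lm R ε Cc B x : ℝ) (hR : 1 ≤ R) (hB : 0 < B) (hx : x = R ^ (ε / 6)) (n5' : 32 * Lm ^ 4 ≤ Cc * R ^ (1 - ε)) :
    32 * Lm ^ 4 * (1 / R) / B + Cc * (R ^ (-ε) / B) ≤ 2 * Cc / (x ^ 6 * B) := by
  have hR0 : 0 < R := by linarith
  have hx0 : 0 < x := by rw [hx]; exact Real.rpow_pos_of_pos hR0 _
  have e1 : R ^ (-ε) = 1 / x ^ 6 := by
    rw [hx, ← k4e_rpow_x_neg R ε hR0 6]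
    congr 1
    push_cast
    ring
  have e2 : R ^ (1 - ε) = R * (1 / x ^ 6) := by
    rw [← e1, sub_eq_add_neg, Real.rpow_add hR0, Real.rpow_one]
  rw [e2] at n5'
  rw [e1]
  have h1 : 32 * Lm ^ 4 * (1 / R) ≤ Cc * (1 / x ^ 6) := by
    rw [mul_one_div, div_le_iff₀ hR0]
    linarith
  have h2 : 32 * Lm ^ 4 * (1 / R) / B ≤ Cc * (1 / x ^ 6) / B := div_le_div_of_nonneg_right h1 hB.le
  refine (add_le_add_left h2 _).trans (le_of_eq ?_)
  field_simp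
  ring

/-- **LEAF L-252-S4E-K8** (l.1601-1625).  `e` a member, `e'` the representative of the same label.  Bounds of the output test along every trajectory piece of `e`.
PROOF.  Same key ⟹ same group, same bin ⟹ (`k4e_bin_same`, `hJ`) `GrE e`, `GrE e'` are `Cc η`-close on the cube, `η = R^{-ε}/B`; with `ok.near` and `num.n5'`: `|w - f̂| ≤ 2 Cc R^{-ε}/B =: η_w` on the piece.
TYPE 1 (`k4eLow e'`): then `e'` is below the cutoff `k4eKap` (`num`), `f̂ = k4eRoot`, `T̂(f̂) = 0`, `|T̂_w(f̂)| = √D̂(u) ∈ [δ/2, 2δ]`, `δ = √D̂(u₀) ≥ B/(2Λ)` (`k4e_near_root`/root identities, `k4e_stable_real`, `hst`);  `k4e_rep_low` with `κ = B²R^{ε/2}`, `κ η_w ≤ δ/4` by `num.n5`.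
TYPE 2: `k4e_rep_high` with `κ = B²R^{ε/2}`, `U = √D̂(u) ≤ 3ΛB` (below the cutoff), resp. `f̂` = the centre itself (above the cutoff).   Thickness `k4eThk`. -/
theorem k4e_s8_test {Yc : KbSys P} {S' : Yc.C → Set (P.Lam × ℝ)} {π : K4ePar} {C1 Crem Cc L2 : ℝ} (h : K4eHyp Yc S' π) (num : K4eNum v π C1 Crem Cc L2)
    (hok : ∀ e ∈ k4eHv Yc S' π, K4eEntOk Yc π e)
    (hst : ∀ e ∈ k4eHv Yc S' π, |2 * k4eA (Yc.ch e.1).T| < k4eKap π (P.B (Yc.wd e.1)) (1 / π.R) →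
        k4eStable (k4eDP (Yc.ch e.1).T) (k4eCen π.n' (k4eGrpOf Yc e)) π.r ∧
          P.B (Yc.wd e.1) ^ 2 / (4 * π.Lm ^ 2) ≤ MvPolynomial.eval (k4eCen π.n' (k4eGrpOf Yc e)) (k4eDP (Yc.ch e.1).T) ∧
          MvPolynomial.eval (k4eCen π.n' (k4eGrpOf Yc e)) (k4eDP (Yc.ch e.1).T) ≤ 3 * π.Lm ^ 2 * P.B (Yc.wd e.1) ^ 2)
    (J : K4eCd P π.m) (hJ : K4eCdOk π Cc J) (e e' : K4eEnt Yc) (he : e ∈ k4eHv Yc S' π) (he' : e' ∈ k4eHv Yc S' π) (hk : k4eKey Yc π J e = k4eKey Yc π J e')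
    (l : P.Lam) (hl : l ∈ k4eTraj Yc π.n' e) (t : ℝ) (ht : t ∈ kbI π.n' e.2.1) :
    |kbX (k4eTstE Yc π e') (P.co (Yc.wd e.1) l) t| ≤ 6 * Cc * k4eThk π (decide (k4eLow Yc π e')) ∧
      P.B (Yc.wd e.1) / 4 ≤ |kbX (kbDw (k4eTstE Yc π e')) (P.co (Yc.wd e.1) l) t| ∧
      |kbX (kbDw (k4eTstE Yc π e')) (P.co (Yc.wd e.1) l) t| ≤ 9 / 4 * P.B (Yc.wd e.1) := by
  obtain ⟨hG, hbin⟩ := Prod.mk.inj hk
  have hwd : Yc.wd e'.1 = Yc.wd e.1 := (congrArg Prod.fst hG).symm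
  have hB := h.wf.B_pos (Yc.wd e.1)
  have hL : 1 ≤ π.Lm := h.K1.trans h.KL
  have hR0 : 0 < π.R := lt_of_lt_of_le one_pos h.R1
  have hr : 0 ≤ π.r := by
    unfold K4ePar.r K4ePar.ρ kbQ
    have := h.K1
    positivity
  obtain ⟨x, hx⟩ : ∃ x, x = π.R ^ (π.ε / 6) := ⟨_, rfl⟩
  have hxn : 16 * Cc * π.Lm ≤ x := by rw [hx]; exact num.n5
  have hx1 : 1 ≤ x := by
    have := num.Cc1
    nlinarith
  obtain ⟨hbox, -, -⟩ := k4e_piece_box h e (k4e_hv_lt he) l hl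
  obtain ⟨u, hu⟩ : ∃ u, u = k4eU (t, kbY (P.co (Yc.wd e.1) l) t) := ⟨_, rfl⟩
  obtain ⟨w, hw⟩ : ∃ w, w = kbW (P.co (Yc.wd e.1) l) t := ⟨_, rfl⟩
  have hucube : u ∈ Metric.closedBall (k4eCen π.n' (k4eGrpOf Yc e)) π.r := by rw [hu]; exact (hbox t ht).2
  have hη0 : 0 < k4eEta π (P.B (Yc.wd e.1)) := by
    unfold k4eEta
    have := Real.rpow_pos_of_pos hR0 (-π.ε)
    positivity
  -- closeness of the two graphs
  have hclose : |k4eGrE Yc π e u - k4eGrE Yc π e' u| ≤ Cc * (π.R ^ (-π.ε) / P.B (Yc.wd e.1)) := by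
    have hmem' : k4eGrE Yc π e' ∈ k4eSh (v.j + 1) (k4eCen π.n' (k4eGrpOf Yc e)) π.r := by
      rw [hG]; exact (hok e' he').mem
    rw [hwd, ← hG] at hbin
    exact (hJ (k4eGrpOf Yc e) _ (hok e he).mem _ hmem' (k4eEta π (P.B (Yc.wd e.1)))).2
      (fun k => k4e_bin_same _ hη0 _ _ hbin k) u hucube
  have hnear : |w - k4eGrE Yc π e' u| ≤ 2 * Cc / (x ^ 6 * P.B (Yc.wd e.1)) := by
    have h1 := (hok e he).near l hl t ht
    rw [← hu, ← hw] at h1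
    refine le_trans ?_ (k4e_s8_eta π.Lm π.R π.ε Cc (P.B (Yc.wd e.1)) x h.R1 hB hx num.n5')
    have e1 : w - k4eGrE Yc π e' u = (w - k4eGrE Yc π e u) + (k4eGrE Yc π e u - k4eGrE Yc π e' u) := by ring
    rw [e1]
    exact (abs_add_le _ _).trans (add_le_add h1 hclose)
  -- the representative test as a quadratic
  obtain ⟨q1, q2, -⟩ := k4e_quad_form (Yc.ch e'.1).T (h.cwf.adm e'.1).1 t (kbY (P.co (Yc.wd e.1) l) t) w
  rw [← hu] at q1 q2
  have hDu : MvPolynomial.eval u (k4eDP (Yc.ch e'.1).T)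
      = MvPolynomial.eval u (k4ebP (Yc.ch e'.1).T) ^ 2 - 4 * k4eA (Yc.ch e'.1).T * MvPolynomial.eval u (k4ecP (Yc.ch e'.1).T) := by
    unfold k4eDP k4eDisc
    simp
  have hsg : k4eSg e'.2.2.2.2 = 1 ∨ k4eSg e'.2.2.2.2 = -1 := by
    unfold k4eSg
    split_ifs
    · exact Or.inl rfl
    · exact Or.inr rfl
  -- facts below the cutoff
  have hbelow : |2 * k4eA (Yc.ch e'.1).T| < k4eKap π (P.B (Yc.wd e.1)) (1 / π.R) →
      k4eGrE Yc π e' u = k4eRoot (k4eA (Yc.ch e'.1).T) (MvPolynomial.eval u (k4ebP (Yc.ch e'.1).T)) (MvPolynomial.eval u (k4ecP (Yc.ch e'.1).T)) (k4eSg e'.2.2.2.2) ∧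
      (k4eA (Yc.ch e'.1).T * k4eGrE Yc π e' u ^ 2 + MvPolynomial.eval u (k4ebP (Yc.ch e'.1).T) * k4eGrE Yc π e' u + MvPolynomial.eval u (k4ecP (Yc.ch e'.1).T) = 0) ∧
      |2 * k4eA (Yc.ch e'.1).T * k4eGrE Yc π e' u + MvPolynomial.eval u (k4ebP (Yc.ch e'.1).T)| = Real.sqrt (MvPolynomial.eval u (k4eDP (Yc.ch e'.1).T)) ∧
      MvPolynomial.eval (k4eCen π.n' (k4eGrpOf Yc e)) (k4eDP (Yc.ch e'.1).T) / 2 ≤ MvPolynomial.eval u (k4eDP (Yc.ch e'.1).T) ∧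
      MvPolynomial.eval u (k4eDP (Yc.ch e'.1).T) ≤ 3 / 2 * MvPolynomial.eval (k4eCen π.n' (k4eGrpOf Yc e)) (k4eDP (Yc.ch e'.1).T) ∧
      P.B (Yc.wd e.1) ^ 2 / (4 * π.Lm ^ 2) ≤ MvPolynomial.eval (k4eCen π.n' (k4eGrpOf Yc e)) (k4eDP (Yc.ch e'.1).T) ∧
      MvPolynomial.eval (k4eCen π.n' (k4eGrpOf Yc e)) (k4eDP (Yc.ch e'.1).T) ≤ 3 * π.Lm ^ 2 * P.B (Yc.wd e.1) ^ 2 := by
    intro hlt
    have h1 := hst e' he'
    rw [hwd, ← hG] at h1
    obtain ⟨s1, s2, s3⟩ := h1 hlt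
    obtain ⟨s4, s5⟩ := k4e_stable_real _ _ _ hr s1 u hucube
    have hroot : k4eGrE Yc π e' u = k4eRoot (k4eA (Yc.ch e'.1).T) (MvPolynomial.eval u (k4ebP (Yc.ch e'.1).T)) (MvPolynomial.eval u (k4ecP (Yc.ch e'.1).T)) (k4eSg e'.2.2.2.2) := by
      unfold k4eGrE k4eGr
      rw [hwd, if_neg (not_le.2 hlt)]
    have hpos : 0 < MvPolynomial.eval u (k4eDP (Yc.ch e'.1).T) := by
      have : 0 < P.B (Yc.wd e.1) ^ 2 / (4 * π.Lm ^ 2) := by positivity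
      linarith
    rw [hDu] at hpos
    obtain ⟨r1, r2⟩ := k4e_root_id _ _ _ _ hsg hpos
    rw [← hroot] at r1 r2
    rw [← hDu] at r2
    exact ⟨hroot, r1, r2, s4, s5, s2, s3⟩
  have hT4 : π.R ^ (-(2 * π.ε / 3)) = 1 / x ^ 4 := by
    rw [hx, ← k4e_rpow_x_neg π.R π.ε hR0 4]
    congr 1
    push_cast
    ring
  have hT2 : π.R ^ (-(π.ε / 3)) = 1 / x ^ 2 := by
    rw [hx, ← k4e_rpow_x_neg π.R π.ε hR0 2]
    congr 1
    push_cast
    ring
  have hT3 : π.R ^ (π.ε / 2) = x ^ 3 := by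
    rw [hx, ← k4e_rpow_x π.R π.ε hR0 3]
    congr 1
    push_cast
    ring
  by_cases hlow : k4eLow Yc π e'
  · -- TYPE 1
    have hlow' := hlow
    unfold k4eLow at hlow'
    rw [hwd] at hlow'
    have hcut : |2 * k4eA (Yc.ch e'.1).T| < k4eKap π (P.B (Yc.wd e.1)) (1 / π.R) :=
      lt_of_le_of_lt hlow' (k4e_low_cut π.Lm π.R π.ε Cc (P.B (Yc.wd e.1)) hL h.R1 h.ε0 num.Cc1 hB num.n5 num.n5' π rfl rfl)
    obtain ⟨-, b1, b2, b3, b4, b5, -⟩ := hbelow hcut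
    rw [hT3] at hlow'
    have key := k4e_s8_low _ _ _ w _ (P.B (Yc.wd e.1)) π.Lm x Cc _ _ hB hL num.Cc1 hxn hnear hlow' b1 b2 b3 b4 b5
    have hT : k4eTstE Yc π e' = fun t y w => P.B (Yc.wd e.1) / Real.sqrt (MvPolynomial.eval (k4eCen π.n' (k4eGrpOf Yc e)) (k4eDP (Yc.ch e'.1).T)) * (Yc.ch e'.1).T t y w := by
      unfold k4eTstE
      rw [if_pos hlow, hwd, ← hG]
    have hv1 : kbX (k4eTstE Yc π e') (P.co (Yc.wd e.1) l) t
        = P.B (Yc.wd e.1) / Real.sqrt (MvPolynomial.eval (k4eCen π.n' (k4eGrpOf Yc e)) (k4eDP (Yc.ch e'.1).T)) *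
          (k4eA (Yc.ch e'.1).T * w ^ 2 + MvPolynomial.eval u (k4ebP (Yc.ch e'.1).T) * w + MvPolynomial.eval u (k4ecP (Yc.ch e'.1).T)) := by
      rw [hT, ← q1, hw]
      rfl
    have hv2 : kbX (kbDw (k4eTstE Yc π e')) (P.co (Yc.wd e.1) l) t
        = P.B (Yc.wd e.1) / Real.sqrt (MvPolynomial.eval (k4eCen π.n' (k4eGrpOf Yc e)) (k4eDP (Yc.ch e'.1).T)) *
          (2 * k4eA (Yc.ch e'.1).T * w + MvPolynomial.eval u (k4ebP (Yc.ch e'.1).T)) := by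
      rw [hT, ← q2, hw]
      unfold kbX kbDw
      ring
    rw [hv1, hv2]
    have hthk : k4eThk π (decide (k4eLow Yc π e')) = 1 / x ^ 4 := by
      unfold k4eThk
      rw [decide_eq_true hlow, if_pos rfl, hT4]
    rw [hthk]
    exact key
  · -- TYPE 2
    have hlow' := hlow
    unfold k4eLow at hlow'
    rw [hwd, not_le, hT3] at hlow'
    have hT : k4eTstE Yc π e' = fun t y w => P.B (Yc.wd e.1) * (w - -MvPolynomial.eval (k4eU (t, y)) (k4ebP (Yc.ch e'.1).T) / (2 * k4eA (Yc.ch e'.1).T)) := by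
      unfold k4eTstE
      rw [if_neg hlow, hwd]
    have hv1 : kbX (k4eTstE Yc π e') (P.co (Yc.wd e.1) l) t
        = P.B (Yc.wd e.1) * (w - -MvPolynomial.eval u (k4ebP (Yc.ch e'.1).T) / (2 * k4eA (Yc.ch e'.1).T)) := by
      rw [hT, hw, hu]
      rfl
    have hv2 : kbX (kbDw (k4eTstE Yc π e')) (P.co (Yc.wd e.1) l) t = P.B (Yc.wd e.1) := by
      rw [hT]
      unfold kbX kbDw
      ring
    rw [hv1, hv2, abs_of_pos hB]
    have hthk : k4eThk π (decide (k4eLow Yc π e')) = 1 / x ^ 2 := by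
      unfold k4eThk
      rw [decide_eq_false hlow, if_neg (by simp), hT2]
    rw [hthk]
    refine ⟨?_, by linarith, by linarith⟩
    by_cases hcut : |2 * k4eA (Yc.ch e'.1).T| < k4eKap π (P.B (Yc.wd e.1)) (1 / π.R)
    · obtain ⟨-, -, b2, -, b4, -, b6⟩ := hbelow hcut
      exact k4e_s8_high _ _ w _ (P.B (Yc.wd e.1)) π.Lm x Cc _ _ hB hL num.Cc1 hxn hnear hlow' b2 b4 b6
    · have hcen : k4eGrE Yc π e' u = -MvPolynomial.eval u (k4ebP (Yc.ch e'.1).T) / (2 * k4eA (Yc.ch e'.1).T) := by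
        unfold k4eGrE k4eGr
        rw [hwd, if_pos (not_lt.1 hcut)]
      rw [← hcen]
      exact k4e_s8_high' w _ (P.B (Yc.wd e.1)) x Cc hB num.Cc1 hx1 hnear

theorem k4e_quad_smul (T : KbTest v) (hT : KbIsQuad T) (lam : ℝ) : KbIsQuad (fun t y w => lam * T t y w) := by
  obtain ⟨Q, hQ⟩ := hT
  refine ⟨⟨lam * Q.c0, lam * Q.ct, lam • Q.cy, lam * Q.cw, lam * Q.ctt, lam • Q.cty, lam * Q.ctw, lam • Q.cyy, lam • Q.cyw, lam * Q.cww⟩, ?_⟩
  intro t y w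
  show lam * T t y w = _
  rw [hQ]
  unfold KbQuad.ev
  simp only [smul_dotProduct, Matrix.smul_mulVec, dotProduct_smul, smul_eq_mul]
  ring

theorem k4e_bP_eval (T : KbTest v) (t : ℝ) (y : KbB v) :
    MvPolynomial.eval (k4eU (t, y)) (k4ebP T) = (k4eQ T).cw + (k4eQ T).ctw * t + (k4eQ T).cyw ⬝ᵥ y := by
  unfold k4ebP k4eU
  simp [dotProduct, map_sum]

/-- in version 1 an admissible test has `A = 0`, `b = 1` -/
theorem k4e_v1_coef (T : KbTest v) (hT : KbAdm T) (hv : v = KbVer.one) :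
    k4eA T = 0 ∧ ∀ t y, MvPolynomial.eval (k4eU (t, y)) (k4ebP T) = 1 := by
  have h1 := hT.2 hv
  have hA : k4eA T = 0 := by
    obtain ⟨-, -, q3⟩ := k4e_quad_form T hT.1 0 0 0
    unfold kbDww at q3
    rw [h1 0 0 (0 + 1), h1 0 0 (0 - 1), h1 0 0 0] at q3
    linarith
  refine ⟨hA, fun t y => ?_⟩
  obtain ⟨-, q2, -⟩ := k4e_quad_form T hT.1 t y 0
  unfold kbDw at q2
  rw [h1 t y (0 + 1), h1 t y (0 - 1), hA] at q2
  linarith

/-- **LEAF L-252-S4E-K8b**.  The output tests are admissible and have small curvature.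
PROOF.  Type 1: a multiple of the admissible test `T̂`; in version 1 `T̂ = w + T̂(t,y,0)`: `A = 0`, `b = 1`, `D̂ = 1`, `B = 1` (`wf.v1`), so the factor is `1`.   `|T'_ww| thk = (B/δ)|2Â| R^{-2ε/3} ≤ 2Λ B² R^{-ε/6} ≤ B²`.
Type 2: `B (w - affine)`, degree one, `T'_ww = 0`; does not occur in version 1 (`Â = 0` is of type 1). -/
theorem k4e_s8_adm {Yc : KbSys P} {S' : Yc.C → Set (P.Lam × ℝ)} {π : K4ePar} {C1 Crem Cc L2 : ℝ} (h : K4eHyp Yc S' π) (num : K4eNum v π C1 Crem Cc L2)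
    (e' : K4eEnt Yc) (hD : k4eLow Yc π e' → P.B (Yc.wd e'.1) ^ 2 / (4 * π.Lm ^ 2) ≤ MvPolynomial.eval (k4eCen π.n' (k4eGrpOf Yc e')) (k4eDP (Yc.ch e'.1).T)) :
    KbAdm (k4eTstE Yc π e') ∧ ∀ t y w, |kbDww (k4eTstE Yc π e') t y w| * k4eThk π (decide (k4eLow Yc π e')) ≤ P.B (Yc.wd e'.1) ^ 2 := by
  have hB := h.wf.B_pos (Yc.wd e'.1)
  have hL : 1 ≤ π.Lm := h.K1.trans h.KL
  have hL0 : 0 < π.Lm := by linarith
  have hR0 : 0 < π.R := lt_of_lt_of_le one_pos h.R1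
  have hadm := h.cwf.adm e'.1
  obtain ⟨x, hx⟩ : ∃ x, x = π.R ^ (π.ε / 6) := ⟨_, rfl⟩
  have hxn : 16 * Cc * π.Lm ≤ x := by rw [hx]; exact num.n5
  have hCc := num.Cc1
  have hx1 : 1 ≤ x := by nlinarith
  have hx0 : 0 < x := by linarith
  have hT4 : π.R ^ (-(2 * π.ε / 3)) = 1 / x ^ 4 := by
    rw [hx, ← k4e_rpow_x_neg π.R π.ε hR0 4]
    congr 1
    push_cast
    ring
  have hT3 : π.R ^ (π.ε / 2) = x ^ 3 := by
    rw [hx, ← k4e_rpow_x π.R π.ε hR0 3]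
    congr 1
    push_cast
    ring
  by_cases hlow : k4eLow Yc π e'
  · obtain ⟨D0, hD0⟩ : ∃ D0, D0 = MvPolynomial.eval (k4eCen π.n' (k4eGrpOf Yc e')) (k4eDP (Yc.ch e'.1).T) := ⟨_, rfl⟩
    have hT : k4eTstE Yc π e' = fun t y w => P.B (Yc.wd e'.1) / Real.sqrt D0 * (Yc.ch e'.1).T t y w := by
      unfold k4eTstE
      rw [if_pos hlow, hD0]
    have hDlo := hD hlow
    rw [← hD0] at hDlo
    refine ⟨⟨?_, ?_⟩, ?_⟩
    · rw [hT]
      exact k4e_quad_smul _ hadm.1 _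
    · intro hv t y w
      obtain ⟨hA, hb⟩ := k4e_v1_coef _ hadm hv
      have hD1 : D0 = 1 := by
        rw [hD0]
        unfold k4eDP k4eDisc k4eCen
        simp only [map_sub, map_pow, map_mul, MvPolynomial.eval_C]
        rw [hb, hA]
        ring
      have hB1 := (h.wf.v1 hv (Yc.wd e'.1)).1
      rw [hT]
      simp only
      rw [hD1, hB1, Real.sqrt_one, hadm.2 hv t y w]
      ring
    · intro t y w
      have hthk : k4eThk π (decide (k4eLow Yc π e')) = 1 / x ^ 4 := by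
        unfold k4eThk
        rw [decide_eq_true hlow, if_pos rfl, hT4]
      obtain ⟨-, -, q3⟩ := k4e_quad_form _ hadm.1 t y w
      have hww : kbDww (k4eTstE Yc π e') t y w = P.B (Yc.wd e'.1) / Real.sqrt D0 * (2 * k4eA (Yc.ch e'.1).T) := by
        rw [hT, ← q3]
        unfold kbDww
        ring
      rw [hww, hthk]
      have hlow' := hlow
      unfold k4eLow at hlow'
      rw [hT3] at hlow'
      have hD0pos : 0 < D0 := lt_of_lt_of_le (by positivity) hDlo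
      have hδ0 : 0 < Real.sqrt D0 := Real.sqrt_pos.2 hD0pos
      have hδlo : P.B (Yc.wd e'.1) / (2 * π.Lm) ≤ Real.sqrt D0 := by
        apply Real.le_sqrt_of_sq_le
        have e : (P.B (Yc.wd e'.1) / (2 * π.Lm)) ^ 2 = P.B (Yc.wd e'.1) ^ 2 / (4 * π.Lm ^ 2) := by
          field_simp
          ring
        rw [e]
        exact hDlo
      have hlam : P.B (Yc.wd e'.1) / Real.sqrt D0 ≤ 2 * π.Lm := by
        rw [div_le_iff₀ hδ0]
        rw [div_le_iff₀ (by positivity)] at hδlo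
        linarith
      rw [abs_mul, abs_of_pos (div_pos hB hδ0)]
      calc P.B (Yc.wd e'.1) / Real.sqrt D0 * |2 * k4eA (Yc.ch e'.1).T| * (1 / x ^ 4)
          ≤ 2 * π.Lm * (P.B (Yc.wd e'.1) ^ 2 * x ^ 3) * (1 / x ^ 4) := by
            refine mul_le_mul_of_nonneg_right ?_ (by positivity)
            exact mul_le_mul hlam hlow' (abs_nonneg _) (by positivity)
        _ = P.B (Yc.wd e'.1) ^ 2 * (2 * π.Lm / x) := by field_simp
        _ ≤ P.B (Yc.wd e'.1) ^ 2 * 1 := by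
            refine mul_le_mul_of_nonneg_left ?_ (by positivity)
            rw [div_le_one hx0]
            nlinarith
        _ = _ := mul_one _
  · have hT : k4eTstE Yc π e' = fun t y w => P.B (Yc.wd e'.1) * (w - -MvPolynomial.eval (k4eU (t, y)) (k4ebP (Yc.ch e'.1).T) / (2 * k4eA (Yc.ch e'.1).T)) := by
      unfold k4eTstE
      rw [if_neg hlow]
    refine ⟨⟨?_, ?_⟩, ?_⟩
    · obtain ⟨μ, hμ⟩ : ∃ μ, μ = P.B (Yc.wd e'.1) / (2 * k4eA (Yc.ch e'.1).T) := ⟨_, rfl⟩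
      refine ⟨⟨μ * (k4eQ (Yc.ch e'.1).T).cw, μ * (k4eQ (Yc.ch e'.1).T).ctw, μ • (k4eQ (Yc.ch e'.1).T).cyw, P.B (Yc.wd e'.1), 0, 0, 0, 0, 0, 0⟩, ?_⟩
      intro t y w
      rw [hT]
      simp only
      rw [k4e_bP_eval]
      unfold KbQuad.ev
      simp only [smul_dotProduct, zero_dotProduct, Matrix.zero_mulVec, dotProduct_zero, smul_eq_mul]
      rw [hμ]
      ring
    · intro hv
      exfalso
      apply hlow
      unfold k4eLow
      rw [(k4e_v1_coef _ hadm hv).1]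
      have := Real.rpow_pos_of_pos hR0 (π.ε / 2)
      simp only [mul_zero, abs_zero]
      positivity
    · intro t y w
      have hww : kbDww (k4eTstE Yc π e') t y w = 0 := by
        rw [hT]
        unfold kbDww
        ring
      rw [hww, abs_zero, zero_mul]
      positivity

/-! ## S9. the output system -/

/-- **LEAF L-252-S4E-K9a**.  Representatives: for a label of the output system `k4eRep = some e'` with `e'` heavy, `k4eKey e' = p` (`Exists.choose_spec`, `Finset.mem_image`, `Finset.mem_filter`; unfold `k4eLab`, `k4eRep`, `k4eTst`, `k4eTy`). -/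
theorem k4e_s9_rep (Yc : KbSys P) (S' : Yc.C → Set (P.Lam × ℝ)) (π : K4ePar) (J : K4eCd P π.m) (ty : Bool) (p : K4eGrp P × (Fin π.m → ℤ)) (hp : p ∈ k4eLab Yc S' π J ty) :
    ∃ e', e' ∈ k4eHv Yc S' π ∧ k4eKey Yc π J e' = p ∧ k4eTst Yc S' π J p = k4eTstE Yc π e' ∧ decide (k4eLow Yc π e') = ty := by
  unfold k4eLab at hp
  obtain ⟨h1, h2⟩ := Finset.mem_filter.1 hp
  obtain ⟨e, he, hk⟩ := Finset.mem_image.1 h1
  have hex : ∃ e, e ∈ k4eHv Yc S' π ∧ k4eKey Yc π J e = p := ⟨e, he, hk⟩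
  have hrep : k4eRep Yc S' π J p = some hex.choose := by
    unfold k4eRep
    rw [dif_pos hex]
  refine ⟨hex.choose, hex.choose_spec.1, hex.choose_spec.2, ?_, ?_⟩
  · unfold k4eTst
    rw [hrep]
  · unfold k4eTy at h2
    rw [hrep] at h2
    exact h2

/-- `l ↦ y(t)` is measurable -/
theorem k4e_w9_Y_meas (hP : P.WF) (γ : P.W) (t : ℝ) : Measurable fun l : P.Lam => kbY (P.co γ l) t := by
  have hco := hP.co_meas γ
  have h1 : Measurable fun l : P.Lam => (P.co γ l).1 := measurable_fst.comp hco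
  have h2 : Measurable fun l : P.Lam => (P.co γ l).2.1 := measurable_fst.comp (measurable_snd.comp hco)
  unfold kbY
  rw [measurable_pi_iff]
  intro i
  exact ((measurable_pi_apply i).comp h1).add (measurable_const.mul ((measurable_pi_apply i).comp h2))

/-- `l ↦ w(t)` is measurable -/
theorem k4e_w9_W_meas (hP : P.WF) (γ : P.W) (t : ℝ) : Measurable fun l : P.Lam => kbW (P.co γ l) t := by
  have hco := hP.co_meas γ
  have h2 : Measurable fun l : P.Lam => (P.co γ l).2.2 := measurable_snd.comp (measurable_snd.comp hco)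
  unfold kbW
  exact Finset.measurable_sum _ fun i _ => ((measurable_pi_apply i).comp h2).mul measurable_const

/-- `l ↦ ∂_w T` along the trajectory at a fixed time is measurable -/
theorem k4e_w9_dw_meas (hP : P.WF) (γ : P.W) (T : KbTest v) (hT : KbIsQuad T) (t : ℝ) :
    Measurable fun l : P.Lam => kbX (kbDw T) (P.co γ l) t := by
  have e : (fun l : P.Lam => kbX (kbDw T) (P.co γ l) t) =
      fun l => 2 * k4eA T * kbW (P.co γ l) t + MvPolynomial.eval (k4eU (t, kbY (P.co γ l) t)) (k4ebP T) := by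
    funext l
    exact (k4e_quad_form T hT t _ _).2.1
  rw [e]
  refine (measurable_const.mul (k4e_w9_W_meas hP γ t)).add ?_
  have hc : Continuous fun u : Fin (v.j + 1) → ℝ => MvPolynomial.eval u (k4ebP T) := MvPolynomial.continuous_eval _
  exact hc.measurable.comp (k4e_U_cont.measurable.comp (measurable_const.prodMk (k4e_w9_Y_meas hP γ t)))

/-- the trajectories of an entry are measurable -/
theorem k4e_w9_traj_meas {Yc : KbSys P} (hP : P.WF) (hY : Yc.WF) (n' : ℕ) (e : K4eEnt Yc) : MeasurableSet (k4eTraj Yc n' e) := by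
  unfold k4eTraj
  have h1 : MeasurableSet {l : P.Lam | ∀ i, ⌊kbY (P.co (Yc.wd e.1) l) (k4eMid n' e.2.1) i / kbQ n'⌋ = e.2.2.1 i} := by
    have : {l : P.Lam | ∀ i, ⌊kbY (P.co (Yc.wd e.1) l) (k4eMid n' e.2.1) i / kbQ n'⌋ = e.2.2.1 i} =
        ⋂ i, {l : P.Lam | ⌊kbY (P.co (Yc.wd e.1) l) (k4eMid n' e.2.1) i / kbQ n'⌋ = e.2.2.1 i} := by
      ext l; simp
    rw [this]
    refine MeasurableSet.iInter fun i => ?_
    have hm : Measurable fun l : P.Lam => ⌊kbY (P.co (Yc.wd e.1) l) (k4eMid n' e.2.1) i / kbQ n'⌋ :=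
      (((measurable_pi_apply i).comp (k4e_w9_Y_meas hP (Yc.wd e.1) (k4eMid n' e.2.1))).div_const _).floor
    exact hm (measurableSet_singleton _)
  have h2 : ∀ (T : KbTest v) (hT : KbIsQuad T) (s : Bool),
      MeasurableSet {l : P.Lam | s = decide (0 ≤ kbX (kbDw T) (P.co (Yc.wd e.1) l) (k4eMid n' e.2.1))} := by
    intro T hT s
    have hm := k4e_w9_dw_meas hP (Yc.wd e.1) T hT (k4eMid n' e.2.1)
    have h0 : MeasurableSet {l : P.Lam | 0 ≤ kbX (kbDw T) (P.co (Yc.wd e.1) l) (k4eMid n' e.2.1)} := measurableSet_le measurable_const hm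
    cases s
    · have : {l : P.Lam | false = decide (0 ≤ kbX (kbDw T) (P.co (Yc.wd e.1) l) (k4eMid n' e.2.1))} =
          {l : P.Lam | 0 ≤ kbX (kbDw T) (P.co (Yc.wd e.1) l) (k4eMid n' e.2.1)}ᶜ := by
        ext l; simp
      rw [this]
      exact h0.compl
    · have : {l : P.Lam | true = decide (0 ≤ kbX (kbDw T) (P.co (Yc.wd e.1) l) (k4eMid n' e.2.1))} =
          {l : P.Lam | 0 ≤ kbX (kbDw T) (P.co (Yc.wd e.1) l) (k4eMid n' e.2.1)} := by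
        ext l; simp
      rw [this]
      exact h0
  exact (hY.A_meas e.1).inter (h1.inter ((h2 _ (hP.Pst_adm _).1 _).inter (h2 _ (hY.adm _).1 _)))

/-- the covered incidences of an entry are measurable -/
theorem k4e_w9_cov_meas {Yc : KbSys P} {S' : Yc.C → Set (P.Lam × ℝ)} (hP : P.WF) (hY : Yc.WF) (hS : ∀ c, MeasurableSet (S' c)) (n' : ℕ) (e : K4eEnt Yc) :
    MeasurableSet (k4eCov Yc S' n' e) := by
  unfold k4eCov
  have h1 : MeasurableSet {x : P.Lam × ℝ | x.1 ∈ k4eTraj Yc n' e} := measurable_fst (k4e_w9_traj_meas hP hY n' e)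
  have h2 : MeasurableSet {x : P.Lam × ℝ | x.2 ∈ kbI n' e.2.1} := measurable_snd (by unfold kbI; exact measurableSet_Ico)
  exact (hS e.1).inter (h1.inter h2)

/-- the observation is measurable -/
theorem k4e_w9_obs_meas (hP : P.WF) (aL : ℝ) (γ : P.W) : Measurable (k4eObs P aL γ) := by
  unfold k4eObs
  refine Measurable.prodMk ?_ (k4e_bs_meas hP γ)
  unfold KbPb.hid kbBin
  exact ((k4e_hw_meas hP γ).div_const _).floor

/-- two entries with the same world and block and a common trajectory coincide -/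
theorem k4e_w9_ent_eq {Yc : KbSys P} (hY : Yc.WF) (h0 : Yc.n = 0) (n' : ℕ) (e e' : K4eEnt Yc) (hw : Yc.wd e.1 = Yc.wd e'.1) (hk : e.2.1 = e'.2.1)
    (l : P.Lam) (hl : l ∈ k4eTraj Yc n' e) (hl' : l ∈ k4eTraj Yc n' e') : e = e' := by
  obtain ⟨c, k, bz, s0, s1⟩ := e
  obtain ⟨c', k', bz', s0', s1'⟩ := e'
  simp only at hw hk
  subst hk
  have hc : c = c' := by
    by_contra hne
    have i0 : ∀ c : Yc.C, Yc.iv c = 0 := fun c => by
      have := hY.iv_lt c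
      rw [h0] at this
      omega
    exact Set.disjoint_left.1 (hY.A_disj c c' hne hw (by rw [i0, i0])) hl.1 hl'.1
  subst hc
  obtain ⟨-, a1, a2, a3⟩ := hl
  obtain ⟨-, b1, b2, b3⟩ := hl'
  simp only at a1 a2 a3 b1 b2 b3
  have e1 : bz = bz' := funext fun i => (a1 i).symm.trans (b1 i)
  have e2 : s0 = s0' := a2.trans b2.symm
  have e3 : s1 = s1' := a3.trans b3.symm
  rw [e1, e2, e3]

/-- **LEAF L-252-S4E-K9b**.  Structural requirements.   PROOF.  `iv_lt`: entries of `k4eAll`.   Measurability of `k4eTraj`, `k4eCov` (`wf.co_meas`; `kbY`, `kbX` of quadratic tests are measurable in the coefficients: `k4e_quad_form` or continuity), of `{x | e ∈ L G (obs x)}` (`hL.meas`).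
`A_sub`: `cwf.A_sub`.   `A_disj`: two entries with the same world and block and a common trajectory coincide (`cwf.A_disj` + `n0`, the bin and the two signs are functions of the trajectory), so their keys coincide.
`S_sub`: `S' ⊆ Yc.S ⊆ Ev`.   `inv`: `(ρ • 1) * (ρ⁻¹ • 1) = 1`, `ρ > 0`.   `adm`: `k4e_s9_rep`, `k4e_s8_adm`. -/
theorem k4e_s9_wf {Yc : KbSys P} {S' : Yc.C → Set (P.Lam × ℝ)} {π : K4ePar} {C1 Crem Cc L2 : ℝ} (h : K4eHyp Yc S' π) (num : K4eNum v π C1 Crem Cc L2)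
    (J : K4eCd P π.m) (L : K4eLs Yc) (hL : K4eLsOk Yc S' π J L2 L) (hadm : ∀ e' ∈ k4eHv Yc S' π, KbAdm (k4eTstE Yc π e')) (ty : Bool) : (k4eOut Yc S' π J L ty).WF := by
  refine ⟨?_, ?_, ?_, ?_, ?_, ?_, ?_, ?_⟩
  · rintro ⟨p, hp⟩
    obtain ⟨e', he', hk, -, -⟩ := k4e_s9_rep Yc S' π J ty p hp
    subst hk
    exact k4e_hv_lt he'
  · rintro ⟨p, hp⟩
    exact Finset.measurableSet_biUnion _ fun e _ => k4e_w9_traj_meas h.wf h.cwf π.n' e
  · rintro ⟨p, hp⟩ l hl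
    obtain ⟨e, he, hle⟩ := Set.mem_iUnion₂.1 hl
    have hk : k4eKey Yc π J e = p := (Finset.mem_filter.1 he).2
    subst hk
    exact h.cwf.A_sub e.1 hle.1
  · rintro ⟨p, hp⟩ ⟨p', hp'⟩ hne hw hi
    rw [Set.disjoint_left]
    intro l hl hl'
    obtain ⟨e, he, hle⟩ := Set.mem_iUnion₂.1 hl
    obtain ⟨e', he', hle'⟩ := Set.mem_iUnion₂.1 hl'
    have hk : k4eKey Yc π J e = p := (Finset.mem_filter.1 he).2
    have hk' : k4eKey Yc π J e' = p' := (Finset.mem_filter.1 he').2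
    subst hk
    subst hk'
    have := k4e_w9_ent_eq h.cwf h.n0 π.n' e e' hw hi l hle hle'
    subst this
    exact hne rfl
  · rintro ⟨p, hp⟩
    refine Finset.measurableSet_biUnion _ fun e _ => ?_
    exact (k4e_w9_cov_meas h.wf h.cwf h.S'_meas π.n' e).inter ((k4e_w9_obs_meas h.wf π.aL (Yc.wd e.1)) (hL.meas (k4eGrpOf Yc e) e))
  · rintro ⟨p, hp⟩ x hx
    obtain ⟨e, he, hxe⟩ := Set.mem_iUnion₂.1 hx
    have hk : k4eKey Yc π J e = p := (Finset.mem_filter.1 he).2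
    subst hk
    obtain ⟨⟨h1, h2, h3⟩, -⟩ := hxe
    refine ⟨(k4e_S_mem h e.1 (h.S'_sub e.1 h1)).2.2, ?_, h3⟩
    exact Set.mem_iUnion₂.2 ⟨e, he, h2⟩
  · rintro ⟨p, hp⟩
    have hρ : π.ρ ≠ 0 := by
      unfold K4ePar.ρ kbQ
      positivity
    show (π.ρ • (1 : Matrix (Fin v.j) (Fin v.j) ℝ)) * (π.ρ⁻¹ • (1 : Matrix (Fin v.j) (Fin v.j) ℝ)) = 1
    rw [smul_mul_smul_comm, mul_one, mul_inv_cancel₀ hρ, one_smul]
  · rintro ⟨p, hp⟩
    obtain ⟨e', he', -, ht, -⟩ := k4e_s9_rep Yc S' π J ty p hp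
    show KbAdm (k4eTst Yc S' π J p)
    rw [ht]
    exact hadm e' he'

/-- size of a multiple of the identity -/
theorem k4e_g9_mn (m : ℕ) (ρ : ℝ) (hρ : 0 ≤ ρ) : kbMn (ρ • (1 : Matrix (Fin m) (Fin m) ℝ)) = m * ρ := by
  unfold kbMn
  have : ∀ i : Fin m, ∑ k, |(ρ • (1 : Matrix (Fin m) (Fin m) ℝ)) i k| = ρ := by
    intro i
    rw [Finset.sum_eq_single i]
    · simp [abs_of_nonneg hρ]
    · intro k _ hk
      simp [Matrix.one_apply_ne (Ne.symm hk)]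
    · simp
  rw [Finset.sum_congr rfl fun i _ => this i]
  simp

/-- distance of the spatial parts -/
theorem k4e_g9_U_dist (t t' : ℝ) (y y' : KbB v) (r : ℝ) (h : k4eU (t, y) ∈ Metric.closedBall (k4eU (t', y')) r) (i : Fin v.j) : |y i - y' i| ≤ r := by
  rw [Metric.mem_closedBall] at h
  have := (dist_le_pi_dist (k4eU (t, y)) (k4eU (t', y')) i.succ).trans h
  unfold k4eU at this
  simpa [Real.dist_eq] using this

theorem k4e_g9_thk_pos {π : K4ePar} (hR : 0 < π.R) (ty : Bool) : 0 < k4eThk π ty := by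
  unfold k4eThk
  split_ifs <;> exact Real.rpow_pos_of_pos hR _

/-- **LEAF L-252-S4E-K9c**.  Chart bounds with ACTUAL slack.   `size`: `kbMn (ρ • 1) = j ρ ≤ 2 q`.   `box`: `ρ⁻¹ ‖y(t) - centre‖ ≤ K + 1` (`k4e_piece_box`).   The four test bounds: hypotheses `ht`, `hc` through `k4e_s9_rep`. -/
theorem k4e_s9_geo {Yc : KbSys P} {S' : Yc.C → Set (P.Lam × ℝ)} {π : K4ePar} {C1 Crem Cc L2 : ℝ} (h : K4eHyp Yc S' π) (num : K4eNum v π C1 Crem Cc L2)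
    (J : K4eCd P π.m) (L : K4eLs Yc)
    (ht : ∀ e ∈ k4eHv Yc S' π, ∀ e' ∈ k4eHv Yc S' π, k4eKey Yc π J e = k4eKey Yc π J e' → ∀ l ∈ k4eTraj Yc π.n' e, ∀ t ∈ kbI π.n' e.2.1,
      |kbX (k4eTstE Yc π e') (P.co (Yc.wd e.1) l) t| ≤ 6 * Cc * k4eThk π (decide (k4eLow Yc π e')) ∧
      P.B (Yc.wd e.1) / 4 ≤ |kbX (kbDw (k4eTstE Yc π e')) (P.co (Yc.wd e.1) l) t| ∧
      |kbX (kbDw (k4eTstE Yc π e')) (P.co (Yc.wd e.1) l) t| ≤ 9 / 4 * P.B (Yc.wd e.1))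
    (hc : ∀ e' ∈ k4eHv Yc S' π, ∀ t y w, |kbDww (k4eTstE Yc π e') t y w| * k4eThk π (decide (k4eLow Yc π e')) ≤ P.B (Yc.wd e'.1) ^ 2) (ty : Bool) :
    (k4eOut Yc S' π J L ty).Geo (6 * Cc + π.K + 4) (k4eThk π ty) := by
  have hCc := num.Cc1
  have hK := h.K1
  have hρ : 0 < π.ρ := by
    unfold K4ePar.ρ kbQ
    positivity
  have hthk := k4e_g9_thk_pos (lt_of_lt_of_le one_pos h.R1) ty
  -- the common reduction
  have key : ∀ (p : K4eGrp P × (Fin π.m → ℤ)) (hp : p ∈ k4eLab Yc S' π J ty), ∀ e ∈ (k4eHv Yc S' π).filter (fun e => k4eKey Yc π J e = p),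
      ∀ l ∈ k4eTraj Yc π.n' e, ∀ t ∈ kbI π.n' p.1.2.1,
      |kbX (k4eTst Yc S' π J p) (P.co p.1.1 l) t| ≤ 6 * Cc * k4eThk π ty ∧
      P.B p.1.1 / 4 ≤ |kbX (kbDw (k4eTst Yc S' π J p)) (P.co p.1.1 l) t| ∧
      |kbX (kbDw (k4eTst Yc S' π J p)) (P.co p.1.1 l) t| ≤ 9 / 4 * P.B p.1.1 := by
    intro p hp e he l hl t htt
    obtain ⟨e', he', hk', hT, hty⟩ := k4e_s9_rep Yc S' π J ty p hp
    obtain ⟨he1, hk⟩ := Finset.mem_filter.1 he
    rw [hT, ← hty]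
    subst hk
    exact ht e he1 e' he' hk'.symm l hl t htt
  refine ⟨?_, ?_, ?_, ?_, ?_, ?_⟩
  · rintro ⟨p, hp⟩
    show kbMn (π.ρ • (1 : Matrix (Fin v.j) (Fin v.j) ℝ)) ≤ kbQ π.n' * (6 * Cc + π.K + 4)
    rw [k4e_g9_mn _ _ hρ.le]
    have hj : (v.j : ℝ) ≤ 2 := by
      have : v.j ≤ 2 := by cases v <;> simp [KbVer.j]
      exact_mod_cast this
    have e : kbQ π.n' = π.ρ := rfl
    rw [e, mul_comm]
    exact mul_le_mul_of_nonneg_left (by linarith) hρ.le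
  · rintro ⟨p, hp⟩ l hl t htt
    obtain ⟨e, he, hle⟩ := Set.mem_iUnion₂.1 hl
    obtain ⟨he1, hk⟩ := Finset.mem_filter.1 he
    subst hk
    have hb := ((k4e_piece_box h e (k4e_hv_lt he1) l hle).1 t htt).2
    show ‖(π.ρ⁻¹ • (1 : Matrix (Fin v.j) (Fin v.j) ℝ)).mulVec (kbY (P.co (Yc.wd e.1) l) t - (k4eCy π.n' e.2.2.1 + t • (0 : KbB v)))‖ ≤ _
    rw [Matrix.smul_mulVec, Matrix.one_mulVec, smul_zero, add_zero, norm_smul, Real.norm_eq_abs, abs_of_pos (inv_pos.2 hρ)]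
    have h1 : ‖kbY (P.co (Yc.wd e.1) l) t - k4eCy π.n' e.2.2.1‖ ≤ π.r := by
      have hr : 0 ≤ π.r := by
        unfold K4ePar.r
        positivity
      rw [pi_norm_le_iff_of_nonneg hr]
      intro i
      exact k4e_g9_U_dist _ _ _ _ _ hb i
    calc π.ρ⁻¹ * ‖kbY (P.co (Yc.wd e.1) l) t - k4eCy π.n' e.2.2.1‖ ≤ π.ρ⁻¹ * π.r := mul_le_mul_of_nonneg_left h1 (inv_pos.2 hρ).le
      _ = π.K + 1 := by
        unfold K4ePar.r
        field_simp
      _ ≤ _ := by linarith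
  · rintro ⟨p, hp⟩ l hl t htt
    obtain ⟨e, he, hle⟩ := Set.mem_iUnion₂.1 hl
    refine (key p hp e he l hle t htt).1.trans ?_
    exact mul_le_mul_of_nonneg_right (by linarith) hthk.le
  · rintro ⟨p, hp⟩ l hl t htt
    obtain ⟨e, he, hle⟩ := Set.mem_iUnion₂.1 hl
    refine (key p hp e he l hle t htt).2.2.trans ?_
    exact mul_le_mul_of_nonneg_right (by linarith) (h.wf.B_pos _).le
  · rintro ⟨p, hp⟩ x hx
    obtain ⟨e, he, hxe⟩ := Set.mem_iUnion₂.1 hx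
    have hk : k4eKey Yc π J e = p := (Finset.mem_filter.1 he).2
    have h3 : x.2 ∈ kbI π.n' p.1.2.1 := by
      rw [← hk]
      exact hxe.1.2.2
    have := (key p hp e he x.1 hxe.1.2.1 x.2 h3).2.1
    show P.B p.1.1 ≤ (6 * Cc + π.K + 4) * |kbX (kbDw (k4eTst Yc S' π J p)) (P.co p.1.1 x.1) x.2|
    have h0 := abs_nonneg (kbX (kbDw (k4eTst Yc S' π J p)) (P.co p.1.1 x.1) x.2)
    nlinarith
  · rintro ⟨p, hp⟩ t y w
    obtain ⟨e', he', hk', hT, hty⟩ := k4e_s9_rep Yc S' π J ty p hp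
    show |kbDww (k4eTst Yc S' π J p) t y w| * k4eThk π ty ≤ (6 * Cc + π.K + 4) * P.B p.1.1 ^ 2
    rw [hT, ← hty]
    subst hk'
    refine (hc e' he' t y w).trans ?_
    have : 0 ≤ P.B (Yc.wd e'.1) ^ 2 := by positivity
    show P.B (Yc.wd e'.1) ^ 2 ≤ (6 * Cc + π.K + 4) * P.B (Yc.wd e'.1) ^ 2
    nlinarith

/-- the groups compatible with the exact base `o` in the world `γ` -/
def k4eGS (P : KbPb v) (π : K4ePar) (γ : P.W) (o : ℝ × KbB v) : Finset (K4eGrp P) :=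
  {γ} ×ˢ {⌊o.1 / π.ρ⌋₊} ×ˢ (Fintype.piFinset fun i => Finset.Icc (⌊o.2 i / π.ρ⌋ - (⌈π.K⌉ + 1)) (⌊o.2 i / π.ρ⌋ + (⌈π.K⌉ + 1))) ×ˢ Finset.univ

theorem k4e_k9_GS_card (π : K4ePar) (hK : 0 ≤ π.K) (γ : P.W) (o : ℝ × KbB v) : ((k4eGS P π γ o).card : ℝ) ≤ 2 * (2 * π.K + 5) ^ v.j := by
  unfold k4eGS
  rw [Finset.card_product, Finset.card_product, Finset.card_product, Finset.card_singleton, Finset.card_singleton, Fintype.card_piFinset]
  have hc : 0 ≤ ⌈π.K⌉ := Int.ceil_nonneg hK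
  have h1 : ∀ a : ℤ, (Finset.Icc (a - (⌈π.K⌉ + 1)) (a + (⌈π.K⌉ + 1))).card = (2 * ⌈π.K⌉ + 3).toNat := fun a => by
    rw [Int.card_Icc]
    congr 1
    ring
  have h2 : (((2 * ⌈π.K⌉ + 3).toNat : ℕ) : ℝ) ≤ 2 * π.K + 5 := by
    have e : (((2 * ⌈π.K⌉ + 3).toNat : ℕ) : ℤ) = 2 * ⌈π.K⌉ + 3 := Int.toNat_of_nonneg (by omega)
    have e' : (((2 * ⌈π.K⌉ + 3).toNat : ℕ) : ℝ) = 2 * (⌈π.K⌉ : ℝ) + 3 := by exact_mod_cast e
    rw [e']
    have := Int.ceil_lt_add_one π.K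
    linarith
  rw [Finset.prod_congr rfl fun i _ => h1 _, Finset.prod_const, Finset.card_univ, Finset.card_univ, Fintype.card_fin, Fintype.card_bool]
  push_cast
  rw [one_mul, one_mul, mul_comm]
  exact mul_le_mul_of_nonneg_left (pow_le_pow_left₀ (Nat.cast_nonneg _) h2 _) (by norm_num)

theorem k4e_k9_GS_meas (π : K4ePar) (γ : P.W) (G : K4eGrp P) : MeasurableSet {o : ℝ × KbB v | G ∈ k4eGS P π γ o} := by
  have e : {o : ℝ × KbB v | G ∈ k4eGS P π γ o} = {o : ℝ × KbB v | G.1 = γ} ∩ ({o : ℝ × KbB v | ⌊o.1 / π.ρ⌋₊ = G.2.1} ∩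
      ⋂ i, ({o : ℝ × KbB v | ⌊o.2 i / π.ρ⌋ - (⌈π.K⌉ + 1) ≤ G.2.2.1 i} ∩ {o : ℝ × KbB v | G.2.2.1 i ≤ ⌊o.2 i / π.ρ⌋ + (⌈π.K⌉ + 1)})) := by
    ext o
    unfold k4eGS
    simp only [Finset.mem_product, Finset.mem_singleton, Fintype.mem_piFinset, Finset.mem_Icc, Finset.mem_univ, and_true, Set.mem_ofPred_eq,
      Set.mem_inter_iff, Set.mem_iInter]
    constructor
    · rintro ⟨a, b, c⟩
      exact ⟨a, b.symm, c⟩
    · rintro ⟨a, b, c⟩
      exact ⟨a, b.symm, c⟩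
  rw [e]
  refine (MeasurableSet.const _).inter (MeasurableSet.inter ?_ (MeasurableSet.iInter fun i => ?_))
  · have hm : Measurable fun o : ℝ × KbB v => ⌊o.1 / π.ρ⌋₊ := (measurable_fst.div_const _).nat_floor
    exact hm (measurableSet_singleton _)
  · have hm : Measurable fun o : ℝ × KbB v => ⌊o.2 i / π.ρ⌋ := (((measurable_pi_apply i).comp measurable_snd).div_const _).floor
    exact (measurableSet_le (hm.sub_const _) measurable_const).inter (measurableSet_le measurable_const (hm.add_const _))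

theorem k4e_k9_img_meas {Yc : KbSys P} {S' : Yc.C → Set (P.Lam × ℝ)} {π : K4ePar} {L2 : ℝ} (J : K4eCd P π.m) (L : K4eLs Yc) (hL : K4eLsOk Yc S' π J L2 L)
    (d : ℤ) (p : K4eGrp P × (Fin π.m → ℤ)) : MeasurableSet {o : ℝ × KbB v | p ∈ (L p.1 (d, o)).image (k4eKey Yc π J)} := by
  have e : {o : ℝ × KbB v | p ∈ (L p.1 (d, o)).image (k4eKey Yc π J)} =
      ⋃ e : K4eEnt Yc, ({o : ℝ × KbB v | e ∈ L p.1 (d, o)} ∩ {_o : ℝ × KbB v | k4eKey Yc π J e = p}) := by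
    ext o
    simp only [Finset.mem_image, Set.mem_ofPred_eq, Set.mem_iUnion, Set.mem_inter_iff]
  rw [e]
  refine MeasurableSet.iUnion fun e => MeasurableSet.inter ?_ (MeasurableSet.const _)
  have hm : Measurable fun o : ℝ × KbB v => ((d, o) : ℤ × (ℝ × KbB v)) := measurable_const.prodMk measurable_id
  exact hm (hL.meas p.1 e)

/-- **LEAF L-252-S4E-K9d** (l.1462-1466, 1596-1600).  The output label is known by the observation `(exact base, p_L)`.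
PROOF.  `Lst γ d (t, y)` := the labels `(G, b)` of the system with `G = (γ, ⌊t/ρ⌋, bz, s₀)`, `|bz i - ⌊y i/ρ⌋| ≤ ⌈K⌉ + 1`, `s₀` arbitrary, and `(G, b) ∈ (L G (d, (t,y))).image k4eKey`.   Size `≤ 2 (2⌈K⌉+3)^j (2 rn + 1)^m` (`hL.card`).
Measurability from `hL.meas` and floors.   Membership: definition of `S` of `k4eOut`; `|y(mid) - y(t)| ≤ Kρ/2`. -/
theorem k4e_s9_known {Yc : KbSys P} {S' : Yc.C → Set (P.Lam × ℝ)} {π : K4ePar} {C1 Crem Cc L2 : ℝ} (h : K4eHyp Yc S' π) (num : K4eNum v π C1 Crem Cc L2)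
    (J : K4eCd P π.m) (L : K4eLs Yc) (hL : K4eLsOk Yc S' π J L2 L) (ty : Bool) :
    (k4eOut Yc S' π J L ty).Known (P.hid π.aL) (2 * (2 * π.K + 5) ^ v.j * (2 * (π.rn : ℝ) + 1) ^ π.m) := by
  have hK0 : 0 ≤ π.K := le_trans zero_le_one h.K1
  have hρ : 0 < π.ρ := by
    unfold K4ePar.ρ kbQ
    positivity
  refine ⟨fun γ d o => (Finset.univ : Finset {p : K4eGrp P × (Fin π.m → ℤ) // p ∈ k4eLab Yc S' π J ty}).filter
    (fun c => c.1.1 ∈ k4eGS P π γ o ∧ c.1 ∈ (L c.1.1 (d, o)).image (k4eKey Yc π J)), ?_, ?_, ?_⟩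
  · intro γ d o
    have h1 : ((Finset.univ : Finset {p : K4eGrp P × (Fin π.m → ℤ) // p ∈ k4eLab Yc S' π J ty}).filter
        (fun c => c.1.1 ∈ k4eGS P π γ o ∧ c.1 ∈ (L c.1.1 (d, o)).image (k4eKey Yc π J))).card ≤
        ((k4eGS P π γ o).biUnion fun G => (L G (d, o)).image (k4eKey Yc π J)).card := by
      refine Finset.card_le_card_of_injOn (fun c => c.1) ?_ (fun a _ b _ hab => Subtype.ext hab)
      intro c hc
      have hc' := (Finset.mem_filter.1 (Finset.mem_coe.1 hc)).2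
      exact Finset.mem_coe.2 (Finset.mem_biUnion.2 ⟨c.1.1, hc'.1, hc'.2⟩)
    have h2 : (((k4eGS P π γ o).biUnion fun G => (L G (d, o)).image (k4eKey Yc π J)).card : ℝ) ≤
        ∑ G ∈ k4eGS P π γ o, (((L G (d, o)).image (k4eKey Yc π J)).card : ℝ) := by
      exact_mod_cast Finset.card_biUnion_le
    have h3 : ∑ G ∈ k4eGS P π γ o, (((L G (d, o)).image (k4eKey Yc π J)).card : ℝ) ≤ ∑ _G ∈ k4eGS P π γ o, (2 * (π.rn : ℝ) + 1) ^ π.m :=
      Finset.sum_le_sum fun G _ => hL.card G (d, o)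
    rw [Finset.sum_const, nsmul_eq_mul] at h3
    calc _ ≤ _ := by exact_mod_cast h1
      _ ≤ _ := h2.trans h3
      _ ≤ _ := mul_le_mul_of_nonneg_right (k4e_k9_GS_card π hK0 γ o) (by positivity)
  · rintro γ d ⟨p, hp⟩
    have e : {o : ℝ × KbB v | (⟨p, hp⟩ : {p : K4eGrp P × (Fin π.m → ℤ) // p ∈ k4eLab Yc S' π J ty}) ∈
        (Finset.univ : Finset {p : K4eGrp P × (Fin π.m → ℤ) // p ∈ k4eLab Yc S' π J ty}).filter
          (fun c => c.1.1 ∈ k4eGS P π γ o ∧ c.1 ∈ (L c.1.1 (d, o)).image (k4eKey Yc π J))} =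
        {o : ℝ × KbB v | p.1 ∈ k4eGS P π γ o} ∩ {o : ℝ × KbB v | p ∈ (L p.1 (d, o)).image (k4eKey Yc π J)} := by
      ext o
      simp only [Finset.mem_filter, Finset.mem_univ, true_and, Set.mem_ofPred_eq, Set.mem_inter_iff]
    exact e ▸ (k4e_k9_GS_meas π γ p.1).inter (k4e_k9_img_meas J L hL d p)
  · rintro ⟨p, hp⟩ x hx
    obtain ⟨e, he, hxe⟩ := Set.mem_iUnion₂.1 hx
    obtain ⟨he1, hk⟩ := Finset.mem_filter.1 he
    subst hk
    obtain ⟨⟨h1, h2, h3⟩, h4⟩ := hxe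
    refine Finset.mem_filter.2 ⟨Finset.mem_univ _, ?_, Finset.mem_image.2 ⟨e, h4, rfl⟩⟩
    show k4eGrpOf Yc e ∈ k4eGS P π (Yc.wd e.1) (P.bs (Yc.wd e.1) x)
    have hb := ((k4e_piece_box h e (k4e_hv_lt he1) x.1 h2).1 x.2 h3).2
    unfold k4eGS k4eGrpOf
    simp only [Finset.mem_product, Finset.mem_singleton, Fintype.mem_piFinset, Finset.mem_Icc, Finset.mem_univ, and_true, true_and]
    refine ⟨?_, fun i => ?_⟩
    · symm
      have h3' : (e.2.1 : ℝ) * π.ρ ≤ x.2 ∧ x.2 < ((e.2.1 : ℝ) + 1) * π.ρ := h3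
      show ⌊x.2 / π.ρ⌋₊ = e.2.1
      have h0 : 0 ≤ x.2 / π.ρ := div_nonneg (le_trans (by positivity) h3'.1) hρ.le
      rw [Nat.floor_eq_iff h0, le_div_iff₀ hρ, div_lt_iff₀ hρ]
      exact h3'
    · have hd : |kbY (P.co (Yc.wd e.1) x.1) x.2 i - ((e.2.2.1 i : ℝ) + 1 / 2) * π.ρ| ≤ (π.K + 1) * π.ρ := k4e_g9_U_dist _ _ _ _ _ hb i
      show ⌊kbY (P.co (Yc.wd e.1) x.1) x.2 i / π.ρ⌋ - (⌈π.K⌉ + 1) ≤ e.2.2.1 i ∧ e.2.2.1 i ≤ ⌊kbY (P.co (Yc.wd e.1) x.1) x.2 i / π.ρ⌋ + (⌈π.K⌉ + 1)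
      obtain ⟨z, hz⟩ : ∃ z, z = kbY (P.co (Yc.wd e.1) x.1) x.2 i / π.ρ := ⟨_, rfl⟩
      have hz' : kbY (P.co (Yc.wd e.1) x.1) x.2 i = z * π.ρ := by
        rw [hz]
        field_simp
      rw [← hz]
      rw [hz', ← sub_mul, abs_mul, abs_of_pos hρ] at hd
      have hd' := le_of_mul_le_mul_right hd hρ
      rw [abs_le] at hd'
      have f1 := Int.floor_le z
      have f2 := Int.lt_floor_add_one z
      have f3 := Int.le_ceil π.K
      constructor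
      · have : ((⌊z⌋ : ℤ) : ℝ) - ((⌈π.K⌉ : ℤ) : ℝ) - 1 < (e.2.2.1 i : ℝ) + 1 := by linarith
        have : ⌊z⌋ - ⌈π.K⌉ - 1 < e.2.2.1 i + 1 := by exact_mod_cast this
        omega
      · have : (e.2.2.1 i : ℝ) < ((⌊z⌋ : ℤ) : ℝ) + ((⌈π.K⌉ : ℤ) : ℝ) + 2 := by linarith
        have : e.2.2.1 i < ⌊z⌋ + ⌈π.K⌉ + 2 := by exact_mod_cast this
        omega

/-- pure arithmetic of the last step of `k4e_s9_mass` -/
theorem k4e_ms_arith (β a b ε : ℝ≥0∞) (hε : ε ≠ ∞) (h1 : β ≤ a + b + ε) (h2 : 4 * ε ≤ β) : β ≤ 4 * a ∨ β ≤ 4 * b := by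
  rcases eq_or_ne a ∞ with rfl | ha
  · left; simp
  rcases eq_or_ne b ∞ with rfl | hb
  · right; simp
  have hβ : β ≠ ∞ := ne_top_of_le_ne_top (by simp [ha, hb, hε]) h1
  lift a to NNReal using ha
  lift b to NNReal using hb
  lift ε to NNReal using hε
  lift β to NNReal using hβ
  norm_cast at h1 h2 ⊢
  rw [← NNReal.coe_le_coe] at h1 h2
  rw [← NNReal.coe_le_coe, ← NNReal.coe_le_coe]
  push_cast at h1 h2 ⊢
  by_contra hcon
  rw [not_or, not_le, not_le] at hcon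
  linarith [hcon.1, hcon.2, a.coe_nonneg]

theorem k4e_ms_dw_meas (hP : P.WF) (γ : P.W) (T : KbTest v) (hT : KbIsQuad T) (t : ℝ) : Measurable fun l : P.Lam => kbX (kbDw T) (P.co γ l) t := by
  have e : (fun l : P.Lam => kbX (kbDw T) (P.co γ l) t) = fun l => 2 * k4eA T * P.hw γ (l, t) + MvPolynomial.eval (k4eU (P.bs γ (l, t))) (k4ebP T) := by
    funext l
    unfold kbX
    rw [(k4e_quad_form T hT _ _ _).2.1]
    rfl
  rw [e]
  have hm : Measurable fun l : P.Lam => (l, t) := measurable_id.prodMk measurable_const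
  exact (((k4e_hw_meas hP γ).comp hm).const_mul _).add ((((MvPolynomial.continuous_eval _).comp k4e_U_cont).measurable).comp ((k4e_bs_meas hP γ).comp hm))

theorem k4e_ms_dec_meas {α : Type} [MeasurableSpace α] (g : α → ℝ) (hg : Measurable g) (s : Bool) : MeasurableSet {l | s = decide (0 ≤ g l)} := by
  have h0 : MeasurableSet {l | 0 ≤ g l} := measurableSet_le measurable_const hg
  cases s
  · have : {l | false = decide (0 ≤ g l)} = {l | 0 ≤ g l}ᶜ := by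
      ext l; simp
    rw [this]; exact h0.compl
  · have : {l | true = decide (0 ≤ g l)} = {l | 0 ≤ g l} := by
      ext l; simp
    rw [this]; exact h0

theorem k4e_ms_traj_meas {Yc : KbSys P} {S' : Yc.C → Set (P.Lam × ℝ)} {π : K4ePar} (h : K4eHyp Yc S' π) (e : K4eEnt Yc) : MeasurableSet (k4eTraj Yc π.n' e) := by
  have hm : Measurable fun l : P.Lam => (l, k4eMid π.n' e.2.1) := measurable_id.prodMk measurable_const
  have hy : Measurable fun l : P.Lam => kbY (P.co (Yc.wd e.1) l) (k4eMid π.n' e.2.1) := measurable_snd.comp ((k4e_bs_meas h.wf (Yc.wd e.1)).comp hm)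
  have h1 : MeasurableSet {l : P.Lam | ∀ i, ⌊kbY (P.co (Yc.wd e.1) l) (k4eMid π.n' e.2.1) i / kbQ π.n'⌋ = e.2.2.1 i} := by
    rw [Set.ofPred_forall]
    refine MeasurableSet.iInter fun i => ?_
    exact ((((measurable_pi_apply i).comp hy).div_const _).floor) (measurableSet_singleton _)
  exact (h.cwf.A_meas e.1).inter (h1.inter ((k4e_ms_dec_meas _ (k4e_ms_dw_meas h.wf _ _ (h.wf.Pst_adm _).1 _) _).inter
    (k4e_ms_dec_meas _ (k4e_ms_dw_meas h.wf _ _ (h.cwf.adm _).1 _) _)))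

theorem k4e_ms_cov_meas {Yc : KbSys P} {S' : Yc.C → Set (P.Lam × ℝ)} {π : K4ePar} (h : K4eHyp Yc S' π) (e : K4eEnt Yc) : MeasurableSet (k4eCov Yc S' π.n' e) := by
  have h2 : MeasurableSet {x : P.Lam × ℝ | x.1 ∈ k4eTraj Yc π.n' e} := measurable_fst (k4e_ms_traj_meas h e)
  have h3 : MeasurableSet {x : P.Lam × ℝ | x.2 ∈ kbI π.n' e.2.1} := measurable_snd (by unfold kbI; exact measurableSet_Ico)
  exact (h.S'_meas e.1).inter (h2.inter h3)

theorem k4e_ms_obs_meas (hP : P.WF) (aL : ℝ) (γ : P.W) : Measurable (k4eObs P aL γ) := by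
  unfold k4eObs
  refine Measurable.prodMk ?_ (k4e_bs_meas hP γ)
  unfold KbPb.hid kbBin
  exact ((k4e_hw_meas hP γ).div_const _).floor

theorem k4e_ms_lis_meas {Yc : KbSys P} {S' : Yc.C → Set (P.Lam × ℝ)} {π : K4ePar} {L2 : ℝ} (h : K4eHyp Yc S' π) (J : K4eCd P π.m) (L : K4eLs Yc)
    (hL : K4eLsOk Yc S' π J L2 L) (G : K4eGrp P) (e : K4eEnt Yc) :
    MeasurableSet {x | x ∈ k4eCov Yc S' π.n' e ∧ e ∈ L G (k4eObs P π.aL (Yc.wd e.1) x)} :=
  (k4e_ms_cov_meas h e).inter ((k4e_ms_obs_meas h.wf _ _) (hL.meas G e))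

/-- two entries of one group with a common trajectory coincide -/
theorem k4e_ms_ent_eq {Yc : KbSys P} {S' : Yc.C → Set (P.Lam × ℝ)} {π : K4ePar} (h : K4eHyp Yc S' π) (e e' : K4eEnt Yc) (hG : k4eGrpOf Yc e = k4eGrpOf Yc e')
    (l : P.Lam) (hl : l ∈ k4eTraj Yc π.n' e) (hl' : l ∈ k4eTraj Yc π.n' e') : e = e' := by
  obtain ⟨c, k, bz, s0, s1⟩ := e
  obtain ⟨c', k', bz', s0', s1'⟩ := e'
  unfold k4eGrpOf at hG
  simp only [Prod.mk.injEq] at hG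
  obtain ⟨hw, rfl, rfl, rfl⟩ := hG
  have i0 : ∀ c, Yc.iv c = 0 := fun c => by
    have := h.cwf.iv_lt c
    rw [h.n0] at this
    omega
  have hc : c = c' := by
    by_contra hne
    exact Set.disjoint_left.1 (h.cwf.A_disj c c' hne hw ((i0 c).trans (i0 c').symm)) hl.1 hl'.1
  subst hc
  have h1 : s1 = _ := hl.2.2.2
  have h2 : s1' = _ := hl'.2.2.2
  have h3 : s1 = s1' := h1.trans h2.symm
  rw [h3]

/-- every covered incidence lies in the piece of some entry of the range -/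
theorem k4e_ms_cover {Yc : KbSys P} {S' : Yc.C → Set (P.Lam × ℝ)} {π : K4ePar} (h : K4eHyp Yc S' π) (c : Yc.C) :
    S' c ⊆ ⋃ e ∈ (k4eAll Yc π).filter (fun e => e.1 = c), k4eCov Yc S' π.n' e := by
  intro x hx
  obtain ⟨hA, ht, -⟩ := k4e_S_mem h c (h.S'_sub c hx)
  obtain ⟨ρ, hρ⟩ : ∃ ρ : ℝ, ρ = kbQ π.n' := ⟨_, rfl⟩
  have hρ0 : 0 < ρ := by rw [hρ]; unfold kbQ; positivity
  have hρ2 : ρ * 2 ^ π.n' = 1 := by
    rw [hρ]
    unfold kbQ
    rw [← mul_pow]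
    norm_num
  obtain ⟨k, hk⟩ : ∃ k : ℕ, k = ⌊x.2 / ρ⌋₊ := ⟨_, rfl⟩
  have hk1 : (k : ℝ) * ρ ≤ x.2 := by
    rw [← le_div_iff₀ hρ0, hk]
    exact Nat.floor_le (div_nonneg ht.1 hρ0.le)
  have hk2 : x.2 < ((k : ℝ) + 1) * ρ := by
    rw [← div_lt_iff₀ hρ0, hk]
    exact Nat.lt_floor_add_one _
  have hk3 : k < 2 ^ π.n' := by
    have h1 : ρ * (k : ℝ) < ρ * 2 ^ π.n' := by
      rw [hρ2, mul_comm]
      exact lt_of_le_of_lt hk1 ht.2
    have h2 : (k : ℝ) < 2 ^ π.n' := lt_of_mul_lt_mul_left h1 hρ0.le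
    exact_mod_cast h2
  have hmid : k4eMid π.n' k ∈ Set.Icc (0 : ℝ) 1 := by
    unfold k4eMid
    rw [← hρ]
    have h1 : (k : ℝ) + 1 ≤ 2 ^ π.n' := by exact_mod_cast hk3
    constructor
    · positivity
    · nlinarith
  have hY : ∀ i, |kbY (P.co (Yc.wd c) x.1) (k4eMid π.n' k) i| ≤ π.K := fun i => by
    have h1 := h.ntv.base _ x.1 (h.cwf.A_sub c hA) _ hmid
    have h2 := norm_le_pi_norm (kbY (P.co (Yc.wd c) x.1) (k4eMid π.n' k)) i
    rw [Real.norm_eq_abs] at h2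
    linarith [norm_nonneg (kbV (P.co (Yc.wd c) x.1))]
  have hNz : (π.K + 1) / ρ ≤ π.Nz := by
    unfold K4ePar.Nz K4ePar.ρ
    rw [← hρ]
    exact Nat.le_ceil _
  have hq : ∀ i, |kbY (P.co (Yc.wd c) x.1) (k4eMid π.n' k) i / ρ| ≤ π.Nz := fun i => by
    rw [abs_div, abs_of_pos hρ0]
    exact (div_le_div_of_nonneg_right (by linarith [hY i]) hρ0.le).trans hNz
  refine Set.mem_iUnion₂.2 ⟨(c, k, (fun i => ⌊kbY (P.co (Yc.wd c) x.1) (k4eMid π.n' k) i / kbQ π.n'⌋),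
    decide (0 ≤ kbX (kbDw (P.Pst (Yc.wd c))) (P.co (Yc.wd c) x.1) (k4eMid π.n' k)),
    decide (0 ≤ kbX (kbDw (Yc.ch c).T) (P.co (Yc.wd c) x.1) (k4eMid π.n' k))), ?_, ?_⟩
  · unfold k4eAll
    simp only [Finset.mem_filter, Finset.mem_product, Finset.mem_univ, Finset.mem_range, Fintype.mem_piFinset, Finset.mem_Icc, true_and, and_true]
    refine ⟨hk3, fun i => ?_⟩
    rw [← hρ]
    have h1 := abs_le.1 (hq i)
    constructor
    · rw [Int.le_floor]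
      push_cast
      exact h1.1
    · have h2 : ((⌊kbY (P.co (Yc.wd c) x.1) (k4eMid π.n' k) i / ρ⌋ : ℤ) : ℝ) ≤ ((π.Nz : ℤ) : ℝ) := (Int.floor_le _).trans (by push_cast; exact h1.2)
      exact_mod_cast h2
  · refine ⟨hx, ⟨hA, fun i => rfl, rfl, rfl⟩, ?_⟩
    unfold kbI
    rw [← hρ]
    exact ⟨hk1, hk2⟩

theorem k4e_ms_beta_le {Yc : KbSys P} {S' : Yc.C → Set (P.Lam × ℝ)} {π : K4ePar} (h : K4eHyp Yc S' π) :
    k4eBeta Yc S' ≤ ∑ e ∈ k4eAll Yc π, P.om (Yc.wd e.1) * P.mu (Yc.wd e.1) (k4eCov Yc S' π.n' e) := by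
  unfold k4eBeta
  rw [← Finset.sum_fiberwise_of_maps_to (s := k4eAll Yc π) (t := Finset.univ) (g := fun e => e.1) (fun _ _ => Finset.mem_univ _)]
  refine Finset.sum_le_sum fun c _ => ?_
  calc P.om (Yc.wd c) * P.mu (Yc.wd c) (S' c)
      ≤ P.om (Yc.wd c) * ∑ e ∈ (k4eAll Yc π).filter (fun e => e.1 = c), P.mu (Yc.wd c) (k4eCov Yc S' π.n' e) := by
        gcongr
        exact (measure_mono (k4e_ms_cover h c)).trans (measure_biUnion_finset_le _ _)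
    _ = ∑ e ∈ (k4eAll Yc π).filter (fun e => e.1 = c), P.om (Yc.wd e.1) * P.mu (Yc.wd e.1) (k4eCov Yc S' π.n' e) := by
        rw [Finset.mul_sum]
        refine Finset.sum_congr rfl fun e he => ?_
        rw [(Finset.mem_filter.1 he).2]

theorem k4e_ms_wsum {A B : Type} (s : Finset A) (t : Finset B) (w : A → ℝ≥0∞) : ∑ x ∈ s ×ˢ t, w x.1 = (t.card : ℝ≥0∞) * ∑ a ∈ s, w a := by
  rw [Finset.sum_product, Finset.mul_sum]
  refine Finset.sum_congr rfl fun a _ => ?_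
  simp only [Finset.sum_const, nsmul_eq_mul]

theorem k4e_ms_bins_card (j N : ℕ) : (Fintype.piFinset fun _ : Fin j => Finset.Icc (-(N : ℤ)) N).card = (2 * N + 1) ^ j := by
  rw [Fintype.card_piFinset]
  simp only [Int.card_Icc, Finset.prod_const, Finset.card_univ, Fintype.card_fin]
  congr 1
  omega

theorem k4e_ms_om_sum {Yc : KbSys P} {S' : Yc.C → Set (P.Lam × ℝ)} {π : K4ePar} (h : K4eHyp Yc S' π) :
    ∑ c, P.om (Yc.wd c) ≤ ENNReal.ofReal (π.Lm * π.R ^ π.d) := by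
  rw [← Finset.sum_fiberwise_of_maps_to (s := Finset.univ) (t := Finset.univ) (g := Yc.wd) (fun _ _ => Finset.mem_univ _)]
  calc ∑ γ, ∑ c ∈ Finset.univ.filter (fun c => Yc.wd c = γ), P.om (Yc.wd c)
      = ∑ γ, ((Finset.univ.filter fun c => Yc.wd c = γ).card : ℝ≥0∞) * P.om γ := by
        refine Finset.sum_congr rfl fun γ _ => ?_
        rw [Finset.sum_congr rfl (g := fun _ => P.om γ) (fun c hc => by rw [(Finset.mem_filter.1 hc).2]), Finset.sum_const, nsmul_eq_mul]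
    _ ≤ ∑ γ, ENNReal.ofReal (π.Lm * π.R ^ π.d) * P.om γ := by
        refine Finset.sum_le_sum fun γ _ => ?_
        gcongr
        rw [← ENNReal.ofReal_natCast]
        exact ENNReal.ofReal_le_ofReal (k4e_s1_count h γ)
    _ = ENNReal.ofReal (π.Lm * π.R ^ π.d) := by rw [← Finset.mul_sum, h.wf.om_sum, mul_one]

theorem k4e_ms_light {Yc : KbSys P} {S' : Yc.C → Set (P.Lam × ℝ)} {π : K4ePar} {C1 Crem Cc L2 : ℝ} (h : K4eHyp Yc S' π) (num : K4eNum v π C1 Crem Cc L2) :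
    ∑ e ∈ (k4eAll Yc π).filter (fun e => ¬ ENNReal.ofReal π.τ ≤ P.mu (Yc.wd e.1) (k4eCov Yc S' π.n' e)),
      P.om (Yc.wd e.1) * P.mu (Yc.wd e.1) (k4eCov Yc S' π.n' e) ≤ ENNReal.ofReal (1 / (8 * π.Lm)) := by
  have hLm : 0 < π.Lm := by linarith [h.K1, h.KL]
  have hR : 0 < π.R := by linarith [h.R1]
  have hRd : 0 < π.R ^ π.d := Real.rpow_pos_of_pos hR _
  calc ∑ e ∈ (k4eAll Yc π).filter (fun e => ¬ ENNReal.ofReal π.τ ≤ P.mu (Yc.wd e.1) (k4eCov Yc S' π.n' e)),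
        P.om (Yc.wd e.1) * P.mu (Yc.wd e.1) (k4eCov Yc S' π.n' e)
      ≤ ∑ e ∈ (k4eAll Yc π).filter (fun e => ¬ ENNReal.ofReal π.τ ≤ P.mu (Yc.wd e.1) (k4eCov Yc S' π.n' e)), P.om (Yc.wd e.1) * ENNReal.ofReal π.τ := by
        refine Finset.sum_le_sum fun e he => ?_
        gcongr
        exact (not_le.1 (Finset.mem_filter.1 he).2).le
    _ ≤ ∑ e ∈ k4eAll Yc π, P.om (Yc.wd e.1) * ENNReal.ofReal π.τ := Finset.sum_le_sum_of_subset (Finset.filter_subset _ _)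
    _ = (∑ e ∈ k4eAll Yc π, P.om (Yc.wd e.1)) * ENNReal.ofReal π.τ := (Finset.sum_mul _ _ _).symm
    _ = ((2 ^ π.n' * ((2 * π.Nz + 1) ^ v.j * (2 * 2)) : ℕ) : ℝ≥0∞) * (∑ c, P.om (Yc.wd c)) * ENNReal.ofReal π.τ := by
        unfold k4eAll
        rw [k4e_ms_wsum (w := fun c => P.om (Yc.wd c))]
        simp only [Finset.card_product, Finset.card_range, k4e_ms_bins_card, Finset.card_univ, Fintype.card_bool]
    _ ≤ ((2 ^ π.n' * ((2 * π.Nz + 1) ^ v.j * (2 * 2)) : ℕ) : ℝ≥0∞) * ENNReal.ofReal (π.Lm * π.R ^ π.d) * ENNReal.ofReal π.τ := by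
        gcongr
        exact k4e_ms_om_sum h
    _ = ENNReal.ofReal (((2 ^ π.n' * ((2 * π.Nz + 1) ^ v.j * (2 * 2)) : ℕ) : ℝ) * (π.Lm * π.R ^ π.d) * π.τ) := by
        rw [← ENNReal.ofReal_natCast, ← ENNReal.ofReal_mul (Nat.cast_nonneg _), ← ENNReal.ofReal_mul (by positivity)]
    _ ≤ ENNReal.ofReal (1 / (8 * π.Lm)) := by
        refine ENNReal.ofReal_le_ofReal (le_trans (le_of_eq ?_) num.n6)
        push_cast
        ring

theorem k4e_ms_heavy {Yc : KbSys P} {S' : Yc.C → Set (P.Lam × ℝ)} {π : K4ePar} {C1 Crem Cc L2 : ℝ} (h : K4eHyp Yc S' π) (num : K4eNum v π C1 Crem Cc L2)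
    (J : K4eCd P π.m) (L : K4eLs Yc) (hL : K4eLsOk Yc S' π J L2 L) :
    ∑ e ∈ k4eHv Yc S' π, P.om (Yc.wd e.1) * P.mu (Yc.wd e.1) (k4eCov Yc S' π.n' e) ≤
      ∑ e ∈ k4eHv Yc S' π, P.om (Yc.wd e.1) * P.mu (Yc.wd e.1) {x | x ∈ k4eCov Yc S' π.n' e ∧ e ∈ L (k4eGrpOf Yc e) (k4eObs P π.aL (Yc.wd e.1) x)}
        + ENNReal.ofReal (1 / (8 * π.Lm)) := by
  have hLm : 0 < π.Lm := by linarith [h.K1, h.KL]
  have hL2 : 0 < L2 := lt_of_lt_of_le (by positivity) num.n3'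
  obtain ⟨GA, hGA⟩ : ∃ GA : Finset (K4eGrp P),
      GA = Finset.univ ×ˢ (Finset.range (2 ^ π.n') ×ˢ (Fintype.piFinset fun _ => Finset.Icc (-(π.Nz : ℤ)) π.Nz) ×ˢ Finset.univ) := ⟨_, rfl⟩
  have hmap : ∀ e ∈ k4eHv Yc S' π, k4eGrpOf Yc e ∈ GA := by
    intro e he
    have h1 := (Finset.mem_filter.1 he).1
    unfold k4eAll at h1
    rw [hGA]
    unfold k4eGrpOf
    simp only [Finset.mem_product, Finset.mem_univ, true_and, and_true] at h1 ⊢
    exact h1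
  rw [← Finset.sum_fiberwise_of_maps_to hmap, ← Finset.sum_fiberwise_of_maps_to hmap]
  calc ∑ G ∈ GA, ∑ e ∈ (k4eHv Yc S' π).filter (fun e => k4eGrpOf Yc e = G), P.om (Yc.wd e.1) * P.mu (Yc.wd e.1) (k4eCov Yc S' π.n' e)
      = ∑ G ∈ GA, P.om G.1 * ∑ e ∈ k4eHvG Yc S' π G, P.mu (Yc.wd e.1) (k4eCov Yc S' π.n' e) := by
        refine Finset.sum_congr rfl fun G _ => ?_
        unfold k4eHvG
        rw [Finset.mul_sum]
        refine Finset.sum_congr rfl fun e he => ?_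
        rw [← (Finset.mem_filter.1 he).2]
        rfl
    _ ≤ ∑ G ∈ GA, P.om G.1 * (∑ e ∈ k4eHvG Yc S' π G, P.mu (Yc.wd e.1) {x | x ∈ k4eCov Yc S' π.n' e ∧ e ∈ L G (k4eObs P π.aL (Yc.wd e.1) x)}
          + ENNReal.ofReal (1 / L2)) := by
        refine Finset.sum_le_sum fun G _ => ?_
        gcongr
        exact hL.succ G
    _ = ∑ G ∈ GA, ∑ e ∈ (k4eHv Yc S' π).filter (fun e => k4eGrpOf Yc e = G),
          P.om (Yc.wd e.1) * P.mu (Yc.wd e.1) {x | x ∈ k4eCov Yc S' π.n' e ∧ e ∈ L (k4eGrpOf Yc e) (k4eObs P π.aL (Yc.wd e.1) x)}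
          + (∑ G ∈ GA, P.om G.1) * ENNReal.ofReal (1 / L2) := by
        rw [Finset.sum_mul, ← Finset.sum_add_distrib]
        refine Finset.sum_congr rfl fun G _ => ?_
        rw [mul_add]
        congr 1
        unfold k4eHvG
        rw [Finset.mul_sum]
        refine Finset.sum_congr rfl fun e he => ?_
        rw [← (Finset.mem_filter.1 he).2]
        rfl
    _ ≤ _ := by
        gcongr
        rw [hGA, k4e_ms_wsum (w := fun γ => P.om γ), h.wf.om_sum, mul_one]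
        simp only [Finset.card_product, Finset.card_range, k4e_ms_bins_card, Finset.card_univ, Fintype.card_bool]
        rw [← ENNReal.ofReal_natCast, ← ENNReal.ofReal_mul (Nat.cast_nonneg _)]
        refine ENNReal.ofReal_le_ofReal (le_trans (le_of_eq ?_) num.n6')
        push_cast
        ring

theorem k4e_ms_out_mass {Yc : KbSys P} {S' : Yc.C → Set (P.Lam × ℝ)} {π : K4ePar} {L2 : ℝ} (h : K4eHyp Yc S' π)
    (J : K4eCd P π.m) (L : K4eLs Yc) (hL : K4eLsOk Yc S' π J L2 L) (ty : Bool) :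
    (k4eOut Yc S' π J L ty).mass = ∑ p ∈ k4eLab Yc S' π J ty, ∑ e ∈ (k4eHv Yc S' π).filter (fun e => k4eKey Yc π J e = p),
      P.om (Yc.wd e.1) * P.mu (Yc.wd e.1) {x | x ∈ k4eCov Yc S' π.n' e ∧ e ∈ L (k4eGrpOf Yc e) (k4eObs P π.aL (Yc.wd e.1) x)} := by
  have key : ∀ p : K4eGrp P × (Fin π.m → ℤ),
      P.om p.1.1 * P.mu p.1.1 (⋃ e ∈ (k4eHv Yc S' π).filter (fun e => k4eKey Yc π J e = p),
        {x | x ∈ k4eCov Yc S' π.n' e ∧ e ∈ L (k4eGrpOf Yc e) (k4eObs P π.aL (Yc.wd e.1) x)}) =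
      ∑ e ∈ (k4eHv Yc S' π).filter (fun e => k4eKey Yc π J e = p),
        P.om (Yc.wd e.1) * P.mu (Yc.wd e.1) {x | x ∈ k4eCov Yc S' π.n' e ∧ e ∈ L (k4eGrpOf Yc e) (k4eObs P π.aL (Yc.wd e.1) x)} := by
    intro p
    rw [measure_biUnion_finset ?_ (fun e _ => k4e_ms_lis_meas h J L hL _ e), Finset.mul_sum]
    · refine Finset.sum_congr rfl fun e he => ?_
      rw [← (Finset.mem_filter.1 he).2]
      rfl
    · intro e he e' he' hne
      rw [Function.onFun, Set.disjoint_left]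
      intro x hx hx'
      refine hne (k4e_ms_ent_eq h e e' ?_ x.1 hx.1.2.1 hx'.1.2.1)
      have h1 : k4eKey Yc π J e = p := (Finset.mem_filter.1 (Finset.mem_coe.1 he)).2
      have h2 : k4eKey Yc π J e' = p := (Finset.mem_filter.1 (Finset.mem_coe.1 he')).2
      exact congrArg Prod.fst (h1.trans h2.symm)
  rw [← Finset.sum_congr rfl (fun p _ => key p), ← Finset.sum_coe_sort]
  rfl

theorem k4e_ms_two {Yc : KbSys P} {S' : Yc.C → Set (P.Lam × ℝ)} {π : K4ePar} {L2 : ℝ} (h : K4eHyp Yc S' π)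
    (J : K4eCd P π.m) (L : K4eLs Yc) (hL : K4eLsOk Yc S' π J L2 L) :
    ∑ e ∈ k4eHv Yc S' π, P.om (Yc.wd e.1) * P.mu (Yc.wd e.1) {x | x ∈ k4eCov Yc S' π.n' e ∧ e ∈ L (k4eGrpOf Yc e) (k4eObs P π.aL (Yc.wd e.1) x)} =
      (k4eOut Yc S' π J L true).mass + (k4eOut Yc S' π J L false).mass := by
  rw [k4e_ms_out_mass h J L hL, k4e_ms_out_mass h J L hL]
  unfold k4eLab
  rw [← Finset.sum_fiberwise_of_maps_to (s := k4eHv Yc S' π) (t := (k4eHv Yc S' π).image (k4eKey Yc π J)) (g := k4eKey Yc π J)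
    (fun e he => Finset.mem_image_of_mem _ he),
    ← Finset.sum_filter_add_sum_filter_not ((k4eHv Yc S' π).image (k4eKey Yc π J)) (fun p => k4eTy Yc S' π J p = true)]
  congr 2
  refine Finset.filter_congr fun p _ => ?_
  simp

/-- **LEAF L-252-S4E-K9e** (l.1512-1515, 1586-1590, 1626).  Mass: one of the two types keeps a quarter of the covered mass.
PROOF.  `S' c = ⊔_{e ∈ k4eAll, e.1 = c} k4eCov e` (block of `t`, bin of `y(mid)` in the range `Nz` by `ntv.base`, the two signs).   Light entries: `k4e_light` (`Q = P.W`, `m = P.om`, `∑ om = 1`, `nE = ` count of `k4e_s1_count` × blocks × bins × 4), `num.n6`.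
Groups: `hL.succ` summed with `k4e_group_sum`, `num.n6'`.   So `∑_{e heavy} om μ {x ∈ Cov e | e ∈ L ..} ≥ β - 1/(4Λ) ≥ 3β/4`, and this sum is `mass (out true) + mass (out false)` (the sets of different entries are disjoint; every heavy entry has exactly one label and type). -/
theorem k4e_s9_mass {Yc : KbSys P} {S' : Yc.C → Set (P.Lam × ℝ)} {π : K4ePar} {C1 Crem Cc L2 : ℝ} (h : K4eHyp Yc S' π) (num : K4eNum v π C1 Crem Cc L2)
    (J : K4eCd P π.m) (L : K4eLs Yc) (hL : K4eLsOk Yc S' π J L2 L) (hβ : ENNReal.ofReal (1 / π.Lm) ≤ k4eBeta Yc S') :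
    ∃ ty : Bool, k4eBeta Yc S' ≤ 4 * (k4eOut Yc S' π J L ty).mass := by
  have hLm : 0 < π.Lm := by linarith [h.K1, h.KL]
  have h1 : k4eBeta Yc S' ≤ (k4eOut Yc S' π J L true).mass + (k4eOut Yc S' π J L false).mass + ENNReal.ofReal (1 / (4 * π.Lm)) := by
    calc k4eBeta Yc S' ≤ ∑ e ∈ k4eAll Yc π, P.om (Yc.wd e.1) * P.mu (Yc.wd e.1) (k4eCov Yc S' π.n' e) := k4e_ms_beta_le h
      _ = ∑ e ∈ k4eHv Yc S' π, P.om (Yc.wd e.1) * P.mu (Yc.wd e.1) (k4eCov Yc S' π.n' e)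
          + ∑ e ∈ (k4eAll Yc π).filter (fun e => ¬ ENNReal.ofReal π.τ ≤ P.mu (Yc.wd e.1) (k4eCov Yc S' π.n' e)),
            P.om (Yc.wd e.1) * P.mu (Yc.wd e.1) (k4eCov Yc S' π.n' e) := by
          unfold k4eHv
          exact (Finset.sum_filter_add_sum_filter_not _ _ _).symm
      _ ≤ ((k4eOut Yc S' π J L true).mass + (k4eOut Yc S' π J L false).mass + ENNReal.ofReal (1 / (8 * π.Lm))) + ENNReal.ofReal (1 / (8 * π.Lm)) := by
          rw [← k4e_ms_two h J L hL]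
          exact add_le_add (k4e_ms_heavy h num J L hL) (k4e_ms_light h num)
      _ = (k4eOut Yc S' π J L true).mass + (k4eOut Yc S' π J L false).mass + ENNReal.ofReal (1 / (4 * π.Lm)) := by
          rw [add_assoc, ← ENNReal.ofReal_add (by positivity) (by positivity)]
          congr 2
          field_simp
          norm_num
  have h2 : 4 * ENNReal.ofReal (1 / (4 * π.Lm)) ≤ k4eBeta Yc S' := by
    refine le_trans (le_of_eq ?_) hβ
    rw [show (4 : ℝ≥0∞) = ENNReal.ofReal 4 by norm_num, ← ENNReal.ofReal_mul (by norm_num)]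
    congr 1
    field_simp
  rcases k4e_ms_arith _ _ _ _ ENNReal.ofReal_ne_top h1 h2 with h3 | h3
  · exact ⟨true, h3⟩
  · exact ⟨false, h3⟩

/-! ## the core -/

/-- **LEAF L-252-S4E-KP** : the core for admissible parameters (pure assembly of S2-S9, ~80 l.): `k4e_stable_of_remez` gives `C1`; `J` from `hcode` by choice (`K4eCdOk`); `k4e_s4_stable`, `k4e_s4_ok`, `k4e_s7_list`, `k4e_s8_test`, `k4e_s8_adm`, `k4e_s9_*`. -/
theorem k4e_core_par (v : KbVer) : ∃ C1 : ℝ, 1 ≤ C1 ∧ ∀ (P : KbPb v) (Yc : KbSys P) (S' : Yc.C → Set (P.Lam × ℝ)) (π : K4ePar) (Crem Cc L2 : ℝ),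
    K4eHyp Yc S' π → K4eNum v π C1 Crem Cc L2 → K4eMatch (v.j + 1) π.d π.ε π.R → K4eRemez (v.j + 1) Crem → K4eCode (v.j + 1) π.m Cc →
    ENNReal.ofReal (1 / π.Lm) ≤ k4eBeta Yc S' →
    ∃ (Y' : KbSys P) (a'' : ℝ), Y'.WF ∧ Y'.n = π.n' ∧ Y'.Geo (6 * Cc + π.K + 4) a'' ∧ (a'' = π.R ^ (-(2 * π.ε / 3)) ∨ a'' = π.R ^ (-(π.ε / 3))) ∧
      Y'.Known (P.hid π.aL) (2 * (2 * π.K + 5) ^ v.j * (2 * (π.rn : ℝ) + 1) ^ π.m) ∧ k4eBeta Yc S' ≤ 4 * Y'.mass := by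
  obtain ⟨C1, hC1, hrz⟩ := k4e_stable_of_remez (v.j + 1)
  refine ⟨C1, hC1, ?_⟩
  intro P Yc S' π Crem Cc L2 h num hub hrem hcode hβ
  have hr : 0 < π.r := by
    unfold K4ePar.r K4ePar.ρ kbQ
    have := h.K1
    positivity
  have hJ0 : ∀ G : K4eGrp P, ∃ J : ((Fin (v.j + 1) → ℝ) → ℝ) → Fin π.m → ℝ,
      ∀ f ∈ k4eSh (v.j + 1) (k4eCen π.n' G) π.r, ∀ g ∈ k4eSh (v.j + 1) (k4eCen π.n' G) π.r, ∀ η : ℝ,
        (k4eClose (Metric.closedBall (k4eCen π.n' G) π.r) f g η → ∀ k, |J f k - J g k| ≤ Cc * η) ∧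
          ((∀ k, |J f k - J g k| ≤ η) → k4eClose (Metric.closedBall (k4eCen π.n' G) π.r) f g (Cc * η)) :=
    fun G => hcode (k4eCen π.n' G) π.r hr
  choose J hJ using hJ0
  have hJok : K4eCdOk π Cc J := hJ
  have hst := fun e he => k4e_s4_stable h num hrz e he
  have hok : ∀ e ∈ k4eHv Yc S' π, K4eEntOk Yc π e := fun e he =>
    k4e_s4_ok h num (fun e he => ⟨fun hlt => ⟨((hst e he).1 hlt).1, ((hst e he).1 hlt).2.1⟩, (hst e he).2⟩) e he
  obtain ⟨L, hL⟩ := k4e_s7_list h num hub hrem hok J hJok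
  have ht := fun e he e' he' hk l hl t ht =>
    k4e_s8_test h num hok (fun e he => (hst e he).1) J hJok e e' he he' hk l hl t ht
  have hlowcut : ∀ e' ∈ k4eHv Yc S' π, k4eLow Yc π e' →
      P.B (Yc.wd e'.1) ^ 2 / (4 * π.Lm ^ 2) ≤ MvPolynomial.eval (k4eCen π.n' (k4eGrpOf Yc e')) (k4eDP (Yc.ch e'.1).T) := by
    intro e' he' hlow
    refine ((hst e' he').1 (lt_of_le_of_lt hlow ?_)).2.1
    have hB := h.wf.B_pos (Yc.wd e'.1)
    exact k4e_low_cut π.Lm π.R π.ε Cc (P.B (Yc.wd e'.1)) (h.K1.trans h.KL) h.R1 h.ε0 num.Cc1 hB num.n5 num.n5' π rfl rfl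
  have hadm := fun e' he' => k4e_s8_adm h num e' (hlowcut e' he')
  obtain ⟨ty, hty⟩ := k4e_s9_mass h num J L hL hβ
  refine ⟨k4eOut Yc S' π J L ty, k4eThk π ty, k4e_s9_wf h num J L hL (fun e' he' => (hadm e' he').1) ty, rfl,
    k4e_s9_geo h num J L ht (fun e' he' => (hadm e' he').2) ty, ?_, k4e_s9_known h num J L hL ty, hty⟩
  unfold k4eThk
  cases ty
  · right; simp
  · left; simp

theorem k4e_pow_le_rpow {Λ R e : ℝ} {k m : ℕ} (hΛ : 1 ≤ Λ) (hR : Λ ^ k ≤ R) (he : 0 ≤ e) (hm : (m : ℝ) ≤ k * e) : Λ ^ m ≤ R ^ e := by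
  have h0 : 0 ≤ Λ := by linarith
  calc Λ ^ m = Λ ^ (m : ℝ) := (Real.rpow_natCast _ _).symm
    _ ≤ Λ ^ ((k : ℝ) * e) := Real.rpow_le_rpow_of_exponent_le hΛ hm
    _ = (Λ ^ k) ^ e := by rw [Real.rpow_mul h0, Real.rpow_natCast]
    _ ≤ R ^ e := Real.rpow_le_rpow (by positivity) hR he

theorem k4e_ver_j_le (v : KbVer) : v.j ≤ 2 := by cases v <;> simp [KbVer.j]

/-- `c Λ^m ≤ Λ^(m+1)` for `c ≤ Λ` -/
theorem k4e_cmul_pow {Λ c : ℝ} (hΛ : 1 ≤ Λ) (hc : c ≤ Λ) (m : ℕ) : c * Λ ^ m ≤ Λ ^ (m + 1) := by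
  have : 0 ≤ Λ ^ m := by positivity
  calc c * Λ ^ m ≤ Λ * Λ ^ m := by gcongr
    _ = Λ ^ (m + 1) := by ring

/-- the denominator of the time step -/
theorem k4e_num_den {Λ K C1 : ℝ} {p : ℕ} (hp : p ≤ 6) (hΛ : 256 ≤ Λ) (hC1 : 1 ≤ C1) (hC1Λ : C1 ≤ Λ) (hK1 : 1 ≤ K) (hKΛ : K ≤ Λ) :
    1 ≤ C1 * (128 * Λ ^ 6) ^ p * (6 * Λ ^ 4) ∧ 4 * (C1 * (128 * Λ ^ 6) ^ p * (6 * Λ ^ 4)) * (K + 1) ≤ Λ ^ 49 := by
  have hΛ1 : 1 ≤ Λ := by linarith
  have h6 : 1 ≤ Λ ^ 6 := one_le_pow₀ hΛ1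
  have h4 : 1 ≤ Λ ^ 4 := one_le_pow₀ hΛ1
  have hX1 : 1 ≤ (128 * Λ ^ 6) ^ p := one_le_pow₀ (by linarith)
  have hX2 : (128 * Λ ^ 6) ^ p ≤ Λ ^ 42 := by
    calc (128 * Λ ^ 6) ^ p ≤ (Λ ^ 7) ^ p := by
          gcongr
          exact k4e_cmul_pow hΛ1 (by linarith) 6
      _ = Λ ^ (7 * p) := (pow_mul _ _ _).symm
      _ ≤ Λ ^ 42 := pow_le_pow_right₀ hΛ1 (by omega)
  constructor
  · have : 1 ≤ C1 * (128 * Λ ^ 6) ^ p := by nlinarith
    nlinarith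
  · have h42 : 0 < Λ ^ 42 := by positivity
    calc 4 * (C1 * (128 * Λ ^ 6) ^ p * (6 * Λ ^ 4)) * (K + 1)
        ≤ 4 * (Λ * Λ ^ 42 * (6 * Λ ^ 4)) * (2 * Λ) := by gcongr; linarith
      _ = 48 * Λ ^ 48 := by ring
      _ ≤ Λ ^ 49 := k4e_cmul_pow hΛ1 (by linarith) 48

/-- **LEAF L-252-S4E-KN** : admissible parameters exist (PAPER-FREE, real arithmetic only).   All constants are absorbed by `k ≤ Λ`, all powers of `Λ` by `Λ^k ≤ R`.
CHOICE.  `x := 1 / (4 C1 (128Λ⁶)^{2(j+1)} 6Λ⁴ (K+1))`, `n'` minimal with `2^{-n'} ≤ x` (so `x/2 < ρ ≤ x`, `2^{n'} ≤ 2/x ≤ Λ^{60}`; `r4`, `n1`);  `Nz ≤ (K+1)/ρ + 1`;  `W := 2^{n'} (2Nz+1)^j ≤ Λ^{200}`;  `τ := R^{-d} / (32 Λ² W)` (`n6`, `τ1`);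
`L2 := max (Crem (256 Λ⁵ W)^{Crem} 64Λ⁴) (max (68Λ⁴) (16 Λ W))` (`n2`, `n3'`, `n6'`), `L2 ≤ Λ^{k₂}`, `k₂ = k₂(Crem)`;  `rn := ⌈Cc⌉₊ + 1`;  `k ≥ max (3k₂/ε, 18/ε, 60, C1, Crem, 16 Cc, rn, 128)`:
`R^ε ≥ Λ^{kε} ≥ L2³`, `R^{ε/6} ≥ Λ³ ≥ 16 Cc Λ`, `R^{1-ε} ≥ R^{1/2} ≥ 32Λ⁴`.   (`Real.rpow_natCast`, `Real.rpow_le_rpow_left_iff`, `Real.rpow_mul`.) -/
theorem k4e_num_exists (v : KbVer) (C1 Crem Cc ε : ℝ) (hC1 : 1 ≤ C1) (hCrem : 1 ≤ Crem) (hCc : 1 ≤ Cc) (hε : 0 < ε) (hε1 : ε ≤ 1 / 2) :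
    ∃ k : ℕ, ∀ π₀ : K4ePar, π₀.ε = ε → 1 ≤ π₀.K → π₀.K ≤ π₀.Lm → (k : ℝ) ≤ π₀.Lm → π₀.Lm ^ k ≤ π₀.R → 0 ≤ π₀.d →
      ∃ (n' : ℕ) (τ L2 : ℝ) (rn : ℕ), K4eNum v { π₀ with n' := n', τ := τ, rn := rn } C1 Crem Cc L2 ∧ π₀.Lm ^ (-(k : ℝ)) ≤ kbQ n' ∧ rn ≤ k := by
  set cR : ℕ := ⌈Crem⌉₊ with hcR
  set k₂ : ℕ := 162 * cR + 6 with hk₂
  set k : ℕ := max 256 (max ⌈C1⌉₊ (max cR (max (⌈Cc⌉₊ + 1) ⌈3 * (k₂ : ℝ) / ε⌉₊))) with hk
  have hk256 : 256 ≤ k := le_max_left _ _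
  have hkC1 : ⌈C1⌉₊ ≤ k := (le_max_left _ _).trans (le_max_right _ _)
  have hkcR : cR ≤ k := ((le_max_left _ _).trans (le_max_right _ _)).trans (le_max_right _ _)
  have hkCc : ⌈Cc⌉₊ + 1 ≤ k := (((le_max_left _ _).trans (le_max_right _ _)).trans (le_max_right _ _)).trans (le_max_right _ _)
  have hkε : ⌈3 * (k₂ : ℝ) / ε⌉₊ ≤ k := (((le_max_right _ _).trans (le_max_right _ _)).trans (le_max_right _ _)).trans (le_max_right _ _)
  have hcR1 : 1 ≤ cR := Nat.one_le_iff_ne_zero.2 (by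
    intro h
    have := Nat.le_ceil Crem
    rw [← hcR, h] at this
    norm_num at this
    linarith)
  have hkε' : 3 * (k₂ : ℝ) ≤ k * ε := by
    have h1 : 3 * (k₂ : ℝ) / ε ≤ k := (Nat.le_ceil _).trans (by exact_mod_cast hkε)
    rwa [div_le_iff₀ hε] at h1
  have hk₂168 : (168 : ℝ) ≤ k₂ := by
    have : 168 ≤ k₂ := by omega
    exact_mod_cast this
  refine ⟨k, fun π₀ hε' hK1 hKL hkL hLR hd => ?_⟩
  obtain ⟨K, Λ, R, d, ε₀, aL, n₀, τ₀, m, rn₀⟩ := π₀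
  simp only at hε' hK1 hKL hkL hLR hd
  subst hε'
  have hΛ256 : (256 : ℝ) ≤ Λ := le_trans (by exact_mod_cast hk256) hkL
  have hΛ1 : 1 ≤ Λ := by linarith
  have hΛ0 : 0 < Λ := by linarith
  have hC1Λ : C1 ≤ Λ := ((Nat.le_ceil _).trans (by exact_mod_cast hkC1)).trans hkL
  have hCremΛ : Crem ≤ Λ := ((Nat.le_ceil _).trans (by exact_mod_cast hkcR)).trans hkL
  have hCcΛ : Cc ≤ Λ := by
    have h1 : Cc ≤ (⌈Cc⌉₊ : ℝ) := Nat.le_ceil _
    have h2 : ((⌈Cc⌉₊ + 1 : ℕ) : ℝ) ≤ k := by exact_mod_cast hkCc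
    push_cast at h2
    linarith
  have hR0 : 0 < R := lt_of_lt_of_le (by positivity) hLR
  have hj : v.j ≤ 2 := k4e_ver_j_le v
  have hpw : ∀ {a b : ℕ}, a ≤ b → Λ ^ a ≤ Λ ^ b := fun h => pow_le_pow_right₀ hΛ1 h
  -- the time step
  set Q : ℝ := C1 * (128 * Λ ^ 6) ^ (2 * (v.j + 1)) * (6 * Λ ^ 4) with hQ
  obtain ⟨hQ1, hDn⟩ := k4e_num_den (p := 2 * (v.j + 1)) (by omega) hΛ256 hC1 hC1Λ hK1 hKL
  rw [← hQ] at hQ1 hDn
  have hDn1 : 1 ≤ 4 * Q * (K + 1) := by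
    have h1 : 1 ≤ Q * (K + 1) := one_le_mul_of_one_le_of_one_le hQ1 (by linarith)
    have e : 4 * Q * (K + 1) = 4 * (Q * (K + 1)) := by ring
    rw [e]; linarith
  obtain ⟨n, hn1, hn2⟩ := exists_nat_pow_near hDn1 (by norm_num : (1 : ℝ) < 2)
  set ρ : ℝ := kbQ (n + 1) with hρ
  have hρe : ρ = 1 / 2 ^ (n + 1) := by rw [hρ, kbQ, one_div_pow]
  have h2n0 : (0 : ℝ) < 2 ^ (n + 1) := by positivity
  have hρ0 : 0 < ρ := by rw [hρe]; positivity
  have hρD : 4 * Q * (K + 1) * ρ ≤ 1 := by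
    rw [hρe, mul_one_div, div_le_one h2n0]; exact hn2.le
  have h2n : (2 : ℝ) ^ (n + 1) ≤ Λ ^ 50 := by
    calc (2 : ℝ) ^ (n + 1) = 2 * 2 ^ n := by ring
      _ ≤ 2 * Λ ^ 49 := by linarith [hn1.trans hDn]
      _ ≤ Λ ^ 50 := k4e_cmul_pow hΛ1 (by linarith) 49
  have h2n1 : (1 : ℝ) ≤ 2 ^ (n + 1) := one_le_pow₀ (by norm_num)
  -- the bins
  set Nz : ℕ := ⌈(K + 1) / ρ⌉₊ with hNz
  have hNz1 : (Nz : ℝ) ≤ Λ ^ 52 := by
    have h1 : (Nz : ℝ) ≤ (K + 1) / ρ + 1 := (Nat.ceil_lt_add_one (by positivity)).le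
    have h2 : (K + 1) / ρ = (K + 1) * 2 ^ (n + 1) := by rw [hρe]; field_simp
    have h3 : (K + 1) * 2 ^ (n + 1) ≤ (2 * Λ) * Λ ^ 50 := by gcongr; linarith
    have h4 : (1 : ℝ) ≤ Λ ^ 51 := one_le_pow₀ hΛ1
    calc (Nz : ℝ) ≤ (2 * Λ) * Λ ^ 50 + 1 := by linarith
      _ ≤ 3 * Λ ^ 51 := by
          have e : (2 * Λ) * Λ ^ 50 = 2 * Λ ^ 51 := by ring
          rw [e]; linarith
      _ ≤ Λ ^ 52 := k4e_cmul_pow hΛ1 (by linarith) 51
  have hB1 : 2 * (Nz : ℝ) + 1 ≤ Λ ^ 53 := by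
    have h4 : (1 : ℝ) ≤ Λ ^ 52 := one_le_pow₀ hΛ1
    calc 2 * (Nz : ℝ) + 1 ≤ 3 * Λ ^ 52 := by linarith
      _ ≤ Λ ^ 53 := k4e_cmul_pow hΛ1 (by linarith) 52
  have hB0 : (1 : ℝ) ≤ 2 * (Nz : ℝ) + 1 := by
    have : (0 : ℝ) ≤ Nz := Nat.cast_nonneg _
    linarith
  set W : ℝ := 2 ^ (n + 1) * (2 * (Nz : ℝ) + 1) ^ v.j with hW
  have hBj1 : (1 : ℝ) ≤ (2 * (Nz : ℝ) + 1) ^ v.j := one_le_pow₀ hB0
  have hBj : (2 * (Nz : ℝ) + 1) ^ v.j ≤ Λ ^ 106 := by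
    calc (2 * (Nz : ℝ) + 1) ^ v.j ≤ (Λ ^ 53) ^ v.j := by gcongr
      _ = Λ ^ (53 * v.j) := (pow_mul _ _ _).symm
      _ ≤ Λ ^ 106 := hpw (by omega)
  have hW1 : 1 ≤ W := one_le_mul_of_one_le_of_one_le h2n1 hBj1
  have hW0 : 0 < W := by linarith
  have hWle : W ≤ Λ ^ 156 := by
    calc W ≤ Λ ^ 50 * Λ ^ 106 := by rw [hW]; gcongr
      _ = Λ ^ 156 := by ring
  -- τ, L2
  have hRd : 0 < R ^ d := Real.rpow_pos_of_pos hR0 d
  set τ : ℝ := 1 / (32 * Λ ^ 2 * W * R ^ d) with hτ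
  have hτ0 : 0 < τ := by rw [hτ]; positivity
  have hτR : τ * R ^ d = 1 / (32 * Λ ^ 2 * W) := by rw [hτ]; field_simp
  set Z : ℝ := 256 * Λ ^ 5 * W with hZ
  have hZ1 : 1 ≤ Z := by
    have h5 : (1 : ℝ) ≤ Λ ^ 5 := one_le_pow₀ hΛ1
    exact one_le_mul_of_one_le_of_one_le (by linarith) hW1
  have hZle : Z ≤ Λ ^ 162 := by
    calc Z ≤ Λ * Λ ^ 5 * Λ ^ 156 := by rw [hZ]; gcongr
      _ = Λ ^ 162 := by ring
  have hZC : Z ^ Crem ≤ Λ ^ (162 * cR) := by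
    calc Z ^ Crem ≤ Z ^ (cR : ℝ) := Real.rpow_le_rpow_of_exponent_le hZ1 (Nat.le_ceil _)
      _ = Z ^ cR := Real.rpow_natCast _ _
      _ ≤ (Λ ^ 162) ^ cR := by gcongr
      _ = Λ ^ (162 * cR) := (pow_mul _ _ _).symm
  have hZC0 : 0 < Z ^ Crem := Real.rpow_pos_of_pos (by linarith) _
  set T1 : ℝ := Crem * Z ^ Crem * (64 * Λ ^ 4) with hT1
  set L2 : ℝ := max T1 (max (68 * Λ ^ 4) (16 * Λ * W)) with hL2
  have hT1le : T1 ≤ Λ ^ k₂ := by
    calc T1 ≤ Λ * Λ ^ (162 * cR) * (Λ * Λ ^ 4) := by rw [hT1]; gcongr; linarith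
      _ = Λ ^ k₂ := by rw [hk₂]; ring
  have hT2le : 68 * Λ ^ 4 ≤ Λ ^ k₂ := (k4e_cmul_pow hΛ1 (by linarith) 4).trans (hpw (by omega))
  have hT3le : 16 * Λ * W ≤ Λ ^ k₂ := by
    calc 16 * Λ * W ≤ Λ * Λ * Λ ^ 156 := by gcongr; linarith
      _ = Λ ^ 158 := by ring
      _ ≤ Λ ^ k₂ := hpw (by omega)
  have hL2le : L2 ≤ Λ ^ k₂ := max_le hT1le (max_le hT2le hT3le)
  have hL2a : T1 ≤ L2 := le_max_left _ _
  have hL2b : 68 * Λ ^ 4 ≤ L2 := (le_max_left _ _).trans (le_max_right _ _)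
  have hL2c : 16 * Λ * W ≤ L2 := (le_max_right _ _).trans (le_max_right _ _)
  have hL20 : 0 < L2 := lt_of_lt_of_le (by positivity) hL2b
  refine ⟨n + 1, τ, L2, ⌈Cc⌉₊ + 1, ?_, ?_, hkCc⟩
  · refine ⟨?_, ?_, hτ0, ?_, ?_, ?_, hL2b, ?_, ?_, ?_, ?_, ?_, hCc, hCrem⟩
    · -- r4
      show (K + 1) * ρ ≤ 1 / 4
      have hy : 0 ≤ (K + 1) * ρ := by positivity
      have h1 : (K + 1) * ρ ≤ Q * ((K + 1) * ρ) := le_mul_of_one_le_left hy hQ1
      have e : 4 * Q * (K + 1) * ρ = 4 * (Q * ((K + 1) * ρ)) := by ring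
      rw [e] at hρD
      linarith
    · -- n1
      show Q * ((K + 1) * ρ) ≤ 1
      have e : 4 * Q * (K + 1) * ρ = 4 * (Q * ((K + 1) * ρ)) := by ring
      have hy : 0 ≤ Q * ((K + 1) * ρ) := by positivity
      rw [e] at hρD
      linarith
    · -- τ1
      show τ * R ^ d ≤ 8 * Λ ^ 3
      rw [hτR]
      have h1 : 1 / (32 * Λ ^ 2 * W) ≤ 1 := by
        rw [div_le_one (by positivity)]
        have h2 : (1 : ℝ) ≤ Λ ^ 2 := one_le_pow₀ hΛ1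
        exact one_le_mul_of_one_le_of_one_le (by linarith) hW1
      have h2 : (1 : ℝ) ≤ Λ ^ 3 := one_le_pow₀ hΛ1
      linarith
    · -- n2
      show Crem * (τ * R ^ d / (8 * Λ ^ 3)) ^ (-Crem) * (64 * Λ ^ 4) ≤ L2
      have e : τ * R ^ d / (8 * Λ ^ 3) = Z⁻¹ := by
        rw [hτR, hZ]; field_simp; ring
      rw [e, Real.inv_rpow (by linarith), Real.rpow_neg (by linarith), inv_inv]
      exact hL2a
    · -- n3
      show L2 ^ 3 ≤ R ^ ε₀
      calc L2 ^ 3 ≤ (Λ ^ k₂) ^ 3 := by gcongr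
        _ = Λ ^ (3 * k₂) := by rw [← pow_mul, mul_comm]
        _ ≤ R ^ ε₀ := k4e_pow_le_rpow hΛ1 hLR hε.le (by push_cast; exact hkε')
    · -- n4
      show Cc + 1 ≤ ((⌈Cc⌉₊ + 1 : ℕ) : ℝ)
      push_cast
      linarith [Nat.le_ceil Cc]
    · -- n5
      show 16 * Cc * Λ ≤ R ^ (ε₀ / 6)
      calc 16 * Cc * Λ ≤ Λ * Λ * Λ := by gcongr; linarith
        _ = Λ ^ 3 := by ring
        _ ≤ R ^ (ε₀ / 6) := k4e_pow_le_rpow hΛ1 hLR (by positivity) (by push_cast; linarith)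
    · -- n5'
      show 32 * Λ ^ 4 ≤ Cc * R ^ (1 - ε₀)
      have h1 : Λ ^ 5 ≤ R ^ (1 - ε₀) := k4e_pow_le_rpow hΛ1 hLR (by linarith) (by
        have h256 : (256 : ℝ) ≤ k := by exact_mod_cast hk256
        have h3 : (256 : ℝ) * (1 / 2) ≤ k * (1 - ε₀) := mul_le_mul h256 (by linarith) (by norm_num) (by positivity)
        push_cast
        linarith)
      have h2 : 0 ≤ R ^ (1 - ε₀) := (Real.rpow_pos_of_pos hR0 _).le
      calc 32 * Λ ^ 4 ≤ Λ ^ 5 := k4e_cmul_pow hΛ1 (by linarith) 4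
        _ ≤ R ^ (1 - ε₀) := h1
        _ ≤ Cc * R ^ (1 - ε₀) := le_mul_of_one_le_left h2 hCc
    · -- n6
      show 4 * Λ * R ^ d * 2 ^ (n + 1) * (2 * (Nz : ℝ) + 1) ^ v.j * τ ≤ 1 / (8 * Λ)
      have e : 4 * Λ * R ^ d * 2 ^ (n + 1) * (2 * (Nz : ℝ) + 1) ^ v.j * τ = 4 * Λ * W * (τ * R ^ d) := by rw [hW]; ring
      rw [e, hτR]
      apply le_of_eq
      field_simp
      ring
    · -- n6'
      show 2 * 2 ^ (n + 1) * (2 * (Nz : ℝ) + 1) ^ v.j / L2 ≤ 1 / (8 * Λ)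
      have e : 2 * 2 ^ (n + 1) * (2 * (Nz : ℝ) + 1) ^ v.j = 2 * W := by rw [hW]; ring
      rw [e, div_le_div_iff₀ hL20 (by positivity)]
      linarith
  · show Λ ^ (-(k : ℝ)) ≤ ρ
    rw [Real.rpow_neg hΛ0.le, Real.rpow_natCast, hρe, one_div]
    exact inv_anti₀ h2n0 (h2n.trans (hpw (by omega)))

/-- the input does not depend on the auxiliary parameters -/
theorem k4e_hyp_congr {Yc : KbSys P} {S' : Yc.C → Set (P.Lam × ℝ)} {π₀ : K4ePar} (h : K4eHyp Yc S' π₀) (n' : ℕ) (τ : ℝ) (rn : ℕ) :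
    K4eHyp Yc S' { π₀ with n' := n', τ := τ, rn := rn } :=
  { wf := h.wf, ntv := h.ntv, cwf := h.cwf, n0 := h.n0, val := h.val, dw := h.dw, dw_low := h.dw_low, dww := h.dww, floor := h.floor, cap := h.cap,
    S'_meas := h.S'_meas, S'_sub := h.S'_sub, K1 := h.K1, KL := h.KL, R1 := h.R1, aL0 := h.aL0, aLR := h.aLR, d0 := h.d0, ε0 := h.ε0, ε1 := h.ε1 }

/-- **THE CORE OF S4E** (04 l.1420-1660, one scale).  `P` = normalised path node, `Yc` = greedy time candidates at thickness `1/R`, `R = N^c`, analytical slack `Λ = N^σ`, covered law `S'` of mass `≥ 1/Λ`.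
If `Λ ≥ k` and `Λ^k ≤ R` (`σ` small against `c`), there is a chart system at thickness `≤ R^{-ε/3}`, time length `≥ Λ^{-k}`, whose geometric slack and `p_L`-lists are bounded by the ACTUAL slack `K` of the node, carrying a quarter of the covered mass.
(**LEAF L-252-S4E-KC**: `k4e_core_par`, `k4e_num_exists`, `k4e_hyp_congr`; ~50 l.) -/
theorem k4e_core (v : KbVer) (m : ℕ) (Crem Cc ε : ℝ) (hCrem : 1 ≤ Crem) (hCc : 1 ≤ Cc) (hε : 0 < ε) (hε1 : ε ≤ 1 / 2) :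
    ∃ k : ℕ, ∀ (P : KbPb v) (Yc : KbSys P) (S' : Yc.C → Set (P.Lam × ℝ)) (π₀ : K4ePar), π₀.ε = ε → π₀.m = m → K4eHyp Yc S' π₀ → (k : ℝ) ≤ π₀.Lm → π₀.Lm ^ k ≤ π₀.R →
      K4eMatch (v.j + 1) π₀.d ε π₀.R → K4eRemez (v.j + 1) Crem → K4eCode (v.j + 1) m Cc → ENNReal.ofReal (1 / π₀.Lm) ≤ k4eBeta Yc S' →
      ∃ (Y' : KbSys P) (a'' : ℝ) (rn : ℕ), rn ≤ k ∧ Y'.WF ∧ π₀.Lm ^ (-(k : ℝ)) ≤ Y'.q ∧ Y'.Geo (6 * Cc + π₀.K + 4) a'' ∧
        (a'' = π₀.R ^ (-(2 * ε / 3)) ∨ a'' = π₀.R ^ (-(ε / 3))) ∧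
        Y'.Known (P.hid π₀.aL) (2 * (2 * π₀.K + 5) ^ v.j * (2 * (rn : ℝ) + 1) ^ m) ∧ k4eBeta Yc S' ≤ 4 * Y'.mass := by
  obtain ⟨C1, hC1, hpar⟩ := k4e_core_par v
  obtain ⟨k, hk⟩ := k4e_num_exists v C1 Crem Cc ε hC1 hCrem hCc hε hε1
  refine ⟨k, ?_⟩
  intro P Yc S' π₀ hε0 hm h hkL hLR hub hrem hcode hβ
  obtain ⟨n', τ, L2, rn, hnum, hq, hrn⟩ := hk π₀ hε0 h.K1 h.KL hkL hLR h.d0
  subst hε0 hm
  obtain ⟨Y', a'', hwf, hn, hgeo, ha, hknown, hmass⟩ := hpar P Yc S' { π₀ with n' := n', τ := τ, rn := rn } Crem Cc L2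
    (k4e_hyp_congr h n' τ rn) hnum hub hrem hcode hβ
  refine ⟨Y', a'', rn, hrn, hwf, ?_, hgeo, ha, hknown, hmass⟩
  unfold KbSys.q
  rw [hn]
  exact hq

theorem k4e_core_contract_eqns_cite : True := by
  have := @k4eBoxA.eq_1
  have := @k4eBoxB.eq_1
  have := @k4eHvG.eq_1
  have := @K4eCdOk.eq_1
  have := @k4eGS.eq_1
  trivial

end

end Claimed.Agent.R252
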