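import Claimed.Agent.R252.Base.Sys
import Claimed.Agent.R252.S4E.Contract

/-!
# ROW 252 (S0492), unit S4E (sub-architect helper222), file 2: DEFINITIONS of the construction of `04-critical-paths.tex` l.1420-1660 on `R252/Base`.      Definitions only, no `sorry`.

SETTING (one scale).  `P : KbPb v` = the path node `Q_s` NORMALISED (`Y.norm a`): worlds = charts `Q`, native test `P.Pst γ` = the true test of `Q` at thickness `1`, derivative unit `P.B γ`.
`Yc : KbSys P`, level `0` = the TIME CANDIDATES after the greedy priority assignment (label `c` = chosen test, `Yc.A c` = assigned trajectories, `Yc.S c` = counted incidences), thickness `1/R`, `R = N^c`.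
`S' c ⊆ Yc.S c` = the covered law.   Only `wd, A, S, (ch c).T` of `Yc` are used.
CONSTRUCTION.  short blocks `k < 2^n'` of length `ρ = kbQ n'`, spatial bins `bz` of the position at the midpoint, signs `s₀, s₁` of `∂_w` of the true / candidate test at the midpoint:
ENTRY `e = (c, k, bz, s₀, s₁)`, GROUP `G = (γ, k, bz, s₀)`.   Graphs `k4eGr` (affine centre above the curvature cutoff, root `k4eRoot` below).   HEAVY entries `k4eHv`.   Codes `J G f ∈ ℝ^m`, bins at step `η`.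
Output label `p = (G, bin)` (= `c_geom`), representative entry `k4eRep p`, output test `k4eTst p` of one of two types, output system `k4eOut`.
-/

set_option autoImplicit false

namespace Claimed.Agent.R252

open MeasureTheory
open scoped ENNReal BigOperators Classical

noncomputable section

variable {v : KbVer}

/-! ## 1. tests as quadratics in `w` with polynomial coefficients -/

/-- the base point `(t, y)` as a vector -/
def k4eU (o : ℝ × KbB v) : Fin (v.j + 1) → ℝ := Fin.cons o.1 o.2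

/-- chosen coefficients of a quadratic test -/
def k4eQ (T : KbTest v) : KbQuad v := if h : KbIsQuad T then h.choose else ⟨0, 0, 0, 0, 0, 0, 0, 0, 0, 0⟩

/-- `A` in `T = A w² + b(u) w + c(u)` -/
def k4eA (T : KbTest v) : ℝ := (k4eQ T).cww

/-- `b(u)` -/
def k4ebP (T : KbTest v) : MvPolynomial (Fin (v.j + 1)) ℝ :=
  MvPolynomial.C (k4eQ T).cw + MvPolynomial.C (k4eQ T).ctw * MvPolynomial.X 0 + ∑ i : Fin v.j, MvPolynomial.C ((k4eQ T).cyw i) * MvPolynomial.X i.succ

/-- `c(u)` -/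
def k4ecP (T : KbTest v) : MvPolynomial (Fin (v.j + 1)) ℝ :=
  MvPolynomial.C (k4eQ T).c0 + MvPolynomial.C (k4eQ T).ct * MvPolynomial.X 0 + ∑ i : Fin v.j, MvPolynomial.C ((k4eQ T).cy i) * MvPolynomial.X i.succ
    + MvPolynomial.C (k4eQ T).ctt * MvPolynomial.X 0 ^ 2 + ∑ i : Fin v.j, MvPolynomial.C ((k4eQ T).cty i) * MvPolynomial.X 0 * MvPolynomial.X i.succ
    + ∑ i : Fin v.j, ∑ k : Fin v.j, MvPolynomial.C ((k4eQ T).cyy i k) * MvPolynomial.X i.succ * MvPolynomial.X k.succ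

/-- the discriminant of a test -/
def k4eDP (T : KbTest v) : MvPolynomial (Fin (v.j + 1)) ℝ := k4eDisc (k4eA T) (k4ebP T) (k4ecP T)

/-- `±1` -/
def k4eSg (s : Bool) : ℝ := if s then 1 else -1

/-- **the comparison graph of a test**: affine critical centre if `|T_ww| ≥ κ`, otherwise the root on which `T_w` has the sign `s` -/
def k4eGr (T : KbTest v) (κ : ℝ) (s : Bool) (u : Fin (v.j + 1) → ℝ) : ℝ :=
  if κ ≤ |2 * k4eA T| then -MvPolynomial.eval u (k4ebP T) / (2 * k4eA T)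
  else k4eRoot (k4eA T) (MvPolynomial.eval u (k4ebP T)) (MvPolynomial.eval u (k4ecP T)) (k4eSg s)

/-! ## 2. parameters -/

/-- the numerical parameters of the construction -/
structure K4ePar where
  /-- actual slack of the normalised node (native bounds) -/
  K : ℝ
  /-- analytical slack `Λ = N^σ` -/
  Lm : ℝ
  /-- `R = N^c` : the candidates have thickness `1/R` -/
  R : ℝ
  /-- the dimension cap -/
  d : ℝ
  /-- tolerance of the matching hub -/
  ε : ℝ
  /-- width of the observation `p_L` -/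
  aL : ℝ
  /-- level of the time subdivision, `ρ = 2^{-n'}` -/
  n' : ℕ
  /-- heavy entries have mass `≥ τ` -/
  τ : ℝ
  /-- length of the codes -/
  m : ℕ
  /-- radius of the neighbour lists of bins -/
  rn : ℕ

namespace K4ePar

variable (π : K4ePar)

/-- `ρ` -/
def ρ : ℝ := kbQ π.n'

/-- radius of the comparison cubes -/
def r : ℝ := (π.K + 1) * π.ρ

/-- range of the spatial bins -/
def Nz : ℕ := ⌈(π.K + 1) / π.ρ⌉₊

end K4ePar

/-! ## 3. entries and groups -/

variable {P : KbPb v}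

/-- entries `(c, k, bz, s₀, s₁)` -/
abbrev K4eEnt (Yc : KbSys P) := Yc.C × ℕ × (Fin v.j → ℤ) × Bool × Bool

/-- groups `(γ, k, bz, s₀)` -/
abbrev K4eGrp (P : KbPb v) := P.W × ℕ × (Fin v.j → ℤ) × Bool

/-- the group of an entry -/
def k4eGrpOf (Yc : KbSys P) (e : K4eEnt Yc) : K4eGrp P := (Yc.wd e.1, e.2.1, e.2.2.1, e.2.2.2.1)

/-- midpoint of the short block `k` -/
def k4eMid (n' k : ℕ) : ℝ := ((k : ℝ) + 1 / 2) * kbQ n'

/-- spatial centre of a subbox -/
def k4eCy (n' : ℕ) (bz : Fin v.j → ℤ) : KbB v := fun i => ((bz i : ℝ) + 1 / 2) * kbQ n'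

/-- centre of the comparison cube of a group -/
def k4eCen (n' : ℕ) (G : K4eGrp P) : Fin (v.j + 1) → ℝ := k4eU (k4eMid n' G.2.1, k4eCy n' G.2.2.1)

/-- the trajectories of an entry -/
def k4eTraj (Yc : KbSys P) (n' : ℕ) (e : K4eEnt Yc) : Set P.Lam :=
  {l | l ∈ Yc.A e.1 ∧ (∀ i, ⌊kbY (P.co (Yc.wd e.1) l) (k4eMid n' e.2.1) i / kbQ n'⌋ = e.2.2.1 i) ∧
    e.2.2.2.1 = decide (0 ≤ kbX (kbDw (P.Pst (Yc.wd e.1))) (P.co (Yc.wd e.1) l) (k4eMid n' e.2.1)) ∧
    e.2.2.2.2 = decide (0 ≤ kbX (kbDw (Yc.ch e.1).T) (P.co (Yc.wd e.1) l) (k4eMid n' e.2.1))}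

/-- the covered incidences of an entry -/
def k4eCov (Yc : KbSys P) (S' : Yc.C → Set (P.Lam × ℝ)) (n' : ℕ) (e : K4eEnt Yc) : Set (P.Lam × ℝ) :=
  {x | x ∈ S' e.1 ∧ x.1 ∈ k4eTraj Yc n' e ∧ x.2 ∈ kbI n' e.2.1}

/-- the observation `(p_L, exact base)` -/
def k4eObs (P : KbPb v) (aL : ℝ) (γ : P.W) (x : P.Lam × ℝ) : ℤ × (ℝ × KbB v) := (P.hid aL γ x, P.bs γ x)

/-- the law of the observation on the covered incidences of an entry -/
def k4eLam (Yc : KbSys P) (S' : Yc.C → Set (P.Lam × ℝ)) (π : K4ePar) (e : K4eEnt Yc) : Measure (ℤ × (ℝ × KbB v)) :=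
  ((P.mu (Yc.wd e.1)).restrict (k4eCov Yc S' π.n' e)).map (k4eObs P π.aL (Yc.wd e.1))

/-- all entries in the range of the construction -/
def k4eAll (Yc : KbSys P) (π : K4ePar) : Finset (K4eEnt Yc) :=
  Finset.univ ×ˢ Finset.range (2 ^ π.n') ×ˢ (Fintype.piFinset fun _ => Finset.Icc (-(π.Nz : ℤ)) π.Nz) ×ˢ Finset.univ ×ˢ Finset.univ

/-- the heavy entries -/
def k4eHv (Yc : KbSys P) (S' : Yc.C → Set (P.Lam × ℝ)) (π : K4ePar) : Finset (K4eEnt Yc) :=
  (k4eAll Yc π).filter fun e => ENNReal.ofReal π.τ ≤ P.mu (Yc.wd e.1) (k4eCov Yc S' π.n' e)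

/-- curvature cutoff at fitting thickness `af` -/
def k4eKap (π : K4ePar) (B af : ℝ) : ℝ := B ^ 2 / (32 * π.Lm ^ 3 * af)

/-- the graph of an entry (candidate test, thickness `1/R`) -/
def k4eGrE (Yc : KbSys P) (π : K4ePar) (e : K4eEnt Yc) : (Fin (v.j + 1) → ℝ) → ℝ :=
  k4eGr (Yc.ch e.1).T (k4eKap π (P.B (Yc.wd e.1)) (1 / π.R)) e.2.2.2.2

/-- the true graph of a group (native test, thickness `1`) -/
def k4eGr0 (π : K4ePar) (G : K4eGrp P) : (Fin (v.j + 1) → ℝ) → ℝ := k4eGr (P.Pst G.1) (k4eKap π (P.B G.1) 1) G.2.2.2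

/-! ## 4. bins, labels, representatives -/

/-- a coding of graphs for every group -/
abbrev K4eCd (P : KbPb v) (m : ℕ) := K4eGrp P → ((Fin (v.j + 1) → ℝ) → ℝ) → Fin m → ℝ

/-- step of the bins in the world `γ` -/
def k4eEta (π : K4ePar) (B : ℝ) : ℝ := π.R ^ (-π.ε) / B

/-- output label of an entry: `c_geom = (group, bin of the code of the graph)` -/
def k4eKey (Yc : KbSys P) (π : K4ePar) (J : K4eCd P π.m) (e : K4eEnt Yc) : K4eGrp P × (Fin π.m → ℤ) :=
  (k4eGrpOf Yc e, k4eBin (k4eEta π (P.B (Yc.wd e.1))) (J (k4eGrpOf Yc e) (k4eGrE Yc π e)))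

/-- the representative entry of a label -/
def k4eRep (Yc : KbSys P) (S' : Yc.C → Set (P.Lam × ℝ)) (π : K4ePar) (J : K4eCd P π.m) (p : K4eGrp P × (Fin π.m → ℤ)) : Option (K4eEnt Yc) :=
  if h : ∃ e, e ∈ k4eHv Yc S' π ∧ k4eKey Yc π J e = p then some h.choose else none

/-- an entry is of the first type (low curvature of the representative) -/
def k4eLow (Yc : KbSys P) (π : K4ePar) (e : K4eEnt Yc) : Prop := |2 * k4eA (Yc.ch e.1).T| ≤ P.B (Yc.wd e.1) ^ 2 * π.R ^ (π.ε / 2)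

/-- the output test made from the entry `e` : the normalised equation, resp. `B (w - affine centre)` -/
def k4eTstE (Yc : KbSys P) (π : K4ePar) (e : K4eEnt Yc) : KbTest v :=
  if k4eLow Yc π e then
    fun t y w => P.B (Yc.wd e.1) / Real.sqrt (MvPolynomial.eval (k4eCen π.n' (k4eGrpOf Yc e)) (k4eDP (Yc.ch e.1).T)) * (Yc.ch e.1).T t y w
  else fun t y w => P.B (Yc.wd e.1) * (w - -MvPolynomial.eval (k4eU (t, y)) (k4ebP (Yc.ch e.1).T) / (2 * k4eA (Yc.ch e.1).T))

/-- the output test of a label -/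
def k4eTst (Yc : KbSys P) (S' : Yc.C → Set (P.Lam × ℝ)) (π : K4ePar) (J : K4eCd P π.m) (p : K4eGrp P × (Fin π.m → ℤ)) : KbTest v :=
  match k4eRep Yc S' π J p with
  | some e => k4eTstE Yc π e
  | none => fun _ _ w => w

/-- the type of a label -/
def k4eTy (Yc : KbSys P) (S' : Yc.C → Set (P.Lam × ℝ)) (π : K4ePar) (J : K4eCd P π.m) (p : K4eGrp P × (Fin π.m → ℤ)) : Bool :=
  match k4eRep Yc S' π J p with
  | some e => decide (k4eLow Yc π e)
  | none => true

/-- a list rule for every group: observation ↦ finite set of entries -/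
abbrev K4eLs (Yc : KbSys P) := K4eGrp P → ℤ × (ℝ × KbB v) → Finset (K4eEnt Yc)

/-- the output labels of type `ty` -/
def k4eLab (Yc : KbSys P) (S' : Yc.C → Set (P.Lam × ℝ)) (π : K4ePar) (J : K4eCd P π.m) (ty : Bool) : Finset (K4eGrp P × (Fin π.m → ℤ)) :=
  ((k4eHv Yc S' π).image (k4eKey Yc π J)).filter fun p => k4eTy Yc S' π J p = ty

/-- **the output system** of type `ty` -/
def k4eOut (Yc : KbSys P) (S' : Yc.C → Set (P.Lam × ℝ)) (π : K4ePar) (J : K4eCd P π.m) (L : K4eLs Yc) (ty : Bool) : KbSys P where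
  n := π.n'
  C := {p : K4eGrp P × (Fin π.m → ℤ) // p ∈ k4eLab Yc S' π J ty}
  fC := inferInstance
  wd := fun p => p.1.1.1
  iv := fun p => p.1.1.2.1
  A := fun p => ⋃ e ∈ (k4eHv Yc S' π).filter (fun e => k4eKey Yc π J e = p.1), k4eTraj Yc π.n' e
  S := fun p => ⋃ e ∈ (k4eHv Yc S' π).filter (fun e => k4eKey Yc π J e = p.1),
    {x | x ∈ k4eCov Yc S' π.n' e ∧ e ∈ L (k4eGrpOf Yc e) (k4eObs P π.aL (Yc.wd e.1) x)}
  ch := fun p =>
    { y0 := k4eCy π.n' p.1.1.2.2.1
      y1 := 0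
      D := π.ρ • (1 : Matrix (Fin v.j) (Fin v.j) ℝ)
      Di := π.ρ⁻¹ • (1 : Matrix (Fin v.j) (Fin v.j) ℝ)
      T := k4eTst Yc S' π J p.1 }

/-- thickness of the output system -/
def k4eThk (π : K4ePar) (ty : Bool) : ℝ := if ty then π.R ^ (-(2 * π.ε / 3)) else π.R ^ (-(π.ε / 3))

/-- covered mass -/
def k4eBeta (Yc : KbSys P) (S' : Yc.C → Set (P.Lam × ℝ)) : ℝ≥0∞ := ∑ c, P.om (Yc.wd c) * P.mu (Yc.wd c) (S' c)

theorem k4e_core_defs_eqns_cite : True := by
  have := @k4eU.eq_1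
  have := @k4eQ.eq_1
  have := @k4eA.eq_1
  have := @k4ebP.eq_1
  have := @k4ecP.eq_1
  have := @k4eDP.eq_1
  have := @k4eSg.eq_1
  have := @k4eGr.eq_1
  have := @K4ePar.ρ.eq_1
  have := @K4ePar.r.eq_1
  have := @K4ePar.Nz.eq_1
  have := @k4eGrpOf.eq_1
  have := @k4eMid.eq_1
  have := @k4eCy.eq_1
  have := @k4eCen.eq_1
  have := @k4eTraj.eq_1
  have := @k4eCov.eq_1
  have := @k4eObs.eq_1
  have := @k4eLam.eq_1
  have := @k4eAll.eq_1
  have := @k4eHv.eq_1
  have := @k4eKap.eq_1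
  have := @k4eGrE.eq_1
  have := @k4eGr0.eq_1
  have := @k4eEta.eq_1
  have := @k4eKey.eq_1
  have := @k4eRep.eq_1
  have := @k4eLow.eq_1
  have := @k4eTstE.eq_1
  have := @k4eTst.eq_1
  have := @k4eTy.eq_1
  have := @k4eLab.eq_1
  have := @k4eOut.eq_1
  have := @k4eThk.eq_1
  have := @k4eBeta.eq_1
  trivial

end

end Claimed.Agent.R252
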