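import Claimed.Agent.R252.S4E.CoreContract

/-!
# ROW 252 (S0492), unit S4E (sub-architect helper222), file 4: THE CORE WITH POLYNOMIAL BOUNDS (`KbSys.Tmp` of the output system; needed by `KpSam.Atl.tmp`).      No `sorry` in this file (it cites the statements of `S4E/CoreContract`).

`k4e_s9_tmp` : `Tmp` of `k4eOut`;   `k4e_core_par2`, `k4e_core2` = `k4e_core_par`, `k4e_core` with the additional conclusion `Y'.Tmp ((card Yc.C + 2) Λ^(3k+3))`.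
-/

set_option autoImplicit false

namespace Claimed.Agent.R252

open MeasureTheory
open scoped ENNReal BigOperators Classical

noncomputable section

variable {v : KbVer} {P : KbPb v}

theorem k4e_kbQ_mul_pow (n : ℕ) : kbQ n * 2 ^ n = 1 := by
  unfold kbQ
  rw [← mul_pow]
  norm_num

theorem k4e_kbQ_pos (n : ℕ) : 0 < kbQ n := by
  unfold kbQ
  positivity

theorem k4e_kbQ_le_one (n : ℕ) : kbQ n ≤ 1 := by
  unfold kbQ
  exact pow_le_one₀ (by norm_num) (by norm_num)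

theorem k4e_all_card (Yc : KbSys P) (π : K4ePar) : ((k4eAll Yc π).card : ℝ) = 4 * (Fintype.card Yc.C : ℝ) * 2 ^ π.n' * (2 * (π.Nz : ℝ) + 1) ^ v.j := by
  unfold k4eAll
  rw [Finset.card_product, Finset.card_product, Finset.card_product, Finset.card_product, Fintype.card_piFinset]
  simp only [Finset.card_univ, Finset.card_range, Finset.prod_const, Fintype.card_fin, Fintype.card_bool, Int.card_Icc]
  have h : ((π.Nz : ℤ) + 1 - -(π.Nz : ℤ)).toNat = 2 * π.Nz + 1 := by omega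
  rw [h]
  push_cast
  ring

theorem k4e_lab_card (Yc : KbSys P) (S' : Yc.C → Set (P.Lam × ℝ)) (π : K4ePar) (J : K4eCd P π.m) (ty : Bool) :
    ((k4eLab Yc S' π J ty).card : ℝ) ≤ 4 * (Fintype.card Yc.C : ℝ) * 2 ^ π.n' * (2 * (π.Nz : ℝ) + 1) ^ v.j := by
  rw [← k4e_all_card]
  have h1 : (k4eLab Yc S' π J ty).card ≤ (k4eAll Yc π).card := by
    unfold k4eLab k4eHv
    exact (Finset.card_filter_le _ _).trans (Finset.card_image_le.trans (Finset.card_filter_le _ _))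
  exact_mod_cast h1

/-- the spatial bin of a label lies in the range of the construction -/
theorem k4e_lab_range (Yc : KbSys P) (S' : Yc.C → Set (P.Lam × ℝ)) (π : K4ePar) (J : K4eCd P π.m) (ty : Bool) (p : K4eGrp P × (Fin π.m → ℤ))
    (hp : p ∈ k4eLab Yc S' π J ty) (i : Fin v.j) : |(p.1.2.2.1 i : ℝ)| ≤ π.Nz := by
  unfold k4eLab at hp
  obtain ⟨e, he, rfl⟩ := Finset.mem_image.1 (Finset.mem_filter.1 hp).1
  unfold k4eHv k4eAll at he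
  have h1 := (Finset.mem_filter.1 he).1
  simp only [Finset.mem_product, Fintype.mem_piFinset, Finset.mem_Icc] at h1
  have h2 := h1.2.2.1 i
  show |((e.2.2.1 i : ℤ) : ℝ)| ≤ π.Nz
  rw [abs_le]
  constructor
  · exact_mod_cast h2.1
  · exact_mod_cast h2.2

/-- **polynomial bounds of the output system** -/
theorem k4e_s9_tmp (Yc : KbSys P) (S' : Yc.C → Set (P.Lam × ℝ)) (π : K4ePar) (hK : 1 ≤ π.K) (J : K4eCd P π.m) (L : K4eLs Yc) (ty : Bool) :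
    (k4eOut Yc S' π J L ty).Tmp (4 * (Fintype.card Yc.C : ℝ) * 2 ^ π.n' * (2 * (π.Nz : ℝ) + 1) ^ v.j + 4 ^ π.n' + π.K + 3) := by
  have hρ := k4e_kbQ_pos π.n'
  have hρ1 := k4e_kbQ_le_one π.n'
  have hρ2 := k4e_kbQ_mul_pow π.n'
  have h0 : (0 : ℝ) ≤ 4 * (Fintype.card Yc.C : ℝ) * 2 ^ π.n' * (2 * (π.Nz : ℝ) + 1) ^ v.j := by positivity
  have h4 : (4 : ℝ) ^ π.n' = 2 ^ π.n' * 2 ^ π.n' := by rw [← mul_pow]; norm_num
  have h2 : (1 : ℝ) ≤ 2 ^ π.n' := one_le_pow₀ (by norm_num)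
  have hsq : kbQ π.n' ^ 2 * 4 ^ π.n' = 1 := by
    rw [h4]
    calc kbQ π.n' ^ 2 * (2 ^ π.n' * 2 ^ π.n') = (kbQ π.n' * 2 ^ π.n') ^ 2 := by ring
      _ = 1 := by rw [hρ2]; norm_num
  refine ⟨?_, ?_, ?_, ?_⟩
  · have h1 : Fintype.card (k4eOut Yc S' π J L ty).C = (k4eLab Yc S' π J ty).card := Fintype.card_coe _
    rw [h1]
    have := k4e_lab_card Yc S' π J ty
    have h5 : (0 : ℝ) ≤ 4 ^ π.n' := by positivity
    linarith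
  · show 1 ≤ _ * kbQ π.n'
    have h5 : (2 : ℝ) ^ π.n' ≤ 4 * (Fintype.card Yc.C : ℝ) * 2 ^ π.n' * (2 * (π.Nz : ℝ) + 1) ^ v.j + 4 ^ π.n' + π.K + 3 := by
      rw [h4]
      nlinarith
    calc (1 : ℝ) = 2 ^ π.n' * kbQ π.n' := by rw [mul_comm]; exact hρ2.symm
      _ ≤ _ := mul_le_mul_of_nonneg_right h5 hρ.le
  · intro p
    have hJ : ((k4eOut Yc S' π J L ty).ch p).J = kbQ π.n' ^ v.j := by
      unfold KbChart.J
      show |(π.ρ • (1 : Matrix (Fin v.j) (Fin v.j) ℝ)).det| = _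
      rw [Matrix.det_smul, Matrix.det_one, mul_one, Fintype.card_fin]
      show |kbQ π.n' ^ v.j| = _
      rw [abs_of_nonneg (pow_nonneg hρ.le _)]
    rw [hJ]
    have h5 : kbQ π.n' ^ 2 ≤ kbQ π.n' ^ v.j := pow_le_pow_of_le_one hρ.le hρ1 (k4e_ver_j_le v)
    have h6 : (4 : ℝ) ^ π.n' ≤ 4 * (Fintype.card Yc.C : ℝ) * 2 ^ π.n' * (2 * (π.Nz : ℝ) + 1) ^ v.j + 4 ^ π.n' + π.K + 3 := by linarith
    calc (1 : ℝ) = 4 ^ π.n' * kbQ π.n' ^ 2 := by rw [mul_comm]; exact hsq.symm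
      _ ≤ 4 ^ π.n' * kbQ π.n' ^ v.j := mul_le_mul_of_nonneg_left h5 (by positivity)
      _ ≤ _ := mul_le_mul_of_nonneg_right h6 (pow_nonneg hρ.le _)
  · intro p
    show ‖k4eCy π.n' p.1.1.2.2.1‖ + ‖(0 : KbB v)‖ ≤ _
    rw [norm_zero, add_zero]
    have h5 : ‖k4eCy π.n' p.1.1.2.2.1‖ ≤ π.K + 3 := by
      rw [pi_norm_le_iff_of_nonneg (by linarith)]
      intro i
      unfold k4eCy
      rw [Real.norm_eq_abs, abs_mul, abs_of_pos hρ]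
      have h6 := k4e_lab_range Yc S' π J ty p.1 p.2 i
      have h7 : |(p.1.1.2.2.1 i : ℝ) + 1 / 2| ≤ (π.Nz : ℝ) + 1 / 2 := by
        refine (abs_add_le _ _).trans ?_
        rw [abs_of_pos (by norm_num : (0 : ℝ) < 1 / 2)]
        linarith
      have h8 : (π.Nz : ℝ) ≤ (π.K + 1) / kbQ π.n' + 1 := by
        unfold K4ePar.Nz K4ePar.ρ
        exact (Nat.ceil_lt_add_one (by positivity)).le
      calc |(p.1.1.2.2.1 i : ℝ) + 1 / 2| * kbQ π.n' ≤ ((π.K + 1) / kbQ π.n' + 1 + 1 / 2) * kbQ π.n' :=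
            mul_le_mul_of_nonneg_right (by linarith) hρ.le
        _ = π.K + 1 + 3 / 2 * kbQ π.n' := by field_simp; ring
        _ ≤ π.K + 3 := by linarith
    have h9 : (0 : ℝ) ≤ 4 ^ π.n' := by positivity
    linarith

/-- `k4e_core_par` with polynomial bounds (same proof) -/
theorem k4e_core_par2 (v : KbVer) : ∃ C1 : ℝ, 1 ≤ C1 ∧ ∀ (P : KbPb v) (Yc : KbSys P) (S' : Yc.C → Set (P.Lam × ℝ)) (π : K4ePar) (Crem Cc L2 : ℝ),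
    K4eHyp Yc S' π → K4eNum v π C1 Crem Cc L2 → K4eMatch (v.j + 1) π.d π.ε π.R → K4eRemez (v.j + 1) Crem → K4eCode (v.j + 1) π.m Cc →
    ENNReal.ofReal (1 / π.Lm) ≤ k4eBeta Yc S' →
    ∃ (Y' : KbSys P) (a'' : ℝ), Y'.WF ∧ Y'.n = π.n' ∧ Y'.Geo (6 * Cc + π.K + 4) a'' ∧ (a'' = π.R ^ (-(2 * π.ε / 3)) ∨ a'' = π.R ^ (-(π.ε / 3))) ∧
      Y'.Known (P.hid π.aL) (2 * (2 * π.K + 5) ^ v.j * (2 * (π.rn : ℝ) + 1) ^ π.m) ∧ k4eBeta Yc S' ≤ 4 * Y'.mass ∧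
      Y'.Tmp (4 * (Fintype.card Yc.C : ℝ) * 2 ^ π.n' * (2 * (π.Nz : ℝ) + 1) ^ v.j + 4 ^ π.n' + π.K + 3) := by
  obtain ⟨C1, hC1, hrz⟩ := k4e_stable_of_remez (v.j + 1)
  refine ⟨C1, hC1, ?_⟩
  intro P Yc S' π Crem Cc L2 h num hub hrem hcode hβ
  have hr : 0 < π.r := by
    unfold K4ePar.r K4ePar.ρ kbQ
    have := h.K1
    positivity
  have hJ0 : ∀ G : K4eGrp P, ∃ J : ((Fin (v.j + 1) → ℝ) → ℝ) → Fin π.m → ℝ,
      ∀ f ∈ k4eSh (v.j + 1) (k4eCen π.n' G) π.r, ∀ g ∈ k4eSh (v.j + 1) (k4eCen π.n' G) π.r, ∀ η : ℝ,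
        (k4eClose (Metric.closedBall (k4eCen π.n' G) π.r) f g η → ∀ k, |J f k - J g k| ≤ Cc * η) ∧
          ((∀ k, |J f k - J g k| ≤ η) → k4eClose (Metric.closedBall (k4eCen π.n' G) π.r) f g (Cc * η)) :=
    fun G => hcode (k4eCen π.n' G) π.r hr
  choose J hJ using hJ0
  have hJok : K4eCdOk π Cc J := hJ
  have hst := fun e he => k4e_s4_stable h num hrz e he
  have hok : ∀ e ∈ k4eHv Yc S' π, K4eEntOk Yc π e := fun e he =>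
    k4e_s4_ok h num (fun e he => ⟨fun hlt => ⟨((hst e he).1 hlt).1, ((hst e he).1 hlt).2.1⟩, (hst e he).2⟩) e he
  obtain ⟨L, hL⟩ := k4e_s7_list h num hub hrem hok J hJok
  have ht := fun e he e' he' hk l hl t ht =>
    k4e_s8_test h num hok (fun e he => (hst e he).1) J hJok e e' he he' hk l hl t ht
  have hlowcut : ∀ e' ∈ k4eHv Yc S' π, k4eLow Yc π e' →
      P.B (Yc.wd e'.1) ^ 2 / (4 * π.Lm ^ 2) ≤ MvPolynomial.eval (k4eCen π.n' (k4eGrpOf Yc e')) (k4eDP (Yc.ch e'.1).T) := by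
    intro e' he' hlow
    refine ((hst e' he').1 (lt_of_le_of_lt hlow ?_)).2.1
    have hB := h.wf.B_pos (Yc.wd e'.1)
    exact k4e_low_cut π.Lm π.R π.ε Cc (P.B (Yc.wd e'.1)) (h.K1.trans h.KL) h.R1 h.ε0 num.Cc1 hB num.n5 num.n5' π rfl rfl
  have hadm := fun e' he' => k4e_s8_adm h num e' (hlowcut e' he')
  obtain ⟨ty, hty⟩ := k4e_s9_mass h num J L hL hβ
  refine ⟨k4eOut Yc S' π J L ty, k4eThk π ty, k4e_s9_wf h num J L hL (fun e' he' => (hadm e' he').1) ty, rfl,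
    k4e_s9_geo h num J L ht (fun e' he' => (hadm e' he').2) ty, ?_, k4e_s9_known h num J L hL ty, hty, k4e_s9_tmp Yc S' π h.K1 J L ty⟩
  unfold k4eThk
  cases ty
  · right; simp
  · left; simp

/-- arithmetic of the polynomial bound -/
theorem k4e_tmp_arith (j : ℕ) (hj : j ≤ 2) (c K Λ X Nz : ℝ) (k : ℕ) (hc : 0 ≤ c) (hK1 : 1 ≤ K) (hKΛ : K ≤ Λ) (hΛ : 196 ≤ Λ) (hX1 : 1 ≤ X) (hX : X ≤ Λ ^ k)
    (hNz0 : 0 ≤ Nz) (hNz : Nz ≤ (K + 1) * X + 1) :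
    4 * c * X * (2 * Nz + 1) ^ j + X * X + K + 3 ≤ (c + 2) * Λ ^ (3 * k + 3) := by
  have hΛ1 : 1 ≤ Λ := by linarith
  have hΛk : 1 ≤ Λ ^ k := one_le_pow₀ hΛ1
  have e1 : Λ ^ (3 * k + 3) = Λ ^ 3 * (Λ ^ k) ^ 3 := by rw [pow_add, pow_mul, mul_comm, ← pow_mul, ← pow_mul, mul_comm k 3]
  have h1 : 2 * Nz + 1 ≤ 7 * Λ * X := by nlinarith
  have h2 : (2 * Nz + 1) ^ j ≤ (7 * Λ * X) ^ 2 := by
    calc (2 * Nz + 1) ^ j ≤ (7 * Λ * X) ^ j := pow_le_pow_left₀ (by linarith) h1 j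
      _ ≤ (7 * Λ * X) ^ 2 := pow_le_pow_right₀ (by nlinarith) hj
  have hX3 : X ^ 3 ≤ (Λ ^ k) ^ 3 := pow_le_pow_left₀ (by linarith) hX 3
  have hY3 : 1 ≤ (Λ ^ k) ^ 3 := one_le_pow₀ hΛk
  have h3 : 4 * c * X * (2 * Nz + 1) ^ j ≤ c * (Λ ^ 3 * (Λ ^ k) ^ 3) := by
    calc 4 * c * X * (2 * Nz + 1) ^ j ≤ 4 * c * X * (7 * Λ * X) ^ 2 := by gcongr
      _ = c * (196 * Λ ^ 2 * X ^ 3) := by ring
      _ ≤ c * (Λ * Λ ^ 2 * (Λ ^ k) ^ 3) := by gcongr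
      _ = c * (Λ ^ 3 * (Λ ^ k) ^ 3) := by ring
  have h4 : X * X ≤ Λ ^ 3 * (Λ ^ k) ^ 3 := by
    have a1 : X * X ≤ X ^ 3 := by nlinarith
    have a2 : (1 : ℝ) ≤ Λ ^ 3 := one_le_pow₀ hΛ1
    nlinarith
  have h5 : K + 3 ≤ Λ ^ 3 * (Λ ^ k) ^ 3 := by
    have a2 : 4 * Λ ≤ Λ ^ 3 := by
      have : (4 : ℝ) ≤ Λ ^ 2 := by nlinarith
      calc 4 * Λ ≤ Λ ^ 2 * Λ := by gcongr
        _ = Λ ^ 3 := by ring
    have a3 : Λ ^ 3 * 1 ≤ Λ ^ 3 * (Λ ^ k) ^ 3 := by gcongr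
    linarith
  rw [e1]
  nlinarith

/-- **THE CORE OF S4E WITH POLYNOMIAL BOUNDS.**   Same as `k4e_core`, with `Y'.Tmp ((card Yc.C + 2) Λ^(3k+3))`. -/
theorem k4e_core2 (v : KbVer) (m : ℕ) (Crem Cc ε : ℝ) (hCrem : 1 ≤ Crem) (hCc : 1 ≤ Cc) (hε : 0 < ε) (hε1 : ε ≤ 1 / 2) :
    ∃ k : ℕ, ∀ (P : KbPb v) (Yc : KbSys P) (S' : Yc.C → Set (P.Lam × ℝ)) (π₀ : K4ePar), π₀.ε = ε → π₀.m = m → K4eHyp Yc S' π₀ → (k : ℝ) ≤ π₀.Lm → π₀.Lm ^ k ≤ π₀.R →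
      K4eMatch (v.j + 1) π₀.d ε π₀.R → K4eRemez (v.j + 1) Crem → K4eCode (v.j + 1) m Cc → ENNReal.ofReal (1 / π₀.Lm) ≤ k4eBeta Yc S' →
      ∃ (Y' : KbSys P) (a'' : ℝ) (rn : ℕ), rn ≤ k ∧ Y'.WF ∧ π₀.Lm ^ (-(k : ℝ)) ≤ Y'.q ∧ Y'.Geo (6 * Cc + π₀.K + 4) a'' ∧
        (a'' = π₀.R ^ (-(2 * ε / 3)) ∨ a'' = π₀.R ^ (-(ε / 3))) ∧
        Y'.Known (P.hid π₀.aL) (2 * (2 * π₀.K + 5) ^ v.j * (2 * (rn : ℝ) + 1) ^ m) ∧ k4eBeta Yc S' ≤ 4 * Y'.mass ∧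
        Y'.Tmp (((Fintype.card Yc.C : ℝ) + 2) * π₀.Lm ^ (3 * k + 3)) := by
  obtain ⟨C1, hC1, hpar⟩ := k4e_core_par2 v
  obtain ⟨k, hk⟩ := k4e_num_exists v C1 Crem Cc ε hC1 hCrem hCc hε hε1
  refine ⟨max k 196, ?_⟩
  intro P Yc S' π₀ hε0 hm h hkL hLR hub hrem hcode hβ
  have hkk : k ≤ max k 196 := le_max_left _ _
  have hΛ196 : (196 : ℝ) ≤ π₀.Lm := by
    refine le_trans ?_ hkL
    exact_mod_cast le_max_right k 196
  have hΛ1 : 1 ≤ π₀.Lm := by linarith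
  have hkL' : (k : ℝ) ≤ π₀.Lm := le_trans (by exact_mod_cast hkk) hkL
  have hLR' : π₀.Lm ^ k ≤ π₀.R := (pow_le_pow_right₀ hΛ1 hkk).trans hLR
  obtain ⟨n', τ, L2, rn, hnum, hq, hrn⟩ := hk π₀ hε0 h.K1 h.KL hkL' hLR' h.d0
  subst hε0 hm
  obtain ⟨Y', a'', hwf, hn, hgeo, ha, hknown, hmass, htmp⟩ := hpar P Yc S' { π₀ with n' := n', τ := τ, rn := rn } Crem Cc L2
    (k4e_hyp_congr h n' τ rn) hnum hub hrem hcode hβ
  have hq' : π₀.Lm ^ (-((max k 196 : ℕ) : ℝ)) ≤ kbQ n' := by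
    refine le_trans (Real.rpow_le_rpow_of_exponent_le hΛ1 ?_) hq
    have : (k : ℝ) ≤ ((max k 196 : ℕ) : ℝ) := by exact_mod_cast hkk
    linarith
  refine ⟨Y', a'', rn, hrn.trans hkk, hwf, ?_, hgeo, ha, hknown, hmass, ?_⟩
  · unfold KbSys.q
    rw [hn]
    exact hq'
  · have hρ := k4e_kbQ_pos n'
    have hX : (2 : ℝ) ^ n' ≤ π₀.Lm ^ (max k 196) := by
      rw [Real.rpow_neg (by linarith), Real.rpow_natCast] at hq'
      have h1 := k4e_kbQ_mul_pow n'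
      have h2 : 0 < π₀.Lm ^ (max k 196) := by positivity
      have h3 : (2 : ℝ) ^ n' = (kbQ n')⁻¹ := eq_inv_of_mul_eq_one_right h1
      rw [h3]
      exact inv_le_of_inv_le₀ h2 hq'
    have hNz : (((⌈(π₀.K + 1) / kbQ n'⌉₊ : ℕ) : ℝ)) ≤ (π₀.K + 1) * 2 ^ n' + 1 := by
      have h1 := k4e_kbQ_mul_pow n'
      have h3 : (π₀.K + 1) / kbQ n' = (π₀.K + 1) * 2 ^ n' := by
        rw [div_eq_mul_inv, eq_inv_of_mul_eq_one_right h1]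
      rw [← h3]
      have := h.K1
      exact (Nat.ceil_lt_add_one (by positivity)).le
    have hb := k4e_tmp_arith v.j (k4e_ver_j_le v) (Fintype.card Yc.C : ℝ) π₀.K π₀.Lm (2 ^ n') ((⌈(π₀.K + 1) / kbQ n'⌉₊ : ℕ) : ℝ) (max k 196)
      (Nat.cast_nonneg _) h.K1 h.KL hΛ196 (one_le_pow₀ (by norm_num)) hX (Nat.cast_nonneg _) hNz
    have h4 : (4 : ℝ) ^ n' = 2 ^ n' * 2 ^ n' := by rw [← mul_pow]; norm_num
    have hle : 4 * (Fintype.card Yc.C : ℝ) * 2 ^ n' * (2 * ((⌈(π₀.K + 1) / kbQ n'⌉₊ : ℕ) : ℝ) + 1) ^ v.j + 4 ^ n' + π₀.K + 3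
        ≤ ((Fintype.card Yc.C : ℝ) + 2) * π₀.Lm ^ (3 * max k 196 + 3) := by
      rw [h4]
      exact hb
    have hYq : 0 < Y'.q := k4e_kbQ_pos _
    exact ⟨htmp.card.trans hle, htmp.q_low.trans (mul_le_mul_of_nonneg_right hle hYq.le),
      fun c => (htmp.J_low c).trans (mul_le_mul_of_nonneg_right hle (abs_nonneg _)), fun c => (htmp.cen c).trans hle⟩

end

end Claimed.Agent.R252
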