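import Claimed.Agent.R252.S4E.CoreTmp
import Claimed.Agent.R252.Norm.DenNorm
import Claimed.Agent.R252.S2s.Api
import Claimed.Agent.R252.S4C.CeilContract
import Claimed.Agent.R252.S4.Sam

/-!
# ROW 252 (S0492), unit S4E (sub-architect helper222), file 5: CONTRACT of THE EXIT: time candidates at a node of a guarded sample are IMPOSSIBLE  (04 l.1420-1730: normalise, `k4e_core2`, lift, `a03:final-coverage`, guard).

The `sorry`s are the leaves `L-252-S4E-X*`: prove IN PLACE, statement verbatim, helper lemmas directly above (prefix `k4e_`); every statement ABOVE yours (and all of `R252/Norm`, `S4E/Core*`) may be cited, proved or not.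
CHAIN.
1  `Y.k4eDn a Z par : KbSys (Y.norm a)`  PUSH-DOWN of a system `Z` of `P` which refines the node `Y` (same level; `par z` = the chart of `Y` which contains `z`): level `0`, worlds = charts of `Y`, test `T (t, y, w) / a` in the new coordinates.
2  `K4eNode` (the node, ACTUAL slack `K`), `K4eCand` (the candidates = OUTPUT OF S4D, analytical slack `Λ`), `K4eCap` (dimension cap at width `a/R`)   ⟹   `K4eHyp` for the push-down (`k4e_dn_hyp`).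
3  `k4e_exit_sys` : ONE scale, explicit slacks: the output system `Y.lift a Y'` of `P`.
4  `k4e_sam_node`, `k4e_sam_cap` : a guarded sample supplies `K4eNode`, `K4eCap`.
5  `k4e_exit` : **THE EXIT** (consumer: `KpHubUpgrade`, time branch).   `σ ≤ κ₀ c`, tolerance `τ₀` ⟹ `False`.
UNITS.  `a` = thickness of the node, `R = N^c`, candidates at thickness `a/R`, `aL` = terminal thickness of `P`, `aL/a` = terminal thickness of `Y.norm a`.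
-/

set_option autoImplicit false

namespace Claimed.Agent.R252

open MeasureTheory
open scoped ENNReal BigOperators Classical

noncomputable section

variable {v : KbVer}

/-! ## 1. the push-down -/

namespace KbSys

variable {P : KbPb v} (Y : KbSys P)

/-- old hidden coordinate of the new point `(τ, z, w')` of the chart `c` (inverse of `Y.wOf`) -/
def k4eWb (a : ℝ) (c : Y.C) (τ : ℝ) (z : KbB v) (w' : ℝ) : ℝ :=
  if v = KbVer.one then a * w' - (Y.ch c).T (Y.tOf c τ) (Y.yOf c τ z) 0 else w'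

/-- a test of `P` in the coordinates of the chart `c`, divided by `a` -/
def k4eDnT (a : ℝ) (c : Y.C) (T : KbTest v) : KbTest v := fun τ z w' => T (Y.tOf c τ) (Y.yOf c τ z) (Y.k4eWb a c τ z w') / a

/-- **the push-down** of a refinement `Z` of `Y` -/
def k4eDn (a : ℝ) (Z : KbSys P) (par : Z.C → Y.C) : KbSys (Y.norm a) where
  n := 0
  C := Z.C
  fC := Z.fC
  wd := par
  iv := fun _ => 0
  A := Z.A
  S := fun z => Y.incOf (par z) ⁻¹' Z.S z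
  ch := fun z => { y0 := 0, y1 := 0, D := 1, Di := 1, T := Y.k4eDnT a (par z) (Z.ch z).T }

theorem k4e_dn_pt (a : ℝ) (ha : a ≠ 0) (c : Y.C) (hadm : KbAdm (Y.ch c).T) (hinv : (Y.ch c).D * (Y.ch c).Di = 1) (l : P.Lam) (τ : ℝ) :
    Y.yOf c τ (kbY (Y.coN a c l) τ) = kbY (P.co (Y.wd c) l) (Y.tOf c τ) ∧
      Y.k4eWb a c τ (kbY (Y.coN a c l) τ) (kbW (Y.coN a c l) τ) = kbW (P.co (Y.wd c) l) (Y.tOf c τ) := by
  have h1 : Y.yOf c τ (kbY (Y.coN a c l) τ) = kbY (P.co (Y.wd c) l) (Y.tOf c τ) := by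
    rw [Y.k2n_Y_coN a c l τ, Y.k2n_yOf_zOf c hinv]
  refine ⟨h1, ?_⟩
  unfold k4eWb
  rw [h1, Y.k2n_W_coN a c hadm l τ]
  unfold wOf
  by_cases hv : v = KbVer.one
  · rw [if_pos hv, if_pos hv, mul_div_cancel₀ _ ha, hadm.2 hv]
    ring
  · rw [if_neg hv, if_neg hv]

/-- **LEAF L-252-S4E-X1**.  (`kbX`; `k2n_Y_coN`, `k2n_yOf_zOf`, `k2n_W_coN`; unfold `k4eDnT`, `k4eWb`, `wOf`; version 1: `T_c t y w = w + T_c t y 0` (`hadm.2`), `mul_div_cancel₀`.) -/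
theorem k4e_dn_X (a : ℝ) (ha : a ≠ 0) (c : Y.C) (hadm : KbAdm (Y.ch c).T) (hinv : (Y.ch c).D * (Y.ch c).Di = 1) (T : KbTest v) (l : P.Lam) (τ : ℝ) :
    kbX (Y.k4eDnT a c T) (Y.coN a c l) τ = kbX T (P.co (Y.wd c) l) (Y.tOf c τ) / a := by
  obtain ⟨h1, h2⟩ := Y.k4e_dn_pt a ha c hadm hinv l τ
  unfold kbX k4eDnT
  rw [h1, h2]

/-- **LEAF L-252-S4E-X1**.  (As `k4e_dn_X`.   Version 1: `T t y w = w + T t y 0` (`hT.2`), both derivatives are `1`.   Version 2: `k4eWb = w'`, `kbDw` commutes with `/ a`.) -/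
theorem k4e_dn_Dw (a : ℝ) (ha : a ≠ 0) (c : Y.C) (hadm : KbAdm (Y.ch c).T) (hinv : (Y.ch c).D * (Y.ch c).Di = 1) (T : KbTest v) (hT : KbAdm T) (l : P.Lam) (τ : ℝ) :
    kbX (kbDw (Y.k4eDnT a c T)) (Y.coN a c l) τ = (if v = KbVer.one then 1 else a⁻¹) * kbX (kbDw T) (P.co (Y.wd c) l) (Y.tOf c τ) := by
  obtain ⟨h1, h2⟩ := Y.k4e_dn_pt a ha c hadm hinv l τ
  unfold kbX kbDw k4eDnT
  rw [h1]
  by_cases hv : v = KbVer.one
  · rw [if_pos hv, hT.2 hv _ _ (Y.k4eWb a c τ _ _), hT.2 hv _ _ (Y.k4eWb a c τ _ _), hT.2 hv _ _ (_ + 1), hT.2 hv _ _ (_ - 1)]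
    unfold k4eWb
    rw [if_pos hv, if_pos hv]
    field_simp
    ring
  · unfold k4eWb at h2 ⊢
    rw [if_neg hv] at h2
    rw [if_neg hv, if_neg hv, if_neg hv, h2]
    field_simp

/-- **LEAF L-252-S4E-X1**.  (Version 1: the push-down is `w' + …`, second difference `0`.) -/
theorem k4e_dn_Dww (a : ℝ) (ha : a ≠ 0) (c : Y.C) (T : KbTest v) (hT : KbAdm T) (τ : ℝ) (z : KbB v) (w' : ℝ) :
    kbDww (Y.k4eDnT a c T) τ z w' = (if v = KbVer.one then 0 else a⁻¹) * kbDww T (Y.tOf c τ) (Y.yOf c τ z) w' := by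
  unfold kbDww k4eDnT
  by_cases hv : v = KbVer.one
  · rw [if_pos hv, hT.2 hv _ _ (Y.k4eWb a c τ _ _), hT.2 hv _ _ (Y.k4eWb a c τ _ _), hT.2 hv _ _ (Y.k4eWb a c τ _ _)]
    unfold k4eWb
    rw [if_pos hv, if_pos hv, if_pos hv]
    field_simp
    ring
  · unfold k4eWb
    rw [if_neg hv, if_neg hv, if_neg hv, if_neg hv]
    field_simp

/-- a quadratic test in the base coordinates of the chart `c` -/
theorem k4e_dn_quad (c : Y.C) {T : KbTest v} (hT : KbIsQuad T) (s : ℝ) : KbIsQuad fun τ z w => s * T (Y.tOf c τ) (Y.yOf c τ z) w := by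
  have h := k2n_quad_subst hT s (Y.tc c) Y.q ((Y.ch c).y0 + Y.tc c • (Y.ch c).y1) (Y.q • (Y.ch c).y1) (Y.ch c).D
  have e : ∀ τ z, (Y.ch c).y0 + Y.tc c • (Y.ch c).y1 + τ • Y.q • (Y.ch c).y1 + (Y.ch c).D.mulVec z = Y.yOf c τ z := by
    intro τ z
    unfold yOf KbChart.yc tOf
    rw [add_smul, mul_comm Y.q τ, mul_smul, add_assoc ((Y.ch c).y0)]
  have e2 : (fun τ z w => s * T (Y.tOf c τ) (Y.yOf c τ z) w) =
      fun τ z w => s * T (Y.tc c + Y.q * τ) ((Y.ch c).y0 + Y.tc c • (Y.ch c).y1 + τ • Y.q • (Y.ch c).y1 + (Y.ch c).D.mulVec z) w := by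
    funext τ z w
    rw [e]
    rfl
  rw [e2]
  exact h

/-- **LEAF L-252-S4E-X2**.  The push-down of an admissible test is admissible.
PROOF.  `Y.tOf c τ = tc + q τ`, `Y.yOf c τ z = (y0 + tc • y1) + τ • (q • y1) + D.mulVec z`: `k2n_quad_subst` with `s = a⁻¹`.   Version 2: this is the test.   Version 1: `T' = w' + a⁻¹ T(t,y,0) - a⁻¹ T_c(t,y,0)`:
`k2n_quad_w`, `k2n_quad_zero`, `k2n_quad_subst` (`s = a⁻¹`, `s = -a⁻¹`), `k2n_quad_add`. -/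
theorem k4e_dn_adm (a : ℝ) (ha : a ≠ 0) (c : Y.C) (hadm : KbAdm (Y.ch c).T) (T : KbTest v) (hT : KbAdm T) : KbAdm (Y.k4eDnT a c T) := by
  by_cases hv : v = KbVer.one
  · have e : ∀ τ z w', Y.k4eDnT a c T τ z w' = w' + a⁻¹ * T (Y.tOf c τ) (Y.yOf c τ z) 0 + -a⁻¹ * (Y.ch c).T (Y.tOf c τ) (Y.yOf c τ z) 0 := by
      intro τ z w'
      unfold k4eDnT k4eWb
      rw [if_pos hv, hT.2 hv]
      field_simp
      ring
    refine ⟨?_, fun _ τ z w' => ?_⟩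
    · have h1 := k2n_quad_add (k2n_quad_add (k2n_quad_w (v := v)) (Y.k4e_dn_quad c (k2n_quad_zero hT.1) a⁻¹)) (Y.k4e_dn_quad c (k2n_quad_zero hadm.1) (-a⁻¹))
      have e2 : Y.k4eDnT a c T = fun τ z w' => w' + a⁻¹ * T (Y.tOf c τ) (Y.yOf c τ z) 0 + -a⁻¹ * (Y.ch c).T (Y.tOf c τ) (Y.yOf c τ z) 0 := by
        funext τ z w'
        exact e τ z w'
      rw [e2]
      exact h1
    · rw [e, e τ z 0]
      ring
  · refine ⟨?_, fun h => absurd h hv⟩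
    have e2 : Y.k4eDnT a c T = fun τ z w' => a⁻¹ * T (Y.tOf c τ) (Y.yOf c τ z) w' := by
      funext τ z w'
      unfold k4eDnT k4eWb
      rw [if_neg hv, div_eq_inv_mul]
    rw [e2]
    exact Y.k4e_dn_quad c hT.1 a⁻¹

end KbSys

/-! ## 2. node, candidates, cap -/

variable {P : KbPb v}

/-- **a path node** with ACTUAL slack `K`, thickness `a`; `aL` = terminal thickness -/
structure K4eNode (P : KbPb v) (Y : KbSys P) (a K aL : ℝ) : Prop where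
  pwf : P.WF
  ywf : Y.WF
  geo : Y.Geo K a
  big : Y.Big K
  known : Y.Known (P.hid aL) K
  nu0 : ∀ c, Y.nuC c ≠ 0
  a0 : 0 < a
  K1 : 1 ≤ K

/-- **time candidates in the charts of the node `Y`** (= the output of S4D): `Z` has the level, worlds and intervals of `Y`; tests at thickness `a/R` with analytical slack `Λ`; every label carries the greedy threshold. -/
structure K4eCand (P : KbPb v) (Y Z : KbSys P) (par : Z.C → Y.C) (a Λ R d : ℝ) : Prop where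
  wf : Z.WF
  n_eq : Z.n = Y.n
  wd_eq : ∀ z, Z.wd z = Y.wd (par z)
  iv_eq : ∀ z, Z.iv z = Y.iv (par z)
  A_sub : ∀ z, Z.A z ⊆ Y.A (par z)
  S_sub : ∀ z, Z.S z ⊆ Y.S (par z)
  val : ∀ z, ∀ l ∈ Z.A z, ∀ t ∈ Z.I z, |kbX (Z.ch z).T (P.co (Z.wd z) l) t| ≤ Λ * (a / R)
  dw : ∀ z, ∀ l ∈ Z.A z, ∀ t ∈ Z.I z, |kbX (kbDw (Z.ch z).T) (P.co (Z.wd z) l) t| ≤ Λ * P.B (Z.wd z)
  dw_low : ∀ z, ∀ x ∈ Z.S z, P.B (Z.wd z) ≤ Λ * |kbX (kbDw (Z.ch z).T) (P.co (Z.wd z) x.1) x.2|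
  dww : ∀ z t y w, |kbDww (Z.ch z).T t y w| * (a / R) ≤ Λ * P.B (Z.wd z) ^ 2
  floor : ∀ z, ENNReal.ofReal (Y.q * R ^ (-d) / Λ) * Y.nuC (par z) ≤ Z.mC z

/-- **the dimension cap** of `P` at width `a/R`, compared with the charts of the node -/
def K4eCap (P : KbPb v) (Y : KbSys P) (a Λ R d : ℝ) : Prop :=
  ∃ κ : ℝ, 0 ≤ κ ∧ (∀ γ k, P.part (P.hid (a / R)) γ k ≤ ENNReal.ofReal κ • volume) ∧
    ∀ c, ENNReal.ofReal (3 * κ * (Y.ch c).J) ≤ ENNReal.ofReal (Λ * R ^ (-d)) * Y.nuC c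

theorem k4e_dn_I {Y Z : KbSys P} {par : Z.C → Y.C} {a Λ R d : ℝ} (hC : K4eCand P Y Z par a Λ R d) (z : Z.C) : Z.I z = Y.I (par z) := by
  unfold KbSys.I
  rw [hC.n_eq, hC.iv_eq]

/-- **LEAF L-252-S4E-X3**.  Structure of the push-down.
PROOF.  `iv_lt`: `0 < 2^0`.   `A_meas`, `A_sub` (`(Y.norm a).Sp c = Y.A c`), `A_disj` (same parent ⟹ same world and interval of `Z`: `wd_eq`, `iv_eq`, `hC.wf.A_disj`).   `S_meas`: `k2n_inc_meas`.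
`S_sub`: `(Y.norm a).Ev c = incOf ⁻¹' Y.S c` (`hC.S_sub`); `x.1 ∈ Z.A z` and `tOf c x.2 ∈ Z.I z = Y.I c` (`hC.wf.S_sub`, `n_eq`, `iv_eq`), `k2n_tOf_mem_I`, `kbI 0 0 = Ico 0 1`.   `inv`: `one_mul`.   `adm`: `k4e_dn_adm`. -/
theorem k4e_dn_wf {Y Z : KbSys P} {par : Z.C → Y.C} {a K aL Λ R d : ℝ} (hN : K4eNode P Y a K aL) (hC : K4eCand P Y Z par a Λ R d) : (Y.k4eDn a Z par).WF := by
  refine
    { iv_lt := fun z => by
        show 0 < 2 ^ 0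
        norm_num
      A_meas := fun z => hC.wf.A_meas z
      A_sub := fun z => hC.A_sub z
      A_disj := fun z z' hne hw _ => hC.wf.A_disj z z' hne ((hC.wd_eq z).trans ((congrArg Y.wd hw).trans (hC.wd_eq z').symm))
        ((hC.iv_eq z).trans ((congrArg Y.iv hw).trans (hC.iv_eq z').symm))
      S_meas := fun z => (Y.k2n_inc_meas (par z)) (hC.wf.S_meas z)
      S_sub := fun z x hx => ?_
      inv := fun z => one_mul _
      adm := fun z => Y.k4e_dn_adm a hN.a0.ne' (par z) (hN.ywf.adm _) _ (hC.wf.adm z) }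
  have hx' : Y.incOf (par z) x ∈ Z.S z := hx
  have h1 := hC.wf.S_sub z hx'
  have h2 : Y.tOf (par z) x.2 ∈ Z.I z := h1.2.2
  rw [k4e_dn_I hC z, Y.k2n_tOf_mem_I] at h2
  refine ⟨hC.S_sub z hx', h1.2.1, ?_⟩
  show x.2 ∈ kbI 0 0
  unfold kbI kbQ
  simpa using h2

/-- **LEAF L-252-S4E-X4**.  The four test bounds in the new units `B' = (Y.norm a).B c` (`= 1`, resp. `P.B / a`).
PROOF.  `τ ∈ Ico 0 1 ↔ tOf c τ ∈ Y.I c = Z.I z`; `k4e_dn_X`, `k4e_dn_Dw`, `k4e_dn_Dww`; rewrite `Z.wd z = Y.wd (par z)`; divide by `a > 0`.   Version 1: `P.B = 1` (`pwf.v1`).   `dww`: `|T_ww| / a ≤ Λ B² R / a² = Λ R B'²`. -/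
theorem k4e_dn_tests {Y Z : KbSys P} {par : Z.C → Y.C} {a K aL Λ R d : ℝ} (hN : K4eNode P Y a K aL) (hC : K4eCand P Y Z par a Λ R d) (hR : 0 < R) (hΛ : 0 ≤ Λ) (z : Z.C) :
    (∀ l ∈ Z.A z, ∀ τ ∈ Set.Ico (0 : ℝ) 1, |kbX (Y.k4eDnT a (par z) (Z.ch z).T) (Y.coN a (par z) l) τ| ≤ Λ / R) ∧
    (∀ l ∈ Z.A z, ∀ τ ∈ Set.Ico (0 : ℝ) 1, |kbX (kbDw (Y.k4eDnT a (par z) (Z.ch z).T)) (Y.coN a (par z) l) τ| ≤ Λ * (Y.norm a).B (par z)) ∧
    (∀ x ∈ Y.incOf (par z) ⁻¹' Z.S z, (Y.norm a).B (par z) ≤ Λ * |kbX (kbDw (Y.k4eDnT a (par z) (Z.ch z).T)) (Y.coN a (par z) x.1) x.2|) ∧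
    ∀ τ ζ w, |kbDww (Y.k4eDnT a (par z) (Z.ch z).T) τ ζ w| ≤ Λ * R * (Y.norm a).B (par z) ^ 2 := by
  have ha := hN.a0
  have hadm := hN.ywf.adm (par z)
  have hinv := hN.ywf.inv (par z)
  have hT := hC.wf.adm z
  have hI : ∀ τ ∈ Set.Ico (0 : ℝ) 1, Y.tOf (par z) τ ∈ Z.I z := fun τ hτ => by
    rw [k4e_dn_I hC z, Y.k2n_tOf_mem_I]
    exact hτ
  have hB : (Y.norm a).B (par z) = if v = KbVer.one then 1 else P.B (Y.wd (par z)) / a := rfl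
  have hw := hC.wd_eq z
  refine ⟨fun l hl τ hτ => ?_, fun l hl τ hτ => ?_, fun x hx => ?_, fun τ ζ w => ?_⟩
  · rw [Y.k4e_dn_X a ha.ne' _ hadm hinv, abs_div, abs_of_pos ha, div_le_iff₀ ha]
    have h1 := hC.val z l hl _ (hI τ hτ)
    rw [hw] at h1
    refine h1.trans (le_of_eq ?_)
    field_simp
  · rw [Y.k4e_dn_Dw a ha.ne' _ hadm hinv _ hT, hB]
    have h1 := hC.dw z l hl _ (hI τ hτ)
    rw [hw] at h1
    by_cases hv : v = KbVer.one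
    · rw [if_pos hv, if_pos hv, one_mul]
      rwa [(hN.pwf.v1 hv _).1] at h1
    · rw [if_neg hv, if_neg hv, abs_mul, abs_of_pos (inv_pos.2 ha)]
      calc a⁻¹ * |kbX (kbDw (Z.ch z).T) (P.co (Y.wd (par z)) l) (Y.tOf (par z) τ)| ≤ a⁻¹ * (Λ * P.B (Y.wd (par z))) :=
            mul_le_mul_of_nonneg_left h1 (inv_pos.2 ha).le
        _ = Λ * (P.B (Y.wd (par z)) / a) := by
            field_simp
  · rw [Y.k4e_dn_Dw a ha.ne' _ hadm hinv _ hT, hB]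
    have h1 := hC.dw_low z (Y.incOf (par z) x) hx
    rw [hw] at h1
    have h1' : P.B (Y.wd (par z)) ≤ Λ * |kbX (kbDw (Z.ch z).T) (P.co (Y.wd (par z)) x.1) (Y.tOf (par z) x.2)| := h1
    by_cases hv : v = KbVer.one
    · rw [if_pos hv, if_pos hv, one_mul]
      rwa [(hN.pwf.v1 hv _).1] at h1'
    · rw [if_neg hv, if_neg hv, abs_mul, abs_of_pos (inv_pos.2 ha)]
      calc P.B (Y.wd (par z)) / a ≤ (Λ * |kbX (kbDw (Z.ch z).T) (P.co (Y.wd (par z)) x.1) (Y.tOf (par z) x.2)|) / a :=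
            div_le_div_of_nonneg_right h1' ha.le
        _ = Λ * (a⁻¹ * |kbX (kbDw (Z.ch z).T) (P.co (Y.wd (par z)) x.1) (Y.tOf (par z) x.2)|) := by
            field_simp
  · rw [Y.k4e_dn_Dww a ha.ne' _ _ hT, hB]
    by_cases hv : v = KbVer.one
    · rw [if_pos hv, if_pos hv, zero_mul, abs_zero]
      positivity
    · rw [if_neg hv, if_neg hv, abs_mul, abs_of_pos (inv_pos.2 ha)]
      have h1 := hC.dww z (Y.tOf (par z) τ) (Y.yOf (par z) τ ζ) w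
      rw [hw] at h1
      have h2 : |kbDww (Z.ch z).T (Y.tOf (par z) τ) (Y.yOf (par z) τ ζ) w| ≤ Λ * P.B (Y.wd (par z)) ^ 2 * (R / a) := by
        have h3 : 0 < a / R := div_pos ha hR
        rw [← le_div_iff₀ h3] at h1
        refine h1.trans (le_of_eq ?_)
        field_simp
      calc a⁻¹ * |kbDww (Z.ch z).T (Y.tOf (par z) τ) (Y.yOf (par z) τ ζ) w| ≤ a⁻¹ * (Λ * P.B (Y.wd (par z)) ^ 2 * (R / a)) :=
            mul_le_mul_of_nonneg_left h2 (inv_pos.2 ha).le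
        _ = Λ * R * (P.B (Y.wd (par z)) / a) ^ 2 := by
            field_simp

/-- **LEAF L-252-S4E-X5**.  Masses of the push-down.   (`k2n_mu_norm_apply` with `U = Z.S z`, `Z.S z ∩ Y.S c = Z.S z`; `wd_eq`.) -/
theorem k4e_dn_mC {Y Z : KbSys P} {par : Z.C → Y.C} {a K aL Λ R d : ℝ} (hN : K4eNode P Y a K aL) (hC : K4eCand P Y Z par a Λ R d) (z : Z.C) :
    (Y.k4eDn a Z par).mC z = (ENNReal.ofReal Y.q * Y.nuC (par z))⁻¹ * Z.mC z := by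
  have h1 := Y.k2n_mu_norm_apply hN.pwf hN.ywf a (par z) (Z.S z) (hC.wf.S_meas z)
  rw [Set.inter_eq_left.2 (hC.S_sub z), ← hC.wd_eq z] at h1
  exact h1

theorem k4e_dn_X0 {Y : KbSys P} {a K aL : ℝ} (hN : K4eNode P Y a K aL) (c : Y.C) :
    (ENNReal.ofReal Y.q * Y.nuC c) * (ENNReal.ofReal Y.q * Y.nuC c)⁻¹ = 1 :=
  ENNReal.mul_inv_cancel (mul_ne_zero (ENNReal.ofReal_pos.2 Y.k2n_q_pos).ne' (hN.nu0 c)) (ENNReal.mul_ne_top ENNReal.ofReal_ne_top (Y.k2n_nuC_ne_top hN.pwf c))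

/-- **LEAF L-252-S4E-X5**.  (`k4e_dn_mC`; `(Y.norm a).om c = ω q ν_c / Z`; `q ν_c ≠ 0, ∞` (`k2n_q_pos`, `nu0`, `k2n_nuC_ne_top`): `ENNReal.mul_inv_cancel`; `Finset.sum_div`/`ENNReal.div_eq_inv_mul`.) -/
theorem k4e_dn_mass {Y Z : KbSys P} {par : Z.C → Y.C} {a K aL Λ R d : ℝ} (hN : K4eNode P Y a K aL) (hC : K4eCand P Y Z par a Λ R d) :
    (Y.k4eDn a Z par).mass = Z.mass / Y.Z := by
  unfold KbSys.mass
  rw [div_eq_mul_inv, Finset.sum_mul]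
  refine Finset.sum_congr rfl fun z _ => ?_
  rw [k4e_dn_mC hN hC z]
  show P.om (Y.wd (par z)) * ENNReal.ofReal Y.q * Y.nuC (par z) / Y.Z * ((ENNReal.ofReal Y.q * Y.nuC (par z))⁻¹ * Z.mC z) = _
  rw [hC.wd_eq z]
  calc P.om (Y.wd (par z)) * ENNReal.ofReal Y.q * Y.nuC (par z) / Y.Z * ((ENNReal.ofReal Y.q * Y.nuC (par z))⁻¹ * Z.mC z)
      = P.om (Y.wd (par z)) * Z.mC z * Y.Z⁻¹ * ((ENNReal.ofReal Y.q * Y.nuC (par z)) * (ENNReal.ofReal Y.q * Y.nuC (par z))⁻¹) := by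
        rw [div_eq_mul_inv]
        ring
    _ = P.om (Y.wd (par z)) * Z.mC z * Y.Z⁻¹ := by rw [k4e_dn_X0 hN, mul_one]

/-- **LEAF L-252-S4E-X5**.  The greedy threshold in the new units.   (`k4e_dn_mC`, `hC.floor`: `ofReal (q R^{-d}/Λ) = ofReal q * ofReal (R^{-d}/Λ)`, cancel `q ν_c`.) -/
theorem k4e_dn_floor {Y Z : KbSys P} {par : Z.C → Y.C} {a K aL Λ R d : ℝ} (hN : K4eNode P Y a K aL) (hC : K4eCand P Y Z par a Λ R d) (hR : 0 < R) (hΛ : 0 < Λ) (z : Z.C) :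
    ENNReal.ofReal (R ^ (-d) / Λ) ≤ (Y.k4eDn a Z par).mC z := by
  rw [k4e_dn_mC hN hC z]
  have h1 := hC.floor z
  rw [mul_div_assoc, ENNReal.ofReal_mul Y.k2n_q_pos.le] at h1
  calc ENNReal.ofReal (R ^ (-d) / Λ)
      = (ENNReal.ofReal Y.q * Y.nuC (par z))⁻¹ * (ENNReal.ofReal Y.q * ENNReal.ofReal (R ^ (-d) / Λ) * Y.nuC (par z)) := by
        have e : (ENNReal.ofReal Y.q * Y.nuC (par z))⁻¹ * (ENNReal.ofReal Y.q * ENNReal.ofReal (R ^ (-d) / Λ) * Y.nuC (par z)) =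
            ENNReal.ofReal (R ^ (-d) / Λ) * ((ENNReal.ofReal Y.q * Y.nuC (par z)) * (ENNReal.ofReal Y.q * Y.nuC (par z))⁻¹) := by ring
        rw [e, k4e_dn_X0 hN, mul_one]
    _ ≤ (ENNReal.ofReal Y.q * Y.nuC (par z))⁻¹ * Z.mC z := by gcongr

/-- **LEAF L-252-S4E-X6** (a03:candidate-marginal, "use the cap and the Jacobian `q_s J_s`").  The cap in the normalised problem.
PROOF.  `Measure.le_iff`; `U'` measurable.   `part' c k U' = mu' c (hid'⁻¹{k} ∩ bs'⁻¹ U')` (`Measure.map_apply`, `Measure.restrict_apply`; measurability of `bs'`, `hid'` from `(k2n_norm_WF ..).co_meas`) `= (q ν_c)⁻¹ μ (back⁻¹(..) ∩ Y.S c)` (`k2n_mu_norm_apply'`);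
`bs' (back x) = Ψ (bs x)` (`k2n_bs_back`);   `k4c_ceil_cover` with `ℓ = P.hid (a * (1/R))`, `ℓ' = hid' ∘ back`, `n = 3`, list of `k2n_hid_cover`, ceiling `κ` (from `hκ`: `K4cCeil` = `part ≤ κ vol` evaluated on measurable sets), `U = Ψ⁻¹ U'`:
`≤ 3 κ vol (Ψ⁻¹ U') = 3 κ q J_c vol U'` (`k2n_Psi_map`, `k2n_Psi_meas`).   Then `hJ` and cancel `q ν_c`. -/
theorem k4e_dn_cap {Y : KbSys P} {a K aL Λ R d : ℝ} (hN : K4eNode P Y a K aL) (hcap : K4eCap P Y a Λ R d) (hR : 0 < R) (hZ : Y.Z ≠ 0) (c : Y.C) (k : ℤ) :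
    (Y.norm a).part ((Y.norm a).hid (1 / R)) c k ≤ ENNReal.ofReal (Λ * R ^ (-d)) • volume := by
  obtain ⟨κ, hκ0, hκ, hJ⟩ := hcap
  have hP' := Y.k2n_norm_WF hN.pwf hN.ywf a hN.a0 hN.nu0 hZ
  have hinv := hN.ywf.inv c
  have hadm := hN.ywf.adm c
  have hq := Y.k2n_q_pos
  refine Measure.le_iff.2 fun U' hU' => ?_
  have hbs' : Measurable ((Y.norm a).bs c) := k2a_bs_meas hP' c
  have hhid' : MeasurableSet ((Y.norm a).hid (1 / R) c ⁻¹' {k}) := k2a_hid_meas hP' (1 / R) c k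
  unfold KbPb.part
  rw [Measure.map_apply hbs' hU', Measure.restrict_apply (hbs' hU'), Y.k2n_mu_norm_apply' hN.pwf hN.ywf a c _ ((hbs' hU').inter hhid'),
    Measure.smul_apply, smul_eq_mul]
  obtain ⟨Lst, hL1, hL2, hL3⟩ := Y.k2n_hid_cover hN.pwf a (1 / R) hN.a0 (by positivity) c hadm
  have hceil : K4cCeil (P.mu (Y.wd c)) volume (P.bs (Y.wd c)) (P.hid (a * (1 / R)) (Y.wd c)) (ENNReal.ofReal κ) := by
    intro d' U hU
    have h1 := Measure.le_iff.1 (hκ (Y.wd c) d') U hU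
    unfold KbPb.part at h1
    rw [Measure.map_apply (k2a_bs_meas hN.pwf _) hU, Measure.restrict_apply ((k2a_bs_meas hN.pwf _) hU), Measure.smul_apply, smul_eq_mul] at h1
    rw [mul_one_div, Set.inter_comm]
    exact h1
  have key := k4c_ceil_cover (ℓ' := fun x => (Y.norm a).hid (1 / R) c (Y.k2nBack c x)) hceil 3 Lst hL1 hL2 Set.univ (fun x _ => hL3 x) k
    (Y.k2nPsi c ⁻¹' U') (Y.k2n_Psi_meas c hU')
  have hvol : volume (Y.k2nPsi c ⁻¹' U') = ENNReal.ofReal Y.q * ENNReal.ofReal (Y.ch c).J * volume U' := by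
    rw [← Measure.map_apply (Y.k2n_Psi_meas c) hU', Y.k2n_Psi_map c hinv, Measure.smul_apply, smul_eq_mul, ENNReal.ofReal_mul hq.le]
  have hsub : Y.k2nBack c ⁻¹' ((Y.norm a).bs c ⁻¹' U' ∩ (Y.norm a).hid (1 / R) c ⁻¹' {k}) ∩ Y.S c ⊆
      Set.univ ∩ (fun x => (Y.norm a).hid (1 / R) c (Y.k2nBack c x)) ⁻¹' {k} ∩ P.bs (Y.wd c) ⁻¹' (Y.k2nPsi c ⁻¹' U') := by
    rintro x ⟨⟨h1, h2⟩, -⟩
    refine ⟨⟨trivial, h2⟩, ?_⟩
    show Y.k2nPsi c (P.bs (Y.wd c) x) ∈ U'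
    rw [← Y.k2n_bs_back a c x]
    exact h1
  have hJ0 : 0 ≤ (Y.ch c).J := abs_nonneg _
  have e3 : (3 : ℝ≥0∞) * ENNReal.ofReal κ * ENNReal.ofReal (Y.ch c).J = ENNReal.ofReal (3 * κ * (Y.ch c).J) := by
    rw [ENNReal.ofReal_mul (by positivity), ENNReal.ofReal_mul (by norm_num)]
    norm_num
  have hqν0 : ENNReal.ofReal Y.q * Y.nuC c ≠ 0 := mul_ne_zero (by simpa using hq) (hN.nu0 c)
  have hqνt : ENNReal.ofReal Y.q * Y.nuC c ≠ ∞ := ENNReal.mul_ne_top ENNReal.ofReal_ne_top (Y.k2n_nuC_ne_top hN.pwf c)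
  calc (ENNReal.ofReal Y.q * Y.nuC c)⁻¹ * P.mu (Y.wd c) (Y.k2nBack c ⁻¹' ((Y.norm a).bs c ⁻¹' U' ∩ (Y.norm a).hid (1 / R) c ⁻¹' {k}) ∩ Y.S c)
      ≤ (ENNReal.ofReal Y.q * Y.nuC c)⁻¹ * ((3 : ℕ) * ENNReal.ofReal κ * volume (Y.k2nPsi c ⁻¹' U')) := by
        gcongr
        exact (measure_mono hsub).trans key
    _ = (ENNReal.ofReal Y.q * Y.nuC c)⁻¹ * (ENNReal.ofReal Y.q * (3 * ENNReal.ofReal κ * ENNReal.ofReal (Y.ch c).J) * volume U') := by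
        rw [hvol]
        push_cast
        ring
    _ ≤ (ENNReal.ofReal Y.q * Y.nuC c)⁻¹ * (ENNReal.ofReal Y.q * (ENNReal.ofReal (Λ * R ^ (-d)) * Y.nuC c) * volume U') := by
        rw [e3]
        gcongr
        exact hJ c
    _ = (ENNReal.ofReal Y.q * Y.nuC c)⁻¹ * (ENNReal.ofReal Y.q * Y.nuC c) * (ENNReal.ofReal (Λ * R ^ (-d)) * volume U') := by ring
    _ = ENNReal.ofReal (Λ * R ^ (-d)) * volume U' := by rw [ENNReal.inv_mul_cancel hqν0 hqνt, one_mul]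

/-- `Z ≠ 0` for a node (`k2n_mass_le_Z`, `big`) -/
theorem k4e_node_Z {Y : KbSys P} {a K aL : ℝ} (hN : K4eNode P Y a K aL) : Y.Z ≠ 0 := by
  intro h0
  have h1 := Y.k2n_mass_le_Z hN.pwf hN.ywf
  rw [h0, nonpos_iff_eq_zero] at h1
  have h2 := hN.big
  unfold KbSys.Big at h2
  rw [h1, mul_zero] at h2
  exact absurd h2 (by simp)

/-- **LEAF L-252-S4E-X7** (assembly, ~60 l.): the push-down satisfies the input of the core.   (`k2n_norm_WF`, `k2n_norm_Ntv`, `k4e_node_Z`, `k4e_dn_wf`, `k4e_dn_tests`, `k4e_dn_floor`, `k4e_dn_cap`; `subst` the five equations on `π`; `aLR`: `aL / a ≤ 1 / R`.) -/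
theorem k4e_dn_hyp {Y Z : KbSys P} {par : Z.C → Y.C} {a K aL Λ R d : ℝ} (hN : K4eNode P Y a K aL) (hC : K4eCand P Y Z par a Λ R d) (hcap : K4eCap P Y a Λ R d)
    (π : K4ePar) (hπK : π.K = 3 * K) (hπL : π.Lm = Λ) (hπR : π.R = R) (hπd : π.d = d) (hπa : π.aL = aL / a)
    (h3K : 3 * K ≤ Λ) (hR : 1 ≤ R) (haL : 0 < aL) (haLR : aL ≤ a / R) (hd : 0 ≤ d) (hε : 0 < π.ε) (hε1 : π.ε ≤ 1 / 2) :
    K4eHyp (Y.k4eDn a Z par) (fun z => (Y.k4eDn a Z par).S z) π := by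
  have ha := hN.a0
  have hK1 := hN.K1
  have hR0 : 0 < R := by linarith
  have hΛ0 : 0 < Λ := by linarith
  have hZ0 := k4e_node_Z hN
  have ht := fun z => k4e_dn_tests hN hC hR0 hΛ0.le z
  have hwf := k4e_dn_wf hN hC
  refine
    { wf := Y.k2n_norm_WF hN.pwf hN.ywf a ha hN.nu0 hZ0
      ntv := by rw [hπK]; exact Y.k2n_norm_Ntv hN.pwf hN.ywf a K ha hK1 hN.nu0 hN.geo hN.big
      cwf := hwf
      n0 := rfl
      val := by rw [hπL, hπR]; exact fun z => (ht z).1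
      dw := by rw [hπL]; exact fun z => (ht z).2.1
      dw_low := by rw [hπL]; exact fun z => (ht z).2.2.1
      dww := by rw [hπL, hπR]; exact fun z => (ht z).2.2.2
      floor := by rw [hπL, hπR, hπd]; exact fun z => k4e_dn_floor hN hC hR0 hΛ0 z
      cap := by rw [hπL, hπR, hπd]; exact fun c k => k4e_dn_cap hN hcap hR0 hZ0 c k
      S'_meas := fun z => hwf.S_meas z
      S'_sub := fun z => Set.Subset.refl _
      K1 := by rw [hπK]; linarith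
      KL := by rw [hπK, hπL]; exact h3K
      R1 := by rw [hπR]; exact hR
      aL0 := by rw [hπa]; exact div_pos haL ha
      aLR := by
        rw [hπa, hπR, div_le_div_iff₀ ha hR0]
        rw [le_div_iff₀ hR0] at haLR
        linarith
      d0 := by rw [hπd]; exact hd
      ε0 := hε
      ε1 := hε1 }

/-- **LEAF L-252-S4E-X8**.  Number of candidates.   (`k4e_s1_count` for the push-down: at most `Λ R^d` labels per world `c`; `Fintype.card Z.C = ∑ c, card {z | par z = c}` (`Finset.card_eq_sum_card_fiberwise`).) -/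
theorem k4e_dn_card {Y Z : KbSys P} {par : Z.C → Y.C} {a : ℝ} {π : K4ePar} (h : K4eHyp (Y.k4eDn a Z par) (fun z => (Y.k4eDn a Z par).S z) π) :
    (Fintype.card Z.C : ℝ) ≤ Fintype.card Y.C * (π.Lm * π.R ^ π.d) := by
  have h1 : Fintype.card Z.C = ∑ c : Y.C, (Finset.univ.filter fun z : Z.C => par z = c).card := by
    rw [← Finset.card_univ]
    exact Finset.card_eq_sum_card_fiberwise fun _ _ => Finset.mem_coe.2 (Finset.mem_univ _)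
  rw [h1, Nat.cast_sum]
  calc ∑ c : Y.C, ((Finset.univ.filter fun z : Z.C => par z = c).card : ℝ) ≤ ∑ _c : Y.C, π.Lm * π.R ^ π.d :=
        Finset.sum_le_sum fun c _ => k4e_s1_count h c
    _ = Fintype.card Y.C * (π.Lm * π.R ^ π.d) := by rw [Finset.sum_const, Finset.card_univ, nsmul_eq_mul]

/-! ## 3. the exit at one scale -/

/-- **LEAF L-252-S4E-X9** (assembly, ~100 l.): **unknown time candidates at a node give a KNOWN system of `P` at a greater depth and almost the same time length.**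
PROOF.  `k` of `k4e_core2 v m Crem Cc ε`.   `π₀ := ⟨3K, Λ, R, d, ε, aL/a, 0, 0, m, 0⟩`, `k4e_dn_hyp`; `k4eBeta (dn) (dn.S) = dn.mass = Z.mass / Y.Z` (`rfl`, `k4e_dn_mass`), so `hcov` gives `1/Λ ≤ β` (`ENNReal.le_div_iff_mul_le`).   `Y'` from the core, `Yo := Y.lift a Y'`.
`k2n_lift_WF`, `k2n_lift_q`, `k2n_lift_Geo` (`K' = 6Cc + 3K + 4`), `k2n_lift_Known` (`a' = aL/a`, `a * (aL/a) = aL`; `rn ≤ k`: `k2s_known_mono`), `k2n_lift_mass` (`Y.Z * (Z.mass / Y.Z) = Z.mass`: `ENNReal.mul_div_cancel`, `Y.Z ≤ 1`),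
`k2n_lift_Tmp` + `k4e_dn_card` (`card Y.C ≤ Q`). -/
theorem k4e_exit_sys (v : KbVer) (m : ℕ) (Crem Cc ε : ℝ) (hCrem : 1 ≤ Crem) (hCc : 1 ≤ Cc) (hε : 0 < ε) (hε1 : ε ≤ 1 / 2) :
    ∃ k : ℕ, ∀ (P : KbPb v) (Y Z : KbSys P) (par : Z.C → Y.C) (a K aL Λ R d : ℝ), K4eNode P Y a K aL → K4eCand P Y Z par a Λ R d → K4eCap P Y a Λ R d →
      3 * K ≤ Λ → (k : ℝ) ≤ Λ → Λ ^ k ≤ R → 0 < aL → aL ≤ a / R → 0 ≤ d →
      K4eMatch (v.j + 1) d ε R → K4eRemez (v.j + 1) Crem → K4eCode (v.j + 1) m Cc → ENNReal.ofReal (1 / Λ) * Y.Z ≤ Z.mass →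
      ∃ (Yo : KbSys P) (a'' : ℝ), Yo.WF ∧ Y.q * Λ ^ (-(k : ℝ)) ≤ Yo.q ∧ Yo.Geo (K * (6 * Cc + 3 * K + 4)) (a * a'') ∧
        (a'' = R ^ (-(2 * ε / 3)) ∨ a'' = R ^ (-(ε / 3))) ∧
        Yo.Known (P.hid aL) (3 * K * (2 * (6 * K + 5) ^ v.j * (2 * (k : ℝ) + 1) ^ m)) ∧ Z.mass ≤ 4 * Yo.mass ∧
        ∀ Q : ℝ, 1 ≤ Q → Y.Tmp Q → Yo.Tmp (4 * K * Q ^ 2 * ((Q * (Λ * R ^ d) + 2) * Λ ^ (3 * k + 3))) := by
  obtain ⟨k, hk⟩ := k4e_core2 v m Crem Cc ε hCrem hCc hε hε1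
  refine ⟨k, ?_⟩
  intro P Y Z par a K aL Λ R d hN hC hcap h3K hkΛ hΛR haL haLR hd hub hrem hcode hcov
  have hK1 := hN.K1
  have ha := hN.a0
  have hΛ1 : 1 ≤ Λ := by linarith
  have hR1 : 1 ≤ R := (one_le_pow₀ hΛ1).trans hΛR
  have hZ0 := k4e_node_Z hN
  have hZ1 := Y.k2n_Z_le_one hN.pwf hN.ywf
  have hZt : Y.Z ≠ ∞ := ne_top_of_le_ne_top ENNReal.one_ne_top hZ1
  obtain ⟨π₀, hπ₀⟩ : ∃ π₀ : K4ePar, π₀ = ⟨3 * K, Λ, R, d, ε, aL / a, 0, 0, m, 0⟩ := ⟨_, rfl⟩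
  have e1 : π₀.K = 3 * K := by rw [hπ₀]
  have e2 : π₀.Lm = Λ := by rw [hπ₀]
  have e3 : π₀.R = R := by rw [hπ₀]
  have e4 : π₀.d = d := by rw [hπ₀]
  have e5 : π₀.aL = aL / a := by rw [hπ₀]
  have e6 : π₀.ε = ε := by rw [hπ₀]
  have e7 : π₀.m = m := by rw [hπ₀]
  have hyp := k4e_dn_hyp hN hC hcap π₀ e1 e2 e3 e4 e5 h3K hR1 haL haLR hd (by rw [e6]; exact hε) (by rw [e6]; exact hε1)
  have hβ : k4eBeta (Y.k4eDn a Z par) (fun z => (Y.k4eDn a Z par).S z) = Z.mass / Y.Z := by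
    rw [← k4e_dn_mass hN hC]
    rfl
  have hβ1 : ENNReal.ofReal (1 / π₀.Lm) ≤ k4eBeta (Y.k4eDn a Z par) (fun z => (Y.k4eDn a Z par).S z) := by
    rw [hβ, e2, ENNReal.le_div_iff_mul_le (Or.inl hZ0) (Or.inl hZt)]
    exact hcov
  obtain ⟨Y', a'', rn, hrn, hwf, hq, hgeo, ha'', hkn, hmass, htmp⟩ := hk (Y.norm a) (Y.k4eDn a Z par) _ π₀ e6 e7 hyp (by rw [e2]; exact hkΛ)
    (by rw [e2, e3]; exact hΛR) (by rw [e4, e3]; exact hub) hrem hcode hβ1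
  rw [e2] at hq htmp
  rw [e1] at hgeo hkn
  rw [e3] at ha''
  rw [e5] at hkn
  have ha''0 : 0 < a'' := by
    rcases ha'' with h | h <;> rw [h] <;> exact Real.rpow_pos_of_pos (by linarith) _
  have hq0 : 0 < Y.q := Y.k2n_q_pos
  have haa : a * (aL / a) = aL := mul_div_cancel₀ aL ha.ne'
  refine ⟨Y.lift a Y', a'', Y.k2n_lift_WF a Y' hN.ywf ha hwf, ?_, ?_, ha'', ?_, ?_, ?_⟩
  · rw [Y.k2n_lift_q a Y']
    exact mul_le_mul_of_nonneg_left hq hq0.le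
  · exact Y.k2n_lift_Geo a Y' hN.pwf hN.ywf ha hwf K (6 * Cc + 3 * K + 4) a'' hK1 (by linarith) ha''0 hN.geo hgeo
  · have hkn0 : Y.Known (P.hid (a * (aL / a))) K := by rw [haa]; exact hN.known
    have h1 := Y.k2n_lift_Known hN.pwf hN.ywf a (aL / a) K (2 * (2 * (3 * K) + 5) ^ v.j * (2 * (rn : ℝ) + 1) ^ m) ha (div_pos haL ha) (by linarith)
      (by positivity) Y' hwf hkn0 hkn
    rw [haa] at h1
    refine k2s_known_mono _ h1 ?_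
    have h2 : (rn : ℝ) ≤ k := by exact_mod_cast hrn
    have h3 : 2 * (3 * K) + 5 = 6 * K + 5 := by ring
    rw [h3]
    gcongr
  · rw [Y.k2n_lift_mass a Y' hN.pwf hN.ywf hwf hZ0]
    rw [hβ] at hmass
    calc Z.mass = Y.Z * (Z.mass / Y.Z) := (ENNReal.mul_div_cancel hZ0 hZt).symm
      _ ≤ Y.Z * (4 * Y'.mass) := by gcongr
      _ = 4 * (Y.Z * Y'.mass) := by ring
  · intro Q hQ hT
    have hcard := k4e_dn_card hyp
    rw [e2, e3, e4] at hcard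
    have hRd : 0 ≤ Λ * R ^ d := by
      have : 0 < R ^ d := Real.rpow_pos_of_pos (by linarith) _
      positivity
    have hc2 : (Fintype.card Z.C : ℝ) ≤ Q * (Λ * R ^ d) := hcard.trans (mul_le_mul_of_nonneg_right hT.card hRd)
    have hΛp : 1 ≤ Λ ^ (3 * k + 3) := one_le_pow₀ hΛ1
    have hQ' : ((Fintype.card Z.C : ℝ) + 2) * Λ ^ (3 * k + 3) ≤ (Q * (Λ * R ^ d) + 2) * Λ ^ (3 * k + 3) := by gcongr
    have htmp' : Y'.Tmp ((Q * (Λ * R ^ d) + 2) * Λ ^ (3 * k + 3)) := k2s_tmp_mono _ htmp hQ'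
    refine Y.k2n_lift_Tmp a Y' hN.ywf K Q _ hK1 hQ ?_ hN.geo hT htmp'
    have : 0 ≤ Q * (Λ * R ^ d) := by positivity
    nlinarith

/-! ## 4. guarded samples -/

/-- elementary facts on a guarded sample.   **LEAF L-252-S4E-X10**.
PROOF.  `log N0 ≥ 1/τ` (`nodes`, `G + 1 ≥ 1`); `τ N0 ≥ Kp log N0 > 0` (`small`) so `N0 > 0`, and `log N0 > 0` gives `N0 > 1`.   `x := Kp log N0 ≥ 2`; `x ≤ x^n` (`n ≥ 1/τ ≥ 1`), `2^n ≤ x^n`; `slack`. -/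
theorem k4e_sam_basic {s : KpSam v} {p : KpPrm} {τ : ℝ} (hτ : 0 < τ) (hτ1 : τ ≤ 1) (h : s.Ok p τ) :
    1 < s.N0 ∧ 1 / τ ≤ Real.log s.N0 ∧ s.Kp * Real.log s.N0 ≤ (s.N0 ^ s.eps) ^ τ ∧ (2 : ℝ) ^ s.n ≤ (s.N0 ^ s.eps) ^ τ ∧ s.Kp ^ s.n ≤ s.Ks := by
  have hG : (0 : ℝ) ≤ s.G := Nat.cast_nonneg _
  have h1τ : 1 ≤ 1 / τ := by rw [le_div_iff₀ hτ]; linarith
  have hL : 1 / τ ≤ Real.log s.N0 := by
    rw [div_le_iff₀ hτ]
    have := h.nodes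
    linarith
  have hL1 : 1 ≤ Real.log s.N0 := h1τ.trans hL
  have hKp := h.Kp_one
  have hx : 2 ≤ s.Kp * Real.log s.N0 := by nlinarith
  have hN0 : 0 < s.N0 := by
    have := h.small
    by_contra hcon
    rw [not_lt] at hcon
    nlinarith
  have hN1 : 1 < s.N0 := by
    by_contra hcon
    rw [not_lt] at hcon
    have := Real.log_nonpos hN0.le hcon
    linarith
  have hn : (1 : ℝ) ≤ s.n := h1τ.trans h.stage
  have hn0 : s.n ≠ 0 := by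
    rintro h0
    rw [h0] at hn
    norm_num at hn
  have hsl : (s.Kp * Real.log s.N0) ^ s.n ≤ (s.N0 ^ s.eps) ^ τ := h.slack
  refine ⟨hN1, hL, ?_, ?_, ?_⟩
  · exact (le_self_pow₀ (by linarith) hn0).trans hsl
  · exact (pow_le_pow_left₀ (by norm_num) hx _).trans hsl
  · show s.Kp ^ s.n ≤ (s.Kp * Real.log s.N0) ^ s.n
    exact pow_le_pow_left₀ (by linarith) (by nlinarith) _

/-- **LEAF L-252-S4E-X11**.  A node of a guarded sample is a `K4eNode` with the ACTUAL slack `K_path`.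
PROOF.  `pwf = h.tan.wf`, `ywf = h.tan.sys_wf`, `geo = h.geo`, `known = h.known`, `K1` from `Kp_one`.   `nu0`: `h.tan.nu_lo`, `J > 0` (`k2n_J_pos`), `ENNReal.ofReal_pos`.
`big`: `tot ≤ (Q m).mass`: `mu γ univ = mu γ (Ev γ) ≤ mu γ (sel γ) ≤ ∑_{c, wd c = γ} mu γ (S c)` (`h.tan.cover`, `measure_biUnion_finset_le`/`measure_iUnion_le`), sum over `γ` (`Finset.sum_comm`, fibres of `wd`); `h.ntv.mass`. -/
theorem k4e_sam_node {s : KpSam v} {p : KpPrm} {τ : ℝ} (hτ : 0 < τ) (hτ1 : τ ≤ 1) (h : s.Ok p τ) (m : ℕ) (hm : m ≤ s.G) :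
    K4eNode s.P (s.Q m) (s.N0 ^ (-(s.eps * s.dep m))) s.Kp s.aL ∧ s.P.tot ≤ (s.Q m).mass := by
  obtain ⟨hN0, -, -, -, -⟩ := k4e_sam_basic hτ hτ1 h
  have hwf : (s.Q m).WF := h.tan.sys_wf m hm
  have hP : s.P.WF := h.tan.wf
  have htot : s.P.tot ≤ (s.Q m).mass := by
    have h1 : ∀ γ, s.P.mu γ Set.univ ≤ ∑ c, if (s.Q m).wd c = γ then s.P.mu γ ((s.Q m).S c) else 0 := by
      intro γ
      have e1 : s.P.mu γ Set.univ = s.P.mu γ (s.P.Ev γ) := by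
        unfold KbPb.mu
        rw [Measure.restrict_apply_univ, Measure.restrict_apply_self]
      have hcov : s.P.Ev γ ⊆ (s.Q m).sel γ := h.tan.cover m hm γ
      rw [e1]
      refine (measure_mono hcov).trans ?_
      unfold KbSys.sel
      refine (measure_iUnion_fintype_le _ _).trans (Finset.sum_le_sum fun c _ => ?_)
      by_cases hc : (s.Q m).wd c = γ
      · rw [if_pos hc]
        exact measure_mono (Set.iUnion_subset fun _ => Set.Subset.refl _)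
      · rw [if_neg hc]
        have : (⋃ (_ : (s.Q m).wd c = γ), (s.Q m).S c) = ∅ := by
          rw [Set.iUnion_eq_empty]
          exact fun hc' => absurd hc' hc
        rw [this, measure_empty]
    unfold KbPb.tot KbPb.mass KbSys.mass KbSys.mC
    calc ∑ γ, s.P.om γ * s.P.mu γ Set.univ ≤ ∑ γ, s.P.om γ * ∑ c, if (s.Q m).wd c = γ then s.P.mu γ ((s.Q m).S c) else 0 :=
          Finset.sum_le_sum fun γ _ => mul_le_mul' le_rfl (h1 γ)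
      _ = ∑ c, ∑ γ, if (s.Q m).wd c = γ then s.P.om γ * s.P.mu γ ((s.Q m).S c) else 0 := by
          simp_rw [Finset.mul_sum, mul_ite, mul_zero]
          exact Finset.sum_comm
      _ = ∑ c, s.P.om ((s.Q m).wd c) * s.P.mu ((s.Q m).wd c) ((s.Q m).S c) := by
          refine Finset.sum_congr rfl fun c _ => ?_
          rw [Finset.sum_ite_eq]
          simp
  refine ⟨{ pwf := hP, ywf := hwf, geo := h.geo m hm, big := ?_, known := h.known m hm, nu0 := ?_, a0 := Real.rpow_pos_of_pos (by linarith) _,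
            K1 := by linarith [h.Kp_one] }, htot⟩
  · unfold KbSys.Big
    exact h.ntv.mass.trans (mul_le_mul' le_rfl htot)
  · intro c hc
    have h1 := h.tan.nu_lo m hm c
    have hJ : 0 < ((s.Q m).ch c).J := (s.Q m).k2n_J_pos c (hwf.inv c)
    have hN : 0 < s.tan.N := by linarith [h.tan.N_two]
    have h2 : 0 < s.tan.N ^ (-p.d * s.tan.dep m - τ) * ((s.tan.Q m).ch c).J := mul_pos (Real.rpow_pos_of_pos hN _) hJ
    have h3 : (s.tan.Q m).nuC c = 0 := hc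
    rw [h3, nonpos_iff_eq_zero, ENNReal.ofReal_eq_zero] at h1
    linarith

theorem k4e_sam_dep_pos {X : KpTan v} {p : KpPrm} {τ : ℝ} (hX : X.Ok p τ) : ∀ m : ℕ, m ≤ X.G → 0 < X.dep m := by
  intro m
  induction m with
  | zero =>
    intro _
    exact hX.dep_zero.1
  | succ n ih =>
    intro hn
    exact (ih (by omega)).trans (hX.dep_step n (by omega)).1

/-- **LEAF L-252-S4E-X12**.  The pure cap of the tangent data gives `K4eCap`.   `N = N0^eps`, `a = N^{-dep m}`, `R = N^c`.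
PROOF.  `κ := N^τ (2 a/R)^d`.   `δ := kbDy (a/R) ∈ [a/R, 2a/R)` (`k2a_dy_bounds`), `B = 1` (`h.tan.B_one`); `{hid = k} ⊆ {hw ∈ Icc (kδ) (kδ + δ)}`; `h.tan.cap_w γ δ` needs `N^{-1/τ} ≤ δ` (`hlo`) and `δ ≤ 1` (`hhi`); `δ^d ≤ (2a/R)^d`.
`Measure.le_iff`, `Measure.map_apply`, `Measure.restrict_apply`.   Second part: `nu_lo`: `N^{-d dep m - τ} J ≤ ν_c`, `(2a/R)^d ≤ 2 a^d R^{-d}`, `a^d = N^{-d dep m}`: `3 κ J ≤ 6 N^{2τ} R^{-d} (N^{-d dep m - τ} J)`, `hΛ`. -/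
theorem k4e_sam_cap {s : KpSam v} {p : KpPrm} {τ : ℝ} (hp : p.Ok) (hτ : 0 < τ) (hτ1 : τ ≤ 1) (h : s.Ok p τ) (m : ℕ) (hm : m ≤ s.G) (c Λ : ℝ) (hc : 0 < c)
    (hlo : s.dep m + c ≤ 1 / τ) (hhi : 2 ≤ (s.N0 ^ s.eps) ^ c) (hΛ : 6 * ((s.N0 ^ s.eps) ^ τ) ^ 2 ≤ Λ) :
    K4eCap s.P (s.Q m) (s.N0 ^ (-(s.eps * s.dep m))) Λ ((s.N0 ^ s.eps) ^ c) p.d := by
  obtain ⟨hN0, -, -, -, -⟩ := k4e_sam_basic hτ hτ1 h
  have hX := h.tan
  have ha : s.N0 ^ (-(s.eps * s.dep m)) = (s.N0 ^ s.eps) ^ (-s.dep m) := by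
    rw [← Real.rpow_mul (by linarith)]
    congr 1
    ring
  rw [ha]
  have hN2 : 2 ≤ s.N0 ^ s.eps := hX.N_two
  set N : ℝ := s.N0 ^ s.eps with hN
  have hNp : 0 < N := by linarith
  have hN1 : 1 ≤ N := by linarith
  have hdep : 0 < s.dep m := k4e_sam_dep_pos hX m hm
  obtain ⟨w, hw⟩ : ∃ w : ℝ, w = N ^ (-s.dep m) / N ^ c := ⟨_, rfl⟩
  have hw' : w = N ^ (-(s.dep m + c)) := by
    rw [hw, ← Real.rpow_sub hNp]
    congr 1
    ring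
  have hw0 : 0 < w := by
    rw [hw']
    exact Real.rpow_pos_of_pos hNp _
  have ha0 : 0 < N ^ (-s.dep m) := Real.rpow_pos_of_pos hNp _
  have hR0 : 0 < N ^ c := Real.rpow_pos_of_pos hNp _
  have ha1 : N ^ (-s.dep m) ≤ 1 := Real.rpow_le_one_of_one_le_of_nonpos hN1 (by linarith)
  have hw2 : 2 * w ≤ 1 := by
    rw [hw, ← mul_div_assoc, div_le_one hR0]
    linarith
  obtain ⟨hδ1, hδ2⟩ := k2a_dy_bounds hw0
  have hδ0 : 0 < kbDy w := lt_of_lt_of_le hw0 hδ1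
  have hlo' : N ^ (-1 / τ) ≤ kbDy w := by
    refine le_trans ?_ hδ1
    rw [hw']
    apply Real.rpow_le_rpow_of_exponent_le hN1
    rw [neg_div]
    linarith
  have hX0 : 0 < N ^ τ := Real.rpow_pos_of_pos hNp _
  refine ⟨N ^ τ * (2 * w) ^ p.d, by positivity, fun γ k => ?_, fun c' => ?_⟩
  · rw [← hw]
    refine Measure.le_iff.2 fun U hU => ?_
    unfold KbPb.part
    have hwf : s.P.WF := hX.wf
    rw [Measure.map_apply (k4e_bs_meas hwf γ) hU, Measure.restrict_apply ((k4e_bs_meas hwf γ) hU), Measure.smul_apply, smul_eq_mul]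
    calc s.P.mu γ (s.P.bs γ ⁻¹' U ∩ s.P.hid w γ ⁻¹' {k})
        ≤ s.P.mu γ {x | s.P.bs γ x ∈ U ∧ s.P.hw γ x ∈ Set.Icc ((k : ℝ) * kbDy w) ((k : ℝ) * kbDy w + kbDy w)} := by
          refine measure_mono fun x hx => ⟨hx.1, ?_⟩
          have h1 : s.P.hid w γ x = k := hx.2
          unfold KbPb.hid kbBin at h1
          rw [show s.P.B γ = 1 from hX.B_one γ, div_one, Int.floor_eq_iff] at h1
          constructor
          · rw [← le_div_iff₀ hδ0]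
            exact h1.1
          · have h2 := h1.2
            rw [div_lt_iff₀ hδ0] at h2
            linarith
      _ ≤ ENNReal.ofReal (N ^ τ * kbDy w ^ p.d) * volume U := hX.cap_w γ (kbDy w) hlo' (by linarith) _ U hU
      _ ≤ ENNReal.ofReal (N ^ τ * (2 * w) ^ p.d) * volume U := by
          gcongr
          exact hp.d_nonneg
  · have hJ : 0 ≤ ((s.Q m).ch c').J := abs_nonneg _
    have h1 : ENNReal.ofReal (N ^ (-p.d * s.dep m - τ) * ((s.Q m).ch c').J) ≤ (s.Q m).nuC c' := hX.nu_lo m hm c'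
    have hRd : 0 < (N ^ c) ^ (-p.d) := Real.rpow_pos_of_pos hR0 _
    have hA : 0 < N ^ (-p.d * s.dep m) := Real.rpow_pos_of_pos hNp _
    have e1 : (2 * w) ^ p.d = 2 ^ p.d * (N ^ (-p.d * s.dep m) * (N ^ c) ^ (-p.d)) := by
      rw [Real.mul_rpow (by norm_num) hw0.le, hw, Real.div_rpow ha0.le hR0.le, ← Real.rpow_mul hNp.le, Real.rpow_neg hR0.le, div_eq_mul_inv]
      congr 3
      ring
    have e2 : N ^ (-p.d * s.dep m - τ) = N ^ (-p.d * s.dep m) / N ^ τ := Real.rpow_sub hNp _ _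
    have h2d : (2 : ℝ) ^ p.d ≤ 2 := by
      have := Real.rpow_le_rpow_of_exponent_le (by norm_num : (1 : ℝ) ≤ 2) hp.d_lt.le
      rwa [Real.rpow_one] at this
    calc ENNReal.ofReal (3 * (N ^ τ * (2 * w) ^ p.d) * ((s.Q m).ch c').J)
        ≤ ENNReal.ofReal (Λ * (N ^ c) ^ (-p.d) * (N ^ (-p.d * s.dep m - τ) * ((s.Q m).ch c').J)) := by
          apply ENNReal.ofReal_le_ofReal
          rw [e1, e2]
          calc 3 * (N ^ τ * (2 ^ p.d * (N ^ (-p.d * s.dep m) * (N ^ c) ^ (-p.d)))) * ((s.Q m).ch c').J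
              ≤ 3 * (N ^ τ * (2 * (N ^ (-p.d * s.dep m) * (N ^ c) ^ (-p.d)))) * ((s.Q m).ch c').J := by gcongr
            _ = 6 * (N ^ τ) ^ 2 * (N ^ c) ^ (-p.d) * (N ^ (-p.d * s.dep m) / N ^ τ * ((s.Q m).ch c').J) := by
                field_simp
                ring
            _ ≤ Λ * (N ^ c) ^ (-p.d) * (N ^ (-p.d * s.dep m) / N ^ τ * ((s.Q m).ch c').J) := by gcongr
      _ = ENNReal.ofReal (Λ * (N ^ c) ^ (-p.d)) * ENNReal.ofReal (N ^ (-p.d * s.dep m - τ) * ((s.Q m).ch c').J) :=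
          ENNReal.ofReal_mul (by
            have : 0 ≤ Λ := le_trans (by positivity) hΛ
            positivity)
      _ ≤ ENNReal.ofReal (Λ * (N ^ c) ^ (-p.d)) * (s.Q m).nuC c' := by gcongr

/-! ## 5. the exit -/

/-- the numerical conditions on a sample used in the exit; `k` = constant of `k4e_exit_sys`, `e'` = depth gain exponent (`2ε/3` or `ε/3`) -/
structure K4eSmall (s : KpSam v) (p : KpPrm) (m k mm : ℕ) (Cc ε R₀ c σ η : ℝ) : Prop where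
  c1 : 3 * s.Kp ≤ (s.N0 ^ s.eps) ^ σ
  c2 : (k : ℝ) ≤ (s.N0 ^ s.eps) ^ σ
  c3 : ((s.N0 ^ s.eps) ^ σ) ^ k ≤ (s.N0 ^ s.eps) ^ c
  c4 : R₀ ≤ (s.N0 ^ s.eps) ^ c
  c5 : s.aL ≤ s.N0 ^ (-(s.eps * s.dep m)) / (s.N0 ^ s.eps) ^ c
  c6 : ENNReal.ofReal (1 / (s.N0 ^ s.eps) ^ σ) ≤ ENNReal.ofReal (η / (s.G + 1)) * s.P.tot
  c7 : s.Kp * (6 * Cc + 3 * s.Kp + 4) ≤ s.Ks
  c8 : 3 * s.Kp * (2 * (6 * s.Kp + 5) ^ v.j * (2 * (k : ℝ) + 1) ^ mm) ≤ s.Ks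
  c9 : 4 * s.Kp * (s.N0 ^ s.Mp) ^ 2 * ((s.N0 ^ s.Mp * ((s.N0 ^ s.eps) ^ σ * ((s.N0 ^ s.eps) ^ c) ^ p.d) + 2) * ((s.N0 ^ s.eps) ^ σ) ^ (3 * k + 3)) ≤ s.N0 ^ s.Mg
  c10 : 4 * ((s.G : ℝ) + 1) ≤ η * Real.log s.N0
  c11 : s.eps * (s.dep m + c) ≤ s.Lr / 2
  c12 : s.thc + s.th + s.eps * (σ * k) ≤ p.k * (s.eps * (c * (ε / 3)))

/-- a positive number below two positive numbers -/
theorem k4e_min2 (a b : ℝ) (ha : 0 < a) (hb : 0 < b) : ∃ t : ℝ, 0 < t ∧ t ≤ a ∧ t ≤ b :=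
  ⟨min a b, lt_min ha hb, min_le_left _ _, min_le_right _ _⟩

/-- pure arithmetic of `c9` -/
theorem k4e_c9_aux (N0 Kp Mp Mg A B E : ℝ) (hN0 : 4 ≤ N0) (hKp0 : 0 ≤ Kp) (hKp : Kp ≤ N0) (hMp : 1 ≤ Mp) (hMg : 3 * Mp + 6 ≤ Mg)
    (hA0 : 0 ≤ A) (hA : A ≤ N0) (hB0 : 0 ≤ B) (hB : B ≤ N0) (hE0 : 0 ≤ E) (hE : E ≤ N0) :
    4 * Kp * (N0 ^ Mp) ^ 2 * ((N0 ^ Mp * (A * B) + 2) * E) ≤ N0 ^ Mg := by
  have hpos : 0 < N0 := by linarith
  obtain ⟨Q, hQ⟩ : ∃ Q : ℝ, Q = N0 ^ Mp := ⟨_, rfl⟩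
  have hQ1 : 1 ≤ Q := hQ ▸ Real.one_le_rpow (by linarith) (by linarith)
  have e : N0 ^ (3 * Mp + 6) = Q ^ 3 * N0 ^ 6 := by
    rw [Real.rpow_add hpos, mul_comm 3 Mp, Real.rpow_mul hpos.le, ← hQ, Real.rpow_ofNat, Real.rpow_ofNat]
  rw [← hQ]
  have hNN : 16 ≤ N0 * N0 := by nlinarith
  have hQNN : 0 ≤ Q * (N0 * N0) := by positivity
  have s1 : Q * (A * B) + 2 ≤ N0 * (Q * (N0 * N0)) := by
    have a1 : A * B ≤ N0 * N0 := mul_le_mul hA hB hB0 hpos.le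
    have a2 : Q * (A * B) ≤ Q * (N0 * N0) := mul_le_mul_of_nonneg_left a1 (by linarith)
    have a3 : 1 * (N0 * N0) ≤ Q * (N0 * N0) := mul_le_mul_of_nonneg_right hQ1 (by positivity)
    have a4 : 4 * (Q * (N0 * N0)) ≤ N0 * (Q * (N0 * N0)) := mul_le_mul_of_nonneg_right hN0 hQNN
    linarith
  have s2 : (Q * (A * B) + 2) * E ≤ N0 * (Q * (N0 * N0)) * N0 := mul_le_mul s1 hE hE0 (by positivity)
  have s3 : 4 * Kp * Q ^ 2 ≤ N0 * N0 * Q ^ 2 := mul_le_mul_of_nonneg_right (mul_le_mul hN0 hKp hKp0 hpos.le) (by positivity)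
  calc 4 * Kp * Q ^ 2 * ((Q * (A * B) + 2) * E) ≤ N0 * N0 * Q ^ 2 * (N0 * (Q * (N0 * N0)) * N0) :=
        mul_le_mul s3 s2 (mul_nonneg (by positivity) hE0) (by positivity)
    _ = Q ^ 3 * N0 ^ 6 := by ring
    _ = N0 ^ (3 * Mp + 6) := e.symm
    _ ≤ N0 ^ Mg := Real.rpow_le_rpow_of_exponent_le (by linarith) hMg

/-- the complexity guard dominates `3 M_path + 6` -/
theorem k4e_Mg_aux (Mp Mg n : ℝ) (hMp : 1 ≤ Mp) (hn : 3 ≤ n) (h : (2 : ℝ) ^ ((Mp + n) ^ 2) ≤ Mg) : 3 * Mp + 6 ≤ Mg := by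
  have h1 : (Mp + 3) ^ 2 ≤ (Mp + n) ^ 2 := pow_le_pow_left₀ (by linarith) (by linarith) 2
  have h2 : (1 : ℝ) ≤ (Mp + n) ^ 2 := by nlinarith
  have h3 := one_add_mul_self_le_rpow_one_add (s := (1 : ℝ)) (by norm_num) h2
  have h4 : (1 + 1 : ℝ) = 2 := by norm_num
  rw [h4] at h3
  nlinarith

/-- pure arithmetic of `c8` -/
theorem k4e_c8_aux (Kp W n Ks : ℝ) (j : ℕ) (hKp : 2 ≤ Kp) (hW : 0 ≤ W) (hn : 6 * 9 ^ j * W ≤ n) (h : Kp ^ (j + 1) * n ≤ Ks) :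
    3 * Kp * (2 * (6 * Kp + 5) ^ j * W) ≤ Ks := by
  have h1 : (6 * Kp + 5) ^ j ≤ (9 * Kp) ^ j := pow_le_pow_left₀ (by linarith) (by linarith) _
  rw [mul_pow] at h1
  calc 3 * Kp * (2 * (6 * Kp + 5) ^ j * W) ≤ 3 * Kp * (2 * (9 ^ j * Kp ^ j) * W) := by
        refine mul_le_mul_of_nonneg_left (mul_le_mul_of_nonneg_right (mul_le_mul_of_nonneg_left h1 (by norm_num)) hW) (by linarith)
    _ = Kp ^ (j + 1) * (6 * 9 ^ j * W) := by ring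
    _ ≤ Kp ^ (j + 1) * n := mul_le_mul_of_nonneg_left hn (by positivity)
    _ ≤ Ks := h

/-- the numerical conditions, from explicit smallness of the tolerance -/
theorem k4e_small_core {s : KpSam v} {p : KpPrm} (hp : p.Ok) (k mm : ℕ) (Cc ε R₀ : ℝ) (hCc : 1 ≤ Cc) (c σ η smax τ : ℝ) (hc : 0 < c) (hσ : 0 < σ)
    (hσ1 : σ * ((k : ℝ) + 1) ≤ c) (hσ2 : σ * ((k : ℝ) + 1) * 12 ≤ p.k * ε * c) (hη : 0 < η) (hτ : 0 < τ)
    (t1 : τ ≤ 1 / 6) (t2 : 3 * τ ≤ σ) (t3 : τ ≤ c) (t4 : 4 * τ ≤ η)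
    (t5 : (k : ℝ) + 1 + (|R₀| + 1) + (3 * Cc + 7) + ((v.j : ℝ) + 1 + 6 * 9 ^ v.j * (2 * (k : ℝ) + 1) ^ mm) ≤ 1 / τ)
    (t6 : τ * (|smax| + c) ≤ 1 / 16) (t7 : τ * (σ * (3 * (k : ℝ) + 3)) ≤ 1) (t8 : 24 * τ ≤ p.k * c * ε)
    (h : s.Ok p τ) (m : ℕ) (hdep : s.dep m ≤ smax) :
      K4eSmall s p m k mm Cc ε R₀ c σ η ∧ s.dep m + c ≤ 1 / τ ∧ 2 ≤ (s.N0 ^ s.eps) ^ c ∧ 6 * ((s.N0 ^ s.eps) ^ τ) ^ 2 ≤ (s.N0 ^ s.eps) ^ σ := by
  have hτ1 : τ ≤ 1 := by linarith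
  obtain ⟨hN0, hL, hT1, hT2, hKs⟩ := k4e_sam_basic hτ hτ1 h
  have hN00 : 0 < s.N0 := by linarith
  have hk0 : (0 : ℝ) ≤ k := Nat.cast_nonneg _
  have hj0 : (0 : ℝ) ≤ v.j := Nat.cast_nonneg _
  have hG0 : (0 : ℝ) ≤ s.G := Nat.cast_nonneg _
  have hA8 : (0 : ℝ) ≤ 6 * 9 ^ v.j * (2 * (k : ℝ) + 1) ^ mm := by positivity
  have hR0 : 0 ≤ |R₀| := abs_nonneg _
  have hsm : 0 ≤ |smax| := abs_nonneg _
  have h6 : 6 ≤ 1 / τ := by rw [le_div_iff₀ hτ]; linarith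
  have heps := h.eps_pos
  have hepsτ := h.eps_le
  have hKp := h.Kp_one
  have hL1 : 1 ≤ Real.log s.N0 := by linarith
  have hn := h.stage
  obtain ⟨N, hN⟩ : ∃ N : ℝ, N = s.N0 ^ s.eps := ⟨_, rfl⟩
  rw [← hN] at hT1 hT2
  have hN1 : 1 < N := hN ▸ Real.one_lt_rpow hN0 heps
  have hNpos : 0 < N := by linarith
  obtain ⟨T, hT⟩ : ∃ T : ℝ, T = N ^ τ := ⟨_, rfl⟩
  rw [← hT] at hT1 hT2
  have hmono : ∀ x y : ℝ, x ≤ y → N ^ x ≤ N ^ y := fun x y hxy => Real.rpow_le_rpow_of_exponent_le hN1.le hxy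
  have hn2 : (s.n : ℝ) ≤ 2 ^ s.n := by exact_mod_cast (Nat.lt_two_pow_self (n := s.n)).le
  have hTinv : 1 / τ ≤ T := hn.trans (hn2.trans hT2)
  have hT6 : 6 ≤ T := h6.trans hTinv
  have hTx : ∀ x : ℝ, τ ≤ x → T ≤ N ^ x := fun x hx => hT ▸ hmono _ _ hx
  have hKpT : s.Kp ≤ T := le_trans (le_mul_of_one_le_right (by linarith) hL1) hT1
  have hNx : ∀ x : ℝ, N ^ x = s.N0 ^ (s.eps * x) := fun x => by rw [hN, ← Real.rpow_mul hN00.le]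
  have hmono0 : ∀ x y : ℝ, x ≤ y → s.N0 ^ x ≤ s.N0 ^ y := fun x y hxy => Real.rpow_le_rpow_of_exponent_le hN0.le hxy
  have hTT : T * T = N ^ (τ + τ) := by rw [hT, ← Real.rpow_add hNpos]
  have hc11 : s.eps * (s.dep m + c) ≤ 1 / 16 := by
    have h1 : s.dep m + c ≤ |smax| + c := by linarith [le_abs_self smax]
    calc s.eps * (s.dep m + c) ≤ s.eps * (|smax| + c) := mul_le_mul_of_nonneg_left h1 heps.le
      _ ≤ τ * (|smax| + c) := mul_le_mul_of_nonneg_right hepsτ (by linarith)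
      _ ≤ 1 / 16 := t6
  have hLr := h.Lr_lo
  -- the natural number `n`
  have hnj : (v.j : ℝ) + 1 + 6 * 9 ^ v.j * (2 * (k : ℝ) + 1) ^ mm ≤ s.n := by linarith
  have hnC : 3 * Cc + 7 ≤ s.n := by linarith
  have hpow : ∀ a : ℕ, a ≤ s.n → s.Kp ^ a * ((s.n : ℝ) - a) ≤ s.Ks := fun a ha => by
    obtain ⟨b, hb⟩ := Nat.exists_eq_add_of_le ha
    have e1 : ((s.n : ℝ) - a) = b := by rw [hb]; push_cast; ring
    have e2 : (b : ℝ) ≤ 2 ^ b := by exact_mod_cast (Nat.lt_two_pow_self (n := b)).le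
    have e3 : (2 : ℝ) ^ b ≤ s.Kp ^ b := pow_le_pow_left₀ (by norm_num) hKp _
    calc s.Kp ^ a * ((s.n : ℝ) - a) ≤ s.Kp ^ a * s.Kp ^ b := by
          rw [e1]
          exact mul_le_mul_of_nonneg_left (e2.trans e3) (by positivity)
      _ = s.Kp ^ s.n := by rw [hb, pow_add]
      _ ≤ s.Ks := hKs
  refine ⟨⟨?_, ?_, ?_, ?_, ?_, ?_, ?_, ?_, ?_, ?_, ?_, ?_⟩, ?_, ?_, ?_⟩
  · -- c1
    rw [← hN]
    calc 3 * s.Kp ≤ T * T := mul_le_mul (by linarith) hKpT (by linarith) (by linarith)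
      _ = N ^ (τ + τ) := hTT
      _ ≤ N ^ σ := hmono _ _ (by linarith)
  · -- c2
    rw [← hN]
    exact le_trans (by linarith) (hTinv.trans (hTx σ (by linarith)))
  · -- c3
    rw [← hN, ← Real.rpow_natCast, ← Real.rpow_mul hNpos.le]
    have e : σ * ((k : ℝ) + 1) = σ * k + σ := by ring
    have e2 : σ * (k : ℝ) ≤ c := by linarith
    exact hmono _ _ e2
  · -- c4
    rw [← hN]
    exact le_trans (by linarith [le_abs_self R₀]) (hTinv.trans (hTx c t3))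
  · -- c5
    rw [← hN, hNx, ← Real.rpow_sub hN00]
    show s.N0 ^ (-s.Lr) ≤ _
    have e : s.eps * (s.dep m + c) = s.eps * s.dep m + s.eps * c := by ring
    have e2 : -s.Lr ≤ -(s.eps * s.dep m) - s.eps * c := by linarith
    exact hmono0 _ _ e2
  · -- c6
    rw [← hN]
    have hNσ : 0 < N ^ σ := Real.rpow_pos_of_pos hNpos _
    have hm := h.ntv.mass
    have hle : s.Kp / N ^ σ ≤ η / (s.G + 1) := by
      rw [div_le_div_iff₀ hNσ (by linarith)]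
      have h1 : (s.G : ℝ) + 1 ≤ τ * Real.log s.N0 := h.nodes
      calc s.Kp * ((s.G : ℝ) + 1) ≤ s.Kp * (τ * Real.log s.N0) := mul_le_mul_of_nonneg_left h1 (by linarith)
        _ = τ * (s.Kp * Real.log s.N0) := by ring
        _ ≤ η * N ^ σ := mul_le_mul (by linarith) (hT1.trans (hTx σ (by linarith))) (mul_nonneg (by linarith) (by linarith)) hη.le
    calc ENNReal.ofReal (1 / N ^ σ) = ENNReal.ofReal (1 / N ^ σ) * 1 := (mul_one _).symm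
      _ ≤ ENNReal.ofReal (1 / N ^ σ) * (ENNReal.ofReal s.Kp * s.P.tot) := by gcongr
      _ = ENNReal.ofReal (s.Kp / N ^ σ) * s.P.tot := by
          rw [← mul_assoc, ← ENNReal.ofReal_mul (by positivity)]
          congr 2
          ring
      _ ≤ ENNReal.ofReal (η / (s.G + 1)) * s.P.tot := by gcongr
  · -- c7
    have h2n : 2 ≤ s.n := by
      have : (2 : ℝ) ≤ s.n := by linarith
      exact_mod_cast this
    have := hpow 2 h2n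
    push_cast at this
    refine le_trans ?_ this
    have h3 : 3 * Cc + 5 ≤ (s.n : ℝ) - 2 := by linarith
    have h4 : 0 ≤ (s.Kp - 2) * Cc := mul_nonneg (by linarith) (by linarith)
    have h5 : 6 * Cc + 3 * s.Kp + 4 ≤ s.Kp * (3 * Cc + 5) := by linarith
    calc s.Kp * (6 * Cc + 3 * s.Kp + 4) ≤ s.Kp * (s.Kp * (3 * Cc + 5)) := mul_le_mul_of_nonneg_left h5 (by linarith)
      _ = s.Kp ^ 2 * (3 * Cc + 5) := by ring
      _ ≤ s.Kp ^ 2 * ((s.n : ℝ) - 2) := mul_le_mul_of_nonneg_left h3 (by positivity)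
  · -- c8
    have hjn : v.j + 1 ≤ s.n := by
      have : ((v.j + 1 : ℕ) : ℝ) ≤ s.n := by push_cast; linarith
      exact_mod_cast this
    have := hpow (v.j + 1) hjn
    push_cast at this
    exact k4e_c8_aux s.Kp _ _ s.Ks v.j hKp (by positivity) (by linarith) this
  · -- c9
    rw [← hN]
    have hsmall := h.small
    have hKL : s.Kp ≤ s.Kp * Real.log s.N0 := le_mul_of_one_le_right (by linarith) hL1
    have hKL12 : 2 * 6 ≤ s.Kp * Real.log s.N0 := mul_le_mul hKp (by linarith) (by norm_num) (by linarith)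
    have hτN : τ * s.N0 ≤ 1 * s.N0 := mul_le_mul_of_nonneg_right hτ1 hN00.le
    have hNle : ∀ x : ℝ, 0 ≤ x → τ * x ≤ 1 → N ^ x ≤ s.N0 := fun x hx hx1 => by
      rw [hNx]
      have e1 : s.eps * x ≤ 1 := (mul_le_mul_of_nonneg_right hepsτ hx).trans hx1
      calc s.N0 ^ (s.eps * x) ≤ s.N0 ^ (1 : ℝ) := hmono0 _ _ e1
        _ = s.N0 := Real.rpow_one _
    have hσk : σ ≤ σ * (3 * (k : ℝ) + 3) := le_mul_of_one_le_right hσ.le (by linarith)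
    have hA : N ^ σ ≤ s.N0 := hNle σ hσ.le ((mul_le_mul_of_nonneg_left hσk hτ.le).trans t7)
    have hc1 : τ * c ≤ 1 := by
      have : τ * (|smax| + c) = τ * |smax| + τ * c := by ring
      have h0 : 0 ≤ τ * |smax| := mul_nonneg hτ.le hsm
      linarith
    have hNc1 : 1 ≤ N ^ c := Real.one_le_rpow hN1.le hc.le
    have hB : (N ^ c) ^ p.d ≤ s.N0 :=
      calc (N ^ c) ^ p.d ≤ (N ^ c) ^ (1 : ℝ) := Real.rpow_le_rpow_of_exponent_le hNc1 hp.d_lt.le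
        _ = N ^ c := Real.rpow_one _
        _ ≤ s.N0 := hNle c hc.le hc1
    have hE : (N ^ σ) ^ (3 * k + 3) ≤ s.N0 := by
      rw [← Real.rpow_natCast, ← Real.rpow_mul hNpos.le]
      push_cast
      exact hNle _ (by positivity) t7
    exact k4e_c9_aux s.N0 s.Kp s.Mp s.Mg _ _ _ (by linarith) (by linarith) (by linarith) h.Mp_one
      (k4e_Mg_aux s.Mp s.Mg s.n h.Mp_one (by linarith) h.Mg_ge) (Real.rpow_nonneg hNpos.le _) hA (Real.rpow_nonneg (Real.rpow_nonneg hNpos.le _) _) hB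
      (pow_nonneg (Real.rpow_nonneg hNpos.le _) _) hE
  · -- c10
    have h1 : (s.G : ℝ) + 1 ≤ τ * Real.log s.N0 := h.nodes
    calc 4 * ((s.G : ℝ) + 1) ≤ 4 * (τ * Real.log s.N0) := by linarith
      _ = (4 * τ) * Real.log s.N0 := by ring
      _ ≤ η * Real.log s.N0 := mul_le_mul_of_nonneg_right t4 (by linarith)
  · -- c11
    linarith
  · -- c12
    have h1 := h.th_le
    have h2 := h.thc_le
    have h3 : 2 * τ + σ * k ≤ p.k * (c * (ε / 3)) := by linarith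
    calc s.thc + s.th + s.eps * (σ * k) ≤ s.eps * (2 * τ + σ * k) := by linarith
      _ ≤ s.eps * (p.k * (c * (ε / 3))) := mul_le_mul_of_nonneg_left h3 heps.le
      _ = p.k * (s.eps * (c * (ε / 3))) := by ring
  · rw [le_div_iff₀ hτ]
    have h1 : s.dep m + c ≤ |smax| + c := by linarith [le_abs_self smax]
    calc (s.dep m + c) * τ ≤ (|smax| + c) * τ := mul_le_mul_of_nonneg_right h1 hτ.le
      _ = τ * (|smax| + c) := by ring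
      _ ≤ 1 := by linarith
  · rw [← hN]
    exact le_trans (by linarith) (hTinv.trans (hTx c t3))
  · rw [← hN, ← hT]
    calc 6 * T ^ 2 ≤ T * T ^ 2 := mul_le_mul_of_nonneg_right hT6 (by positivity)
      _ = T * (T * T) := by ring
      _ = N ^ (τ + (τ + τ)) := by rw [hTT, hT, ← Real.rpow_add hNpos]
      _ ≤ N ^ σ := hmono _ _ (by linarith)

/-- **LEAF L-252-S4E-X13** (PAPER-FREE, real arithmetic).  The numerical conditions hold for small tolerance.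
CHOICE.  `κ₀ := min (1/(k+1)) (p.k ε / (12 (k+1)))`.   `N := N0^eps`; `k4e_sam_basic`: `N^τ ≥ 2^n ≥ 2^{1/τ}`, `N^τ ≥ Kp log N0`, so `N^x ≥ 2^{x/τ²}` is larger than any constant for small `τ`.
`c1`: `3 ≤ N^τ`, `Kp ≤ N^τ`, `2τ ≤ σ`.   `c2, c4`: constants.   `c3`: `σ k ≤ c`.   `c5, c11`: `eps ≤ τ`, `τ (smax + c) ≤ 1/16 ≤ Lr/2`.   `c6`: `tot ≥ 1/Kp` (`h.ntv.mass`), `G + 1 ≤ τ log N0`, `τ Kp log N0 ≤ τ N^τ ≤ η N^σ`.
`c7, c8`: `Ks ≥ Kp^n ≥ Kp³ 2^{n-3}`, `n ≥ 1/τ`.   `c9`: every factor is `≤ N0^{..}`: `Kp ≤ N^τ ≤ N0`, `N^x = N0^{eps x} ≤ N0` for `τ x ≤ 1`; total `≤ N0^{3 Mp + 6}`; `3 Mp + 6 ≤ 2^{(Mp+n)²} ≤ Mg` (`h.Mg_ge`, `n ≥ 3`).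
`c10`: `nodes`, `4τ ≤ η`.   `c12`: `th, thc ≤ τ eps`, `σ k ≤ p.k c ε/12`, `2τ ≤ p.k c ε/12`. -/
theorem k4e_small (v : KbVer) (p : KpPrm) (hp : p.Ok) (k mm : ℕ) (Cc ε R₀ : ℝ) (hCc : 1 ≤ Cc) (hε : 0 < ε) :
    ∃ κ₀ : ℝ, 0 < κ₀ ∧ ∀ c σ η smax : ℝ, 0 < c → 0 < σ → σ ≤ κ₀ * c → 0 < η → ∃ τ₀ : ℝ, 0 < τ₀ ∧ τ₀ ≤ 1 ∧ ∀ s : KpSam v, s.Ok p τ₀ → ∀ m ≤ s.G, s.dep m ≤ smax →
      K4eSmall s p m k mm Cc ε R₀ c σ η ∧ s.dep m + c ≤ 1 / τ₀ ∧ 2 ≤ (s.N0 ^ s.eps) ^ c ∧ 6 * ((s.N0 ^ s.eps) ^ τ₀) ^ 2 ≤ (s.N0 ^ s.eps) ^ σ := by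
  have hk0 : (0 : ℝ) ≤ k := Nat.cast_nonneg _
  have hk1 : (0 : ℝ) < (k : ℝ) + 1 := by linarith
  have hpk := hp.k_pos
  obtain ⟨κ₀, hκ₀, hκ1, hκ2⟩ := k4e_min2 (1 / ((k : ℝ) + 1)) (p.k * ε / (12 * ((k : ℝ) + 1))) (by positivity) (by positivity)
  refine ⟨κ₀, hκ₀, fun c σ η smax hc hσ hσc hη => ?_⟩
  have hσ1 : σ * ((k : ℝ) + 1) ≤ c := by
    calc σ * ((k : ℝ) + 1) ≤ (1 / ((k : ℝ) + 1) * c) * ((k : ℝ) + 1) :=
          mul_le_mul_of_nonneg_right (hσc.trans (mul_le_mul_of_nonneg_right hκ1 hc.le)) hk1.le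
      _ = c := by field_simp
  have hσ2 : σ * ((k : ℝ) + 1) * 12 ≤ p.k * ε * c := by
    calc σ * ((k : ℝ) + 1) * 12 ≤ (p.k * ε / (12 * ((k : ℝ) + 1)) * c) * ((k : ℝ) + 1) * 12 :=
          mul_le_mul_of_nonneg_right (mul_le_mul_of_nonneg_right (hσc.trans (mul_le_mul_of_nonneg_right hκ2 hc.le)) hk1.le) (by norm_num)
      _ = p.k * ε * c := by field_simp
  obtain ⟨A, hA⟩ : ∃ A : ℝ, A = (k : ℝ) + 1 + (|R₀| + 1) + (3 * Cc + 7) + ((v.j : ℝ) + 1 + 6 * 9 ^ v.j * (2 * (k : ℝ) + 1) ^ mm) := ⟨_, rfl⟩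
  have hA0 : 0 < A := by rw [hA]; positivity
  have hsm : 0 < |smax| + c := by positivity
  obtain ⟨u1, hu1, a1, a2⟩ := k4e_min2 (1 / 6) (σ / 3) (by norm_num) (by positivity)
  obtain ⟨u2, hu2, a3, a4⟩ := k4e_min2 c (η / 4) hc (by positivity)
  obtain ⟨u3, hu3, a5, a6⟩ := k4e_min2 (1 / A) (1 / (16 * (|smax| + c))) (by positivity) (by positivity)
  obtain ⟨u4, hu4, a7, a8⟩ := k4e_min2 (1 / (σ * (3 * (k : ℝ) + 3))) (p.k * c * ε / 24) (by positivity) (by positivity)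
  obtain ⟨u5, hu5, b1, b2⟩ := k4e_min2 u1 u2 hu1 hu2
  obtain ⟨u6, hu6, b3, b4⟩ := k4e_min2 u3 u4 hu3 hu4
  obtain ⟨τ, hτ, b5, b6⟩ := k4e_min2 u5 u6 hu5 hu6
  refine ⟨τ, hτ, by linarith, fun s hs m _ hdep => ?_⟩
  refine k4e_small_core hp k mm Cc ε R₀ hCc c σ η smax τ hc hσ hσ1 hσ2 hη hτ (by linarith) (by linarith) (by linarith) (by linarith) ?_ ?_ ?_ (by linarith) hs m hdep
  · rw [← hA, le_div_iff₀ hτ]
    have h1 : τ ≤ 1 / A := by linarith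
    calc A * τ ≤ A * (1 / A) := mul_le_mul_of_nonneg_left h1 hA0.le
      _ = 1 := by field_simp
  · have h1 : τ ≤ 1 / (16 * (|smax| + c)) := by linarith
    calc τ * (|smax| + c) ≤ 1 / (16 * (|smax| + c)) * (|smax| + c) := mul_le_mul_of_nonneg_right h1 hsm.le
      _ = 1 / 16 := by field_simp
  · have h1 : τ ≤ 1 / (σ * (3 * (k : ℝ) + 3)) := by linarith
    have h2 : 0 < σ * (3 * (k : ℝ) + 3) := by positivity
    calc τ * (σ * (3 * (k : ℝ) + 3)) ≤ 1 / (σ * (3 * (k : ℝ) + 3)) * (σ * (3 * (k : ℝ) + 3)) := mul_le_mul_of_nonneg_right h1 h2.le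
      _ = 1 := by field_simp

/-- the depths of the nodes are positive -/
theorem k4e_dep_pos {s : KpSam v} {p : KpPrm} {τ : ℝ} (h : s.Ok p τ) (m : ℕ) (hm : m ≤ s.G) : 0 < s.dep m := by
  induction m with
  | zero => exact h.tan.dep_zero.1
  | succ m ih => exact (ih (by omega)).trans (h.tan.dep_step m (by exact hm)).1

/-- **LEAF L-252-S4E-X14** (~120 l.).  One sample: the output of `k4e_exit_sys` is an output known atlas which violates the guard.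
PROOF.  `Yo, a''` given.   `r := eps (dep m + c e')`, `e' = 2ε/3` or `ε/3`: `a * a'' = N0^{-r}` (`Real.rpow_mul`, `Real.rpow_add`, `N0 > 0`).   `s.Atl Yo r`: `wf`; `geo`: `k2s_geo_mono` + `c7`; `known`: `k2s_known_mono` + `c8`; `tmp`: `h.sys_tmp`, `c9`, monotonicity of `Tmp`;
`mass`: `tot ≤ ((G+1)/η) Z.mass ≤ (4 (G+1)/η) Yo.mass ≤ log N0 * Yo.mass` (`c10`).   `0 ≤ r ≤ Lr/2` (`c11`, `e' ≤ 1`, `dep m > 0`).   Guard: `Yo.q < N0^{-(k r - th)}`; but `Yo.q ≥ (Q m).q Λ^{-k} ≥ N0^{-(k eps dep m + thc)} N0^{-eps σ k}` (`h.cheap`) `≥ N0^{-(k r - th)}` (`c12`, `e' ≥ ε/3`). -/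
theorem k4e_exit_one {s : KpSam v} {p : KpPrm} {τ : ℝ} (hp : p.Ok) (hτ : 0 < τ) (hτ1 : τ ≤ 1) (h : s.Ok p τ) (m : ℕ) (hm : m ≤ s.G) (k mm : ℕ) (Cc ε R₀ c σ η : ℝ) (hCc : 1 ≤ Cc)
    (hε : 0 < ε) (hε1 : ε ≤ 1 / 2) (hc : 0 < c) (hσ : 0 < σ) (hη : 0 < η) (hs : K4eSmall s p m k mm Cc ε R₀ c σ η) (Zm : ℝ≥0∞) (hZm : ENNReal.ofReal (η / (s.G + 1)) * s.P.tot ≤ Zm)
    (Yo : KbSys s.P) (a'' : ℝ) (hwf : Yo.WF) (hq : (s.Q m).q * ((s.N0 ^ s.eps) ^ σ) ^ (-(k : ℝ)) ≤ Yo.q)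
    (hgeo : Yo.Geo (s.Kp * (6 * Cc + 3 * s.Kp + 4)) (s.N0 ^ (-(s.eps * s.dep m)) * a''))
    (ha : a'' = ((s.N0 ^ s.eps) ^ c) ^ (-(2 * ε / 3)) ∨ a'' = ((s.N0 ^ s.eps) ^ c) ^ (-(ε / 3)))
    (hkn : Yo.Known (s.P.hid s.aL) (3 * s.Kp * (2 * (6 * s.Kp + 5) ^ v.j * (2 * (k : ℝ) + 1) ^ mm))) (hmass : Zm ≤ 4 * Yo.mass)
    (htmp : Yo.Tmp (4 * s.Kp * (s.N0 ^ s.Mp) ^ 2 * ((s.N0 ^ s.Mp * ((s.N0 ^ s.eps) ^ σ * ((s.N0 ^ s.eps) ^ c) ^ p.d) + 2) * ((s.N0 ^ s.eps) ^ σ) ^ (3 * k + 3)))) : False := by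
  obtain ⟨hN0, hL, -, -, -⟩ := k4e_sam_basic hτ hτ1 h
  have hN00 : 0 < s.N0 := by linarith
  have heps := h.eps_pos
  have hdep := k4e_dep_pos h m hm
  have hG0 : (0 : ℝ) ≤ s.G := Nat.cast_nonneg _
  obtain ⟨e', he1, he2, ha'⟩ : ∃ e' : ℝ, ε / 3 ≤ e' ∧ e' ≤ 1 ∧ a'' = ((s.N0 ^ s.eps) ^ c) ^ (-e') := by
    rcases ha with ha | ha
    · exact ⟨2 * ε / 3, by linarith, by linarith, ha⟩
    · exact ⟨ε / 3, le_rfl, by linarith, ha⟩
  have he0 : 0 < e' := by linarith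
  obtain ⟨r, hr⟩ : ∃ r : ℝ, r = s.eps * (s.dep m + c * e') := ⟨_, rfl⟩
  have haa : s.N0 ^ (-(s.eps * s.dep m)) * a'' = s.N0 ^ (-r) := by
    rw [ha', ← Real.rpow_mul hN00.le, ← Real.rpow_mul hN00.le, ← Real.rpow_add hN00, hr]
    congr 1
    ring
  rw [haa] at hgeo
  have hr0 : 0 ≤ r := by rw [hr]; positivity
  have hr1 : r ≤ s.Lr / 2 := by
    refine le_trans ?_ hs.c11
    rw [hr]
    have : c * e' ≤ c * 1 := mul_le_mul_of_nonneg_left he2 hc.le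
    exact mul_le_mul_of_nonneg_left (by linarith) heps.le
  have hms : s.P.tot ≤ ENNReal.ofReal (Real.log s.N0) * Yo.mass := by
    have hpos : 0 < η / ((s.G : ℝ) + 1) := by positivity
    have e1 : ENNReal.ofReal (((s.G : ℝ) + 1) / η) * ENNReal.ofReal (η / ((s.G : ℝ) + 1)) = 1 := by
      rw [← ENNReal.ofReal_mul (by positivity)]
      have : ((s.G : ℝ) + 1) / η * (η / ((s.G : ℝ) + 1)) = 1 := by field_simp
      rw [this, ENNReal.ofReal_one]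
    have e2 : 4 * (((s.G : ℝ) + 1) / η) ≤ Real.log s.N0 := by
      rw [← mul_div_assoc, div_le_iff₀ hη]
      linarith [hs.c10]
    calc s.P.tot = ENNReal.ofReal (((s.G : ℝ) + 1) / η) * (ENNReal.ofReal (η / ((s.G : ℝ) + 1)) * s.P.tot) := by rw [← mul_assoc, e1, one_mul]
      _ ≤ ENNReal.ofReal (((s.G : ℝ) + 1) / η) * (4 * Yo.mass) := mul_le_mul_right (hZm.trans hmass) _
      _ = ENNReal.ofReal (4 * (((s.G : ℝ) + 1) / η)) * Yo.mass := by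
          rw [ENNReal.ofReal_mul (by norm_num)]
          have : ENNReal.ofReal 4 = 4 := by simp
          rw [this]
          ring
      _ ≤ ENNReal.ofReal (Real.log s.N0) * Yo.mass := by gcongr
  have hatl : s.Atl Yo r :=
    { wf := hwf
      geo := k2s_geo_mono _ h.tan.wf hgeo hs.c7 (Real.rpow_nonneg hN00.le _)
      known := k2s_known_mono _ hkn hs.c8
      tmp := k2s_tmp_mono _ htmp hs.c9
      mass := hms }
  have hg := (h.guard Yo r hr0 hr1 hatl).1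
  have hch := h.cheap m hm
  have hpw : ((s.N0 ^ s.eps) ^ σ) ^ (-(k : ℝ)) = s.N0 ^ (-(s.eps * (σ * k))) := by
    rw [← Real.rpow_mul hN00.le, ← Real.rpow_mul hN00.le]
    congr 1
    ring
  rw [hpw] at hq
  have hlow : s.N0 ^ (-(p.k * r - s.th)) ≤ Yo.q := by
    refine le_trans ?_ hq
    calc s.N0 ^ (-(p.k * r - s.th)) ≤ s.N0 ^ (-(p.k * (s.eps * s.dep m) + s.thc) + -(s.eps * (σ * k))) := by
          refine Real.rpow_le_rpow_of_exponent_le hN0.le ?_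
          have h12 := hs.c12
          have h3 : p.k * (s.eps * (c * (ε / 3))) ≤ p.k * (s.eps * (c * e')) :=
            mul_le_mul_of_nonneg_left (mul_le_mul_of_nonneg_left (mul_le_mul_of_nonneg_left he1 hc.le) heps.le) hp.k_pos.le
          rw [hr]
          linarith
      _ = s.N0 ^ (-(p.k * (s.eps * s.dep m) + s.thc)) * s.N0 ^ (-(s.eps * (σ * k))) := Real.rpow_add hN00 _ _
      _ ≤ (s.Q m).q * s.N0 ^ (-(s.eps * (σ * k))) := mul_le_mul_of_nonneg_right hch (Real.rpow_nonneg hN00.le _)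
  exact absurd hg (not_lt.2 hlow)

/-- the three hubs of Sec. 3 in the form consumed by the exit (owner: helper172, helper169) -/
def K4eHubs (n : ℕ) (d : ℝ) : Prop :=
  ∃ (m : ℕ) (Crem Cc ε R₀ : ℝ), 1 ≤ Crem ∧ 1 ≤ Cc ∧ 0 < ε ∧ ε ≤ 1 / 2 ∧ K4eRemez n Crem ∧ K4eCode n m Cc ∧ ∀ R : ℝ, R₀ ≤ R → K4eMatch n d ε R

/-- **THE EXIT OF S4E** (time branch of `prop:candidate-upgrade`).   For `σ ≤ κ₀ c` and small tolerance, NO guarded sample carries at a node of depth `≤ smax` a system of time candidates of gain `c`, slack `N^σ`, mass `≥ η tot / (G+1)`.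
(**LEAF L-252-S4E-X15**, assembly ~60 l.: `k4e_exit_sys`, `k4e_small`, `k4e_sam_node`, `k4e_sam_cap`, `k4e_exit_one`; `Y.Z ≤ 1` (`k2n_Z_le_one`) and `c6` give the coverage hypothesis.) -/
theorem k4e_exit (v : KbVer) (p : KpPrm) (hp : p.Ok) (hub : K4eHubs (v.j + 1) p.d) :
    ∃ κ₀ : ℝ, 0 < κ₀ ∧ ∀ c σ η smax : ℝ, 0 < c → 0 < σ → σ ≤ κ₀ * c → 0 < η → ∃ τ₀ : ℝ, 0 < τ₀ ∧ ∀ s : KpSam v, s.Ok p τ₀ → ∀ m ≤ s.G, s.dep m ≤ smax →
      ∀ (Z : KbSys s.P) (par : Z.C → (s.Q m).C), K4eCand s.P (s.Q m) Z par (s.N0 ^ (-(s.eps * s.dep m))) ((s.N0 ^ s.eps) ^ σ) ((s.N0 ^ s.eps) ^ c) p.d →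
        ENNReal.ofReal (η / (s.G + 1)) * s.P.tot ≤ Z.mass → False := by
  obtain ⟨mm, Crem, Cc, ε, R₀, hCrem, hCc, hε, hε1, hrem, hcode, hmatch⟩ := hub
  obtain ⟨k, hk⟩ := k4e_exit_sys v mm Crem Cc ε hCrem hCc hε hε1
  obtain ⟨κ₀, hκ₀, hsm⟩ := k4e_small v p hp k mm Cc ε R₀ hCc hε
  refine ⟨κ₀, hκ₀, ?_⟩
  intro c σ η smax hc hσ hσc hη
  obtain ⟨τ₀, hτ₀, hτ₁, hs⟩ := hsm c σ η smax hc hσ hσc hη
  refine ⟨τ₀, hτ₀, ?_⟩
  intro s hOk m hm hdep Z par hC hmass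
  obtain ⟨hS, hlo, hhi, hΛ⟩ := hs s hOk m hm hdep
  obtain ⟨hN, -⟩ := k4e_sam_node hτ₀ hτ₁ hOk m hm
  have hcap := k4e_sam_cap hp hτ₀ hτ₁ hOk m hm c ((s.N0 ^ s.eps) ^ σ) hc hlo hhi hΛ
  obtain ⟨hN0, -, -, -, -⟩ := k4e_sam_basic hτ₀ hτ₁ hOk
  have haL : 0 < s.aL := Real.rpow_pos_of_pos (by linarith) _
  have hZ1 := (s.Q m).k2n_Z_le_one hN.pwf hN.ywf
  have hcov : ENNReal.ofReal (1 / (s.N0 ^ s.eps) ^ σ) * (s.Q m).Z ≤ Z.mass :=
    calc ENNReal.ofReal (1 / (s.N0 ^ s.eps) ^ σ) * (s.Q m).Z ≤ ENNReal.ofReal (1 / (s.N0 ^ s.eps) ^ σ) * 1 := by gcongr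
      _ = ENNReal.ofReal (1 / (s.N0 ^ s.eps) ^ σ) := mul_one _
      _ ≤ _ := hS.c6.trans hmass
  obtain ⟨Yo, a'', hwf, hq, hgeo, ha, hkn, hms, htmp⟩ := hk s.P (s.Q m) Z par _ s.Kp s.aL _ _ p.d hN hC hcap hS.c1 hS.c2 hS.c3 haL hS.c5 hp.d_nonneg
    (hmatch _ hS.c4) hrem hcode hcov
  have hQ1 : 1 ≤ s.N0 ^ s.Mp := Real.one_le_rpow hN0.le (by linarith [hOk.Mp_one])
  exact k4e_exit_one hp hτ₀ hτ₁ hOk m hm k mm Cc ε R₀ c σ η hCc hε hε1 hc hσ hη hS Z.mass hmass Yo a'' hwf hq hgeo ha hkn hms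
    (htmp _ hQ1 (hOk.sys_tmp m hm))

theorem k4e_exit_contract_eqns_cite : True := by
  have := @KbSys.k4eWb.eq_1
  have := @KbSys.k4eDnT.eq_1
  have := @KbSys.k4eDn.eq_1
  have := @K4eCap.eq_1
  have := @K4eHubs.eq_1
  trivial

end

end Claimed.Agent.R252
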