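import Claimed.Agent.R252.Top.S4
import Claimed.Agent.R252.S4E.ExitContract

/-!
# ROW 252 (S0492), unit S4E (sub-architect helper222), file 6: THE EXIT IN THE FORM OF THE INTEGRATOR (`Top/S4.lean`, helper221).      No `sorry` in this file (it cites `k4e_exit`, `k4e_sam_basic` of `S4E/ExitContract`).

`k4e_hub_exit : KtsHubS3 → KtsHubExit`.      `KtsTimeIn s p m c σ η Z par` (slack `2 N^{2σ}`) gives `K4eCand` with slack `N^{3σ}` as soon as `N^σ ≥ 2`;   `κ = κ₀ / 3`, `η' = η / 2`.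
-/

set_option autoImplicit false

namespace Claimed.Agent.R252

open MeasureTheory
open scoped ENNReal BigOperators

noncomputable section

variable {v : KbVer}

theorem k4e_hubs_of_s3 (h : KtsHubS3) (n : ℕ) (d : ℝ) (hd0 : 0 ≤ d) (hd1 : d < 1) : K4eHubs n d := by
  obtain ⟨ε, Crem, Cc, R₀, m, h1, h2, h3, h4, h5, h6, h7⟩ := h n d hd0 hd1
  exact ⟨m, Crem, Cc, ε, R₀, h3, h4, h1, h2, h5, h6, h7⟩

/-- the record of the integrator gives the candidates of `S4E/ExitContract` -/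
theorem k4e_cand_of_in {s : KpSam v} {p : KpPrm} {τ : ℝ} (hτ : 0 < τ) (hτ1 : τ ≤ 1) (hs : s.Ok p τ) (m : ℕ) (hm : m ≤ s.G) (c σ η : ℝ) (hσ : τ ≤ σ)
    (Z : KbSys s.P) (par : Z.C → (s.Q m).C) (h : KtsTimeIn s p m c σ η Z par) :
    K4eCand s.P (s.Q m) Z par (s.N0 ^ (-(s.eps * s.dep m))) ((s.N0 ^ s.eps) ^ (3 * σ)) ((s.N0 ^ s.eps) ^ c) p.d := by
  obtain ⟨hN0, -, -, h2n, -⟩ := k4e_sam_basic hτ hτ1 hs
  have hN00 : 0 < s.N0 := by linarith
  obtain ⟨N, hN⟩ : ∃ N : ℝ, N = s.N0 ^ s.eps := ⟨_, rfl⟩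
  have hNt : s.tan.N = N := hN.symm
  have hN1 : 1 ≤ N := by rw [hN]; exact Real.one_le_rpow hN0.le hs.eps_pos.le
  have hNp : 0 < N := by linarith
  have hn1 : 1 ≤ s.n := by
    have h1 : (1 : ℝ) ≤ 1 / τ := by rw [le_div_iff₀ hτ]; linarith
    have h2 : (1 : ℝ) ≤ s.n := h1.trans hs.stage
    exact_mod_cast h2
  have h2σ : 2 ≤ N ^ σ := by
    have h1 : (2 : ℝ) ≤ 2 ^ s.n := by
      calc (2 : ℝ) = 2 ^ 1 := (pow_one _).symm
        _ ≤ 2 ^ s.n := pow_le_pow_right₀ (by norm_num) hn1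
    rw [← hN] at h2n
    exact h1.trans (h2n.trans (Real.rpow_le_rpow_of_exponent_le hN1 hσ))
  have hΛ : 2 * N ^ (2 * σ) ≤ N ^ (3 * σ) := by
    have e : N ^ (3 * σ) = N ^ σ * N ^ (2 * σ) := by rw [← Real.rpow_add hNp]; ring_nf
    rw [e]
    exact mul_le_mul_of_nonneg_right h2σ (Real.rpow_nonneg hNp.le _)
  have hΛ' : N ^ (2 * σ) ≤ N ^ (3 * σ) := by
    have : 0 ≤ N ^ (2 * σ) := Real.rpow_nonneg hNp.le _
    linarith
  have hth : s.tan.a m * s.tan.N ^ (-c) = s.N0 ^ (-(s.eps * s.dep m)) / N ^ c := by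
    have e1 : s.tan.a m = s.N0 ^ (-(s.eps * s.dep m)) := by
      show (s.N0 ^ s.eps) ^ (-s.dep m) = _
      rw [← Real.rpow_mul hN00.le]
      congr 1
      ring
    rw [e1, hNt, Real.rpow_neg hNp.le, div_eq_mul_inv]
  have hth0 : 0 ≤ s.N0 ^ (-(s.eps * s.dep m)) / N ^ c := div_nonneg (Real.rpow_nonneg hN00.le _) (Real.rpow_nonneg hNp.le _)
  have hgeo := h.geo
  rw [hth, hNt] at hgeo
  have hB : ∀ γ, 0 < s.P.B γ := hs.tan.wf.B_pos
  rw [← hN]
  refine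
    { wf := h.wf
      n_eq := h.n_eq
      wd_eq := h.wd_eq
      iv_eq := h.iv_eq
      A_sub := h.A_sub
      S_sub := ?_
      val := fun z l hl t ht => (hgeo.val z l hl t ht).trans (mul_le_mul_of_nonneg_right hΛ hth0)
      dw := fun z l hl t ht => (hgeo.dw z l hl t ht).trans (mul_le_mul_of_nonneg_right hΛ (hB _).le)
      dw_low := fun z x hx => (hgeo.dw_low z x hx).trans (mul_le_mul_of_nonneg_right hΛ (abs_nonneg _))
      dww := fun z t y w => (hgeo.dww z t y w).trans (mul_le_mul_of_nonneg_right hΛ (by positivity))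
      floor := ?_ }
  · intro z x hx
    have h1 := h.wf.S_sub z hx
    have h2 : (s.Q m).S (par z) = s.P.Ev ((s.Q m).wd (par z)) ∩ (s.Q m).A (par z) ×ˢ (s.Q m).I (par z) := hs.tan.path m hm (par z)
    rw [h2]
    have h3 : Z.I z = (s.Q m).I (par z) := by
      unfold KbSys.I
      rw [h.n_eq, h.iv_eq]
    rw [h.wd_eq z, h3] at h1
    exact ⟨h1.1, h.A_sub z h1.2.1, h1.2.2⟩
  · intro z
    have h1 := h.floor z
    rw [hNt] at h1
    have hL0 : 0 < N ^ (3 * σ) := Real.rpow_pos_of_pos hNp _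
    have e1 : (N ^ c) ^ (-p.d) = N ^ (-(p.d * c)) := by
      rw [← Real.rpow_mul hNp.le]
      congr 1
      ring
    rw [e1, ENNReal.ofReal_div_of_pos hL0, ENNReal.div_eq_inv_mul, mul_assoc]
    calc (ENNReal.ofReal (N ^ (3 * σ)))⁻¹ * (ENNReal.ofReal ((s.Q m).q * N ^ (-(p.d * c))) * (s.Q m).nuC (par z))
        ≤ (ENNReal.ofReal (N ^ (3 * σ)))⁻¹ * (ENNReal.ofReal (N ^ (2 * σ)) * Z.mC z) := by gcongr
      _ ≤ (ENNReal.ofReal (N ^ (3 * σ)))⁻¹ * (ENNReal.ofReal (N ^ (3 * σ)) * Z.mC z) := by gcongr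
      _ = Z.mC z := by
          rw [← mul_assoc, ENNReal.inv_mul_cancel (by simpa using hL0) ENNReal.ofReal_ne_top, one_mul]

/-- **the exit of S4E in the form of `Top/S4.lean`** -/
theorem k4e_hub_exit (h3 : KtsHubS3) : KtsHubExit := by
  intro v p hp _
  obtain ⟨κ₀, hκ₀, hex⟩ := k4e_exit v p hp (k4e_hubs_of_s3 h3 _ _ hp.d_nonneg hp.d_lt)
  refine ⟨κ₀ / 3, by positivity, ?_⟩
  intro smax c σ η hσ hσc hη
  have hc : 0 < c := by
    by_contra hc
    have : κ₀ / 3 * c ≤ 0 := mul_nonpos_of_nonneg_of_nonpos (by positivity) (not_lt.1 hc)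
    linarith
  obtain ⟨τ₀, hτ₀, hx⟩ := hex c (3 * σ) (η / 2) smax hc (by positivity) (by linarith) (by positivity)
  refine ⟨min τ₀ (min σ 1), lt_min hτ₀ (lt_min hσ one_pos), ?_⟩
  intro τ hτ hττ s hs m hm hdep Z par hin
  have h1 : τ ≤ τ₀ := hττ.trans (min_le_left _ _)
  have h2 : τ ≤ σ := hττ.trans ((min_le_right _ _).trans (min_le_left _ _))
  have h3 : τ ≤ 1 := hττ.trans ((min_le_right _ _).trans (min_le_right _ _))
  refine hx s (k4b_sam_mono s p τ τ₀ hτ h1 hs) m hm hdep Z par (k4e_cand_of_in hτ h3 hs m hm c σ η h2 Z par hin) ?_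
  have h4 := hin.mass
  have e : η / 2 / ((s.G : ℝ) + 1) = η / (2 * ((s.G : ℝ) + 1)) := by rw [div_div]
  rw [e, mul_comm]
  exact h4

end

end Claimed.Agent.R252
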